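import Vale.Agent.P157.Sphere

/-!
Existence of the limit of the pressure of the spherical perceptron.
-/

namespace Vale.Agent.P157

open MeasureTheory ProbabilityTheory Finset Filter Topology

variable {ι : Type} [Fintype ι]

lemma memLp_sq_gaussian : MemLp (fun x : ℝ => x ^ 2) 2 (gaussianReal 0 1) := by
  rw [memLp_two_iff_integrable_sq (by fun_prop)]
  have h := (memLp_id_gaussianReal (μ := 0) (v := 1) 4).integrable_norm_pow (p := 4) (by norm_num)
  refine h.congr (.of_forall fun x => ?_)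
  simp only [id, Real.norm_eq_abs]
  rw [show |x| ^ 4 = (|x| ^ 2) ^ 2 by ring, sq_abs]

lemma integral_sq_gaussian : ∫ x, x ^ 2 ∂gaussianReal 0 1 = 1 := by
  have h := variance_id_gaussianReal (μ := 0) (v := 1)
  rw [variance_eq_integral measurable_id.aemeasurable] at h
  simpa [integral_id_gaussianReal] using h

/-- The fluctuation of a squared standard Gaussian. -/
noncomputable def sqVar : ℝ := variance (fun x : ℝ => x ^ 2) (gaussianReal 0 1)

lemma weighted_sq_moments (d : ι → ℝ) :
    Integrable (fun ξ : ι → ℝ => ∑ i, d i * ξ i ^ 2) (gauss ι) ∧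
      ∫ ξ, ∑ i, d i * ξ i ^ 2 ∂gauss ι = ∑ i, d i ∧
      Integrable (fun ξ : ι → ℝ => (∑ i, d i * ξ i ^ 2) ^ 2) (gauss ι) ∧
      ∫ ξ, (∑ i, d i * ξ i ^ 2) ^ 2 ∂gauss ι = (∑ i, d i) ^ 2 + sqVar * ∑ i, d i ^ 2 := by
  have hmem : ∀ i, MemLp (fun x : ℝ => d i * x ^ 2) 2 (gaussianReal 0 1) :=
    fun i => memLp_sq_gaussian.const_mul _
  have hmemi : ∀ i, MemLp (fun ξ : ι → ℝ => d i * ξ i ^ 2) 2 (gauss ι) := fun i =>
    (hmem i).comp_measurePreserving (measurePreserving_eval (fun _ : ι => gaussianReal 0 1) i)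
  have hmemS : MemLp (fun ξ : ι → ℝ => ∑ i, d i * ξ i ^ 2) 2 (gauss ι) :=
    memLp_finsetSum _ fun i _ => hmemi i
  have hint : ∫ ξ, ∑ i, d i * ξ i ^ 2 ∂gauss ι = ∑ i, d i := by
    rw [integral_finsetSum _ fun i _ => (hmemi i).integrable (by norm_num)]
    refine sum_congr rfl fun i _ => ?_
    unfold gauss
    rw [integral_comp_eval (μ := fun _ : ι => gaussianReal 0 1) (i := i)
      (f := fun x : ℝ => d i * x ^ 2) (by fun_prop), integral_const_mul,
      integral_sq_gaussian, mul_one]
  have hvar : variance (fun ξ : ι → ℝ => ∑ i, d i * ξ i ^ 2) (gauss ι) =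
      sqVar * ∑ i, d i ^ 2 := by
    rw [show (fun ξ : ι → ℝ => ∑ i, d i * ξ i ^ 2) =
        ∑ i, fun ξ : ι → ℝ => (fun x : ℝ => d i * x ^ 2) (ξ i) by funext ξ; simp]
    unfold gauss
    rw [variance_sum_pi hmem, mul_sum]
    refine sum_congr rfl fun i _ => ?_
    rw [variance_const_mul, sqVar, mul_comm]
  refine ⟨hmemS.integrable (by norm_num), hint, hmemS.integrable_sq, ?_⟩
  have h := variance_eq_sub hmemS
  rw [hvar, hint] at h
  simp only [Pi.pow_apply] at h
  linarith

/-- The share of one block concentrates. -/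
lemma share_dev_le {A B : ℕ} (hA : 1 ≤ A) (hB : 1 ≤ B) :
    ∫ t, (share t - (A : ℝ) / (A + B : ℕ)) ^ 2 ∂lensLaw (Fin A) (Fin B) ≤
      sqVar / (A + B : ℕ) := by
  have : Nonempty (Fin A) := ⟨⟨0, hA⟩⟩
  have : Nonempty (Fin B) := ⟨⟨0, hB⟩⟩
  set lam : ℝ := (A : ℝ) / (A + B : ℕ) with hlam
  have hA0 : (0 : ℝ) < A := by exact_mod_cast hA
  have hB0 : (0 : ℝ) < B := by exact_mod_cast hB
  have hN0 : (0 : ℝ) < (A + B : ℕ) := by push_cast; linarith
  have hl0 : 0 ≤ lam := by positivity
  have hl1 : lam ≤ 1 := by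
    rw [hlam, div_le_one hN0]
    push_cast; linarith
  set e : (Fin A ⊕ Fin B → ℝ) → ℝ := fun ξ => ∑ i, Sum.elim (fun _ => (1 : ℝ)) (fun _ => 0) i *
    ξ i ^ 2 with he
  set S : (Fin A ⊕ Fin B → ℝ) → ℝ := normSqF
  set h : (Fin A ⊕ Fin B → ℝ) → ℝ := fun ξ => (e ξ / S ξ - lam) ^ 2 with hh
  have heS : ∀ ξ, 0 ≤ e ξ ∧ e ξ ≤ S ξ := by
    intro ξ
    refine ⟨sum_nonneg fun i _ => mul_nonneg (by cases i <;> simp) (sq_nonneg _),
      sum_le_sum fun i _ => mul_le_of_le_one_left (sq_nonneg _) (by cases i <;> simp)⟩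
  have hem : Measurable e := by rw [he]; fun_prop
  have hhm : Measurable h := ((hem.div measurable_normSqF).sub_const lam).pow_const 2
  have hhb : ∀ ξ, |h ξ| ≤ 1 := by
    intro ξ
    rw [hh, abs_pow, sq_le_one_iff_abs_le_one, abs_abs, abs_le]
    have h1 : 0 ≤ e ξ / S ξ := div_nonneg (heS ξ).1 (normSqF_nonneg ξ)
    have h2 : e ξ / S ξ ≤ 1 := div_le_one_of_le₀ (heS ξ).2 (normSqF_nonneg ξ)
    constructor <;> linarith
  have hscale : ∀ ξ, h (udir ξ) * S ξ ^ 2 = (e ξ - lam * S ξ) ^ 2 := by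
    intro ξ
    rcases eq_or_ne (S ξ) 0 with h0 | h0
    · have he0 : e ξ = 0 := le_antisymm ((heS ξ).2.trans_eq h0) (heS ξ).1
      simp [h0, he0]
    · have hp : 0 < S ξ := (normSqF_nonneg ξ).lt_of_ne' h0
      have hsq : ∀ i, udir ξ i ^ 2 = ξ i ^ 2 / S ξ := fun i => by
        rw [udir, div_pow, Real.sq_sqrt (normSqF_nonneg ξ)]
      have hS1 : S (udir ξ) = 1 := by
        simp only [S, normSqF] at hsq ⊢
        simp only [hsq, ← sum_div]
        exact div_self h0
      have he1 : e (udir ξ) = e ξ / S ξ := by simp only [he, hsq, sum_div, mul_div_assoc]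
      simp only [hh, hS1, he1, div_one]
      field_simp
  -- the two sides of the identity
  have hshare : ∫ t, (share t - lam) ^ 2 ∂lensLaw (Fin A) (Fin B) =
      ∫ ξ, h ξ ∂gauss (Fin A ⊕ Fin B) := by
    unfold lensLaw
    rw [Measure.map_prod_map _ _ measurable_normSqF measurable_normSqF,
      integral_map (measurable_normSqF.prodMap measurable_normSqF).aemeasurable
        ((measurable_share.sub_const lam).pow_const 2).aestronglyMeasurable]
    refine (((measurePreserving_sumPiEquivProdPi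
      (fun _ : Fin A ⊕ Fin B => gaussianReal 0 1))).integral_comp' _).symm.trans ?_
    refine integral_congr_ae (.of_forall fun ξ => ?_)
    simp only [hh, share, he, Prod.map, S, normSqF, Fintype.sum_sum_type, Sum.elim_inl,
      Sum.elim_inr, one_mul, zero_mul, sum_const_zero, add_zero]
    rfl
  have hud : ∀ ξ, h (udir ξ) = h ξ := by
    intro ξ
    rcases eq_or_ne (S ξ) 0 with h0 | h0
    · have hz : ∀ i, ξ i = 0 := fun i => by
        simpa using (sum_eq_zero_iff_of_nonneg fun j _ => sq_nonneg (ξ j)).1 h0 i (mem_univ i)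
      have : udir ξ = ξ := funext fun i => by simp [udir, hz i]
      rw [this]
    · have h2 : S ξ ^ 2 ≠ 0 := pow_ne_zero 2 h0
      refine mul_right_cancel₀ h2 ?_
      rw [hscale ξ, hh]
      simp only []
      field_simp
  have hfact : ∫ ξ, h (udir ξ) * S ξ ^ 2 ∂gauss (Fin A ⊕ Fin B) =
      (∫ ξ, h ξ ∂gauss (Fin A ⊕ Fin B)) * ∫ ξ, S ξ ^ 2 ∂gauss (Fin A ⊕ Fin B) := by
    have hmP : Measurable fun ξ : Fin A ⊕ Fin B → ℝ => (udir ξ, normSqF ξ) :=
      measurable_udir.prodMk measurable_normSqF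
    have hint : ∫ ξ, h ξ ∂gauss (Fin A ⊕ Fin B) = ∫ ξ, h ξ ∂unitUnif (Fin A ⊕ Fin B) := by
      rw [← map_udir, integral_map measurable_udir.aemeasurable hhm.aestronglyMeasurable]
      exact integral_congr_ae (.of_forall fun ξ => (hud ξ).symm)
    calc ∫ ξ, h (udir ξ) * S ξ ^ 2 ∂gauss (Fin A ⊕ Fin B)
        = ∫ p, h p.1 * p.2 ^ 2 ∂((gauss (Fin A ⊕ Fin B)).map fun ξ => (udir ξ, normSqF ξ)) :=
          (integral_map hmP.aemeasurable (f := fun p => h p.1 * p.2 ^ 2)
            ((hhm.comp measurable_fst).mul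
              (measurable_snd.pow_const 2)).aestronglyMeasurable).symm
      _ = (∫ ξ, h ξ ∂unitUnif (Fin A ⊕ Fin B)) *
            ∫ s, s ^ 2 ∂(gauss (Fin A ⊕ Fin B)).map normSqF := by
          rw [map_polar]
          exact integral_prod_mul h fun s => s ^ 2
      _ = _ := by
          rw [hint, integral_map measurable_normSqF.aemeasurable (by fun_prop)]
  obtain ⟨-, -, -, h1⟩ := weighted_sq_moments (ι := Fin A ⊕ Fin B)
    (Sum.elim (fun _ => 1 - lam) (fun _ => -lam))
  obtain ⟨-, -, -, h2⟩ := weighted_sq_moments (ι := Fin A ⊕ Fin B) (fun _ => 1)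
  have hv : 0 ≤ sqVar := variance_nonneg _ _
  have hS2 : ((A + B : ℕ) : ℝ) ^ 2 ≤ ∫ ξ, S ξ ^ 2 ∂gauss (Fin A ⊕ Fin B) := by
    simp only [one_mul] at h2
    simp only [S, normSqF, h2]
    simp
    positivity
  have hdev : ∫ ξ, h (udir ξ) * S ξ ^ 2 ∂gauss (Fin A ⊕ Fin B) ≤ sqVar * (A + B : ℕ) := by
    have e1 : ∀ ξ : Fin A ⊕ Fin B → ℝ, h (udir ξ) * S ξ ^ 2 =
        (∑ i, Sum.elim (fun _ => 1 - lam) (fun _ => -lam) i * ξ i ^ 2) ^ 2 := by
      intro ξ
      rw [hscale]
      congr 1
      simp only [he, S, normSqF, mul_sum, ← sum_sub_distrib]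
      refine sum_congr rfl fun i _ => ?_
      cases i <;> simp <;> ring
    simp only [e1, h1]
    have hz : ∑ i : Fin A ⊕ Fin B, Sum.elim (fun _ => 1 - lam) (fun _ => -lam) i = 0 := by
      simp [Fintype.sum_sum_type, hlam]
      field_simp
      ring
    rw [hz, zero_pow two_ne_zero, zero_add]
    refine mul_le_mul_of_nonneg_left ?_ hv
    calc ∑ i : Fin A ⊕ Fin B, Sum.elim (fun _ => 1 - lam) (fun _ => -lam) i ^ 2
        ≤ ∑ _i : Fin A ⊕ Fin B, (1 : ℝ) := sum_le_sum fun i _ => by
          cases i <;> simp <;> (rw [abs_le]; constructor <;> linarith)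
      _ = _ := by simp
  rw [hshare, le_div_iff₀ hN0]
  have h0 : 0 ≤ ∫ ξ, h ξ ∂gauss (Fin A ⊕ Fin B) := integral_nonneg fun ξ => sq_nonneg _
  have h3 := mul_le_mul_of_nonneg_left hS2 h0
  rw [← hfact] at h3
  refine le_of_mul_le_mul_right (le_trans (le_of_eq ?_) (h3.trans hdev)) hN0
  ring

lemma unitUnif_reindex {ι κ : Type} [Fintype ι] [Fintype κ] [Nonempty ι] (e : ι ≃ κ) :
    (unitUnif ι).map (MeasurableEquiv.piCongrLeft (fun _ : κ => ℝ) e) = unitUnif κ := by
  have : Nonempty κ := e.nonempty_congr.1 ‹_›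
  have hT : MeasurePreserving (MeasurableEquiv.piCongrLeft (fun _ : κ => ℝ) e) (gauss ι)
      (gauss κ) := measurePreserving_piCongrLeft (fun _ : κ => gaussianReal 0 1) e
  rw [← map_udir, ← map_udir (ι := κ), ← hT.map_eq,
    Measure.map_map (MeasurableEquiv.measurable _) measurable_udir,
    Measure.map_map measurable_udir (MeasurableEquiv.measurable _)]
  congr 1
  funext ξ j
  obtain ⟨i, rfl⟩ := e.surjective j
  have hn : normSqF (MeasurableEquiv.piCongrLeft (fun _ : κ => ℝ) e ξ) = normSqF ξ :=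
    (Fintype.sum_equiv e _ _ fun i => by rw [MeasurableEquiv.piCongrLeft_apply_apply]).symm
  simp [udir, hn, MeasurableEquiv.piCongrLeft_apply_apply]

lemma contLog_reindex (u : ℝ → ℝ) {ι κ : Type} [Fintype ι] [Fintype κ]
    [Nonempty ι] (e : ι ≃ κ) (M : ℕ) :
    contLog u (unitUnif κ) M = contLog u (unitUnif ι) M := by
  set T := MeasurableEquiv.piCongrLeft (fun _ : κ => ℝ) e with hTdef
  have hT : MeasurePreserving T (gauss ι) (gauss κ) :=
    measurePreserving_piCongrLeft (fun _ : κ => gaussianReal 0 1) e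
  have hTM : MeasurePreserving (MeasurableEquiv.piCongrRight fun _ : Fin M => T) (gaussM ι M)
      (gaussM κ M) := measurePreserving_pi _ _ fun _ => hT
  unfold contLog
  rw [← hTM.integral_comp']
  refine integral_congr_ae (.of_forall fun G => ?_)
  simp only
  congr 1
  rw [← unitUnif_reindex e, integral_map_equiv]
  refine integral_congr_ae (.of_forall fun a => ?_)
  refine prod_congr rfl fun j _ => congrArg u ?_
  refine (Fintype.sum_equiv e _ _ fun i => ?_).symm
  simp [MeasurableEquiv.piCongrRight, hTdef, MeasurableEquiv.piCongrLeft_apply_apply]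

variable {u : ℝ → ℝ} {L : ℝ}

/-- Jensen's inequality over the share of the first block. -/
lemma contLog_sum_ge (hu : Weight u L) {ι₁ ι₂ : Type} [Fintype ι₁] [Fintype ι₂] [Nonempty ι₁]
    [Nonempty ι₂] (n : ℕ) (b : ℝ × ℝ → ℝ) (hbi : Integrable b (lensLaw ι₁ ι₂))
    (hb : ∀ t, 0 ≤ share t → share t ≤ 1 →
      b t ≤ contLog u (((unitUnif ι₁).prod (unitUnif ι₂)).map (joinBlocks (share t))) n) :
    ∫ t, b t ∂lensLaw ι₁ ι₂ ≤ contLog u (unitUnif (ι₁ ⊕ ι₂)) n := by
  set π := (unitUnif ι₁).prod (unitUnif ι₂)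
  let Y : ℝ × ℝ → (Fin n → ι₁ ⊕ ι₂ → ℝ) → ℝ := fun t G =>
    ∫ p, phiW u G (joinBlocks (share t) p) ∂π
  have hJ : ∀ t, Measurable (joinBlocks (share t) : (ι₁ → ℝ) × (ι₂ → ℝ) → ι₁ ⊕ ι₂ → ℝ) :=
    fun t => measurable_joinBlocks' _
  have hYb : ∀ t G, Real.exp (-(L * n)) ≤ Y t G ∧ Y t G ≤ Real.exp (L * n) := fun t G => by
    have : IsProbabilityMeasure (π.map (joinBlocks (share t))) :=
      Measure.isProbabilityMeasure_map (hJ t).aemeasurable
    have h := integral_phiW_bounds hu G (π.map (joinBlocks (share t)))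
    rwa [integral_map (f := phiW u G) (hJ t).aemeasurable ((continuous_phiW hu n).comp
      (continuous_const.prodMk continuous_id)).aestronglyMeasurable] at h
  have hcont : ∀ t, contLog u (π.map (joinBlocks (share t))) n =
      ∫ G, Real.log (Y t G) ∂gaussM _ n := fun t => by
    refine integral_congr_ae (.of_forall fun G => ?_)
    simp only
    congr 1
    exact integral_map (f := phiW u G) (hJ t).aemeasurable ((continuous_phiW hu n).comp
      (continuous_const.prodMk continuous_id)).aestronglyMeasurable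
  have hYm : Measurable (Function.uncurry Y) := by
    have h : Measurable fun q : ((ℝ × ℝ) × (Fin n → ι₁ ⊕ ι₂ → ℝ)) × ((ι₁ → ℝ) × (ι₂ → ℝ)) =>
        phiW u q.1.2 (joinBlocks (share q.1.1) q.2) :=
      (continuous_phiW hu n).measurable.comp ((measurable_snd.comp measurable_fst).prodMk
        (measurable_joinBlocks.comp ((measurable_share.comp
          (measurable_fst.comp measurable_fst)).prodMk measurable_snd)))
    exact h.stronglyMeasurable.integral_prod_right'.measurable
  have hlogi : Integrable (Function.uncurry fun t G => Real.log (Y t G))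
      ((lensLaw ι₁ ι₂).prod (gaussM _ n)) :=
    Integrable.of_bound (Real.measurable_log.comp hYm).aestronglyMeasurable (L * n)
      (.of_forall fun q => by
        rw [Real.norm_eq_abs]
        exact abs_log_le_of_bounds (hYb q.1 q.2).1 (hYb q.1 q.2).2)
  have hjen : ∀ G, ∫ t, Real.log (Y t G) ∂lensLaw ι₁ ι₂ ≤
      Real.log (∫ a, phiW u G a ∂unitUnif (ι₁ ⊕ ι₂)) := by
    intro G
    have hm : Measurable (phiW u G) :=
      ((continuous_phiW hu n).comp (continuous_const.prodMk continuous_id)).measurable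
    rw [integral_unitUnif_sum hm (B := Real.exp (L * n)) fun a => by
      rw [abs_of_pos (lt_of_lt_of_le (Real.exp_pos _) (phiW_bounds hu G a).1)]
      exact (phiW_bounds hu G a).2]
    have hYG : Measurable fun t => Y t G := hYm.comp (measurable_id.prodMk measurable_const)
    have hsub : Set.Ici (Real.exp (-(L * n))) ⊆ Set.Ioi 0 := fun x hx =>
      lt_of_lt_of_le (Real.exp_pos _) hx
    exact ((strictConcaveOn_log_Ioi.concaveOn).subset hsub (convex_Ici _)).le_map_integral
      (Real.continuousOn_log.mono fun x hx => (ne_of_gt (hsub hx))) isClosed_Ici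
      (.of_forall fun t => (hYb t G).1)
      (Integrable.of_bound hYG.aestronglyMeasurable (Real.exp (L * n)) (.of_forall fun t => by
        rw [Real.norm_eq_abs, abs_of_pos (lt_of_lt_of_le (Real.exp_pos _) (hYb t G).1)]
        exact (hYb t G).2))
      (Integrable.of_bound (Real.measurable_log.comp hYG).aestronglyMeasurable (L * n)
        (.of_forall fun t => by
          rw [Real.norm_eq_abs]
          exact abs_log_le_of_bounds (hYb t G).1 (hYb t G).2))
  calc ∫ t, b t ∂lensLaw ι₁ ι₂ ≤ ∫ t, ∫ G, Real.log (Y t G) ∂gaussM _ n ∂lensLaw ι₁ ι₂ := by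
        refine integral_mono_ae hbi hlogi.integral_prod_left ?_
        filter_upwards [share_mem_ae] with t ht
        exact (hb t ht.1 ht.2).trans_eq (hcont t)
    _ = ∫ G, ∫ t, Real.log (Y t G) ∂lensLaw ι₁ ι₂ ∂gaussM _ n := integral_integral_swap hlogi
    _ ≤ _ := integral_mono hlogi.integral_prod_right (integrable_logIntegral hu _ n) hjen

variable {ρ : Measure ℝ} [IsFiniteMeasure ρ] {c : ℝ}

/-- The averaged log-partition function of the spherical system. -/
noncomputable def sphereLog (u : ℝ → ℝ) (N M : ℕ) : ℝ := contLog u (unitUnif (Fin N)) M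

lemma sphereLog_superadd (hc : ρ.real Set.univ < c) {α : ℝ} (hα : 0 ≤ α) {A B : ℕ} (hA : 1 ≤ A)
    (hB : 1 ≤ B) :
    sphereLog (fun z => c - cosTransform ρ z) A ⌊α * A⌋₊ +
      sphereLog (fun z => c - cosTransform ρ z) B ⌊α * B⌋₊ -
      (|Real.log (c - ρ.real Set.univ)| + |Real.log (c + ρ.real Set.univ)|) *
        (2 * α ^ 2 * sqVar + α + 17) * Real.sqrt ((A + B : ℕ) : ℝ) ≤
      sphereLog (fun z => c - cosTransform ρ z) (A + B) ⌊α * (A + B : ℕ)⌋₊ := by
  have : Nonempty (Fin A) := ⟨⟨0, hA⟩⟩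
  have : Nonempty (Fin B) := ⟨⟨0, hB⟩⟩
  have hu := weight_cosTransform hc
  set L := |Real.log (c - ρ.real Set.univ)| + |Real.log (c + ρ.real Set.univ)| with hLdef
  have hL : 0 ≤ L := hu.nonneg
  have hA0 : (0 : ℝ) < A := by exact_mod_cast hA
  have hB0 : (0 : ℝ) < B := by exact_mod_cast hB
  have hN1 : (1 : ℝ) ≤ (A + B : ℕ) := by exact_mod_cast (by omega : 1 ≤ A + B)
  set N : ℝ := ((A + B : ℕ) : ℝ) with hNdef
  set m₁ := ⌊α * A⌋₊
  set m₂ := ⌊α * B⌋₊
  set n := ⌊α * N⌋₊
  set lam : ℝ := (A : ℝ) / N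
  have hNAB : N = A + B := by rw [hNdef]; push_cast; ring
  have b0 := Nat.floor_le (show 0 ≤ α * N by positivity)
  have b0' := Nat.lt_floor_add_one (α * N)
  have a0 := Nat.floor_le (show 0 ≤ α * (A : ℝ) by positivity)
  have a0' := Nat.lt_floor_add_one (α * (A : ℝ))
  have c0 := Nat.floor_le (show 0 ≤ α * (B : ℝ) by positivity)
  have c0' := Nat.lt_floor_add_one (α * (B : ℝ))
  have hlam0 : 0 ≤ lam := by positivity
  have hlam1 : lam ≤ 1 := by rw [div_le_one (by linarith)]; linarith
  have hlN : lam * N = A := by simp only [lam]; field_simp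
  -- the error at a given share
  set Q : ℝ → ℝ := fun β => 4 * (α * N) ^ 2 * (β - lam) ^ 2 + 16 + α * N
  have herr : ∀ β : ℝ, 0 ≤ β → β ≤ 1 →
      ((n : ℝ) * β - m₁) ^ 2 + ((n : ℝ) * (1 - β) - m₂) ^ 2 + 2 * n * β * (1 - β) ≤ Q β := by
    intro β h0 h1
    have e1 : |(n : ℝ) * β - m₁| ≤ α * N * |β - lam| + 2 := by
      have x1 : |(n : ℝ) * β - α * N * β| ≤ 1 := by
        rw [← sub_mul, abs_mul]
        exact mul_le_one₀ (abs_le.2 ⟨by linarith, by linarith⟩) (abs_nonneg _)
          (abs_le.2 ⟨by linarith, h1⟩)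
      have x2 : |α * N * β - α * A| = α * N * |β - lam| := by
        rw [← hlN, show α * N * β - α * (lam * N) = α * N * (β - lam) by ring, abs_mul,
          abs_of_nonneg (by positivity : 0 ≤ α * N)]
      have x3 : |α * (A : ℝ) - m₁| ≤ 1 := abs_le.2 ⟨by linarith, by linarith⟩
      have := abs_sub_le ((n : ℝ) * β) (α * N * β) (m₁ : ℝ)
      have := abs_sub_le (α * N * β) (α * A) (m₁ : ℝ)
      linarith
    have e2 : |(n : ℝ) * (1 - β) - m₂| ≤ α * N * |β - lam| + 2 := by
      have x1 : |(n : ℝ) * (1 - β) - α * N * (1 - β)| ≤ 1 := by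
        rw [← sub_mul, abs_mul]
        exact mul_le_one₀ (abs_le.2 ⟨by linarith, by linarith⟩) (abs_nonneg _)
          (abs_le.2 ⟨by linarith, by linarith⟩)
      have x2 : |α * N * (1 - β) - α * B| = α * N * |β - lam| := by
        rw [show (B : ℝ) = N - lam * N by linarith,
          show α * N * (1 - β) - α * (N - lam * N) = α * N * (-(β - lam)) by ring, abs_mul,
          abs_neg, abs_of_nonneg (by positivity : 0 ≤ α * N)]
      have x3 : |α * (B : ℝ) - m₂| ≤ 1 := abs_le.2 ⟨by linarith, by linarith⟩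
      have := abs_sub_le ((n : ℝ) * (1 - β)) (α * N * (1 - β)) (m₂ : ℝ)
      have := abs_sub_le (α * N * (1 - β)) (α * B) (m₂ : ℝ)
      linarith
    have s1 := pow_le_pow_left₀ (abs_nonneg _) e1 2
    have s2 := pow_le_pow_left₀ (abs_nonneg _) e2 2
    rw [sq_abs] at s1 s2
    have hq : β * (1 - β) ≤ 1 / 4 := by nlinarith [sq_nonneg (β - 1 / 2)]
    have h3 : 2 * (n : ℝ) * β * (1 - β) ≤ α * N := by
      have := mul_le_mul_of_nonneg_left hq (by positivity : (0 : ℝ) ≤ 2 * n)
      rw [← mul_assoc] at this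
      have : (0 : ℝ) ≤ n := Nat.cast_nonneg _
      linarith
    simp only [Q]
    nlinarith [sq_abs (β - lam), sq_nonneg (α * N * |β - lam| - 2)]
  set s := Real.sqrt N
  have hs : 0 < s := Real.sqrt_pos.2 (by linarith)
  have hpi : Integrable (fun t => (share t - lam) ^ 2) (lensLaw (Fin A) (Fin B)) := by
    refine Integrable.of_bound ((measurable_share.sub_const lam).pow_const 2).aestronglyMeasurable
      1 ?_
    filter_upwards [share_mem_ae] with t ht
    rw [Real.norm_eq_abs, abs_pow, sq_le_one_iff_abs_le_one, abs_abs, abs_le]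
    constructor <;> linarith [ht.1, ht.2]
  set w := fun z => c - cosTransform ρ z
  set Ts := contLog w (unitUnif (Fin A)) m₁ + contLog w (unitUnif (Fin B)) m₂
  have hbi : Integrable (fun t => Ts - L * Q (share t) / (2 * s) - L * s)
      (lensLaw (Fin A) (Fin B)) := by
    have hQi : Integrable (fun t => Q (share t)) (lensLaw (Fin A) (Fin B)) :=
      ((hpi.const_mul _).add (integrable_const _)).add (integrable_const _)
    exact ((integrable_const Ts).sub ((hQi.const_mul L).div_const _)).sub (integrable_const _)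
  have key := contLog_sum_ge hu n (fun t => Ts - L * Q (share t) / (2 * s) - L * s) hbi
    fun t ht0 ht1 => by
      refine le_trans ?_ (contLog_join_ge hc hu (unitUnif (Fin A)) (unitUnif (Fin B)) ht0 ht1
        m₁ m₂ n hs)
      have := div_le_div_of_nonneg_right (mul_le_mul_of_nonneg_left (herr _ ht0 ht1) hL)
        (by positivity : (0 : ℝ) ≤ 2 * s)
      linarith
  rw [← contLog_reindex w finSumFinEquiv n] at key
  refine le_trans ?_ key
  have hdev := share_dev_le hA hB
  rw [← hNdef] at hdev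
  set I := ∫ t, (share t - lam) ^ 2 ∂lensLaw (Fin A) (Fin B) with hI
  have hcalc : ∫ t, (Ts - L * Q (share t) / (2 * s) - L * s) ∂lensLaw (Fin A) (Fin B) =
      Ts - L * (4 * (α * N) ^ 2 * I + 16 + α * N) / (2 * s) - L * s := by
    have hQi : Integrable (fun t => Q (share t)) (lensLaw (Fin A) (Fin B)) :=
      ((hpi.const_mul _).add (integrable_const _)).add (integrable_const _)
    have hi1 : Integrable (fun t => Ts - L * Q (share t) / (2 * s)) (lensLaw (Fin A) (Fin B)) :=
      (integrable_const Ts).sub ((hQi.const_mul L).div_const _)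
    rw [integral_sub hi1
      (integrable_const _), integral_sub (integrable_const Ts) ((hQi.const_mul L).div_const _),
      integral_div, integral_const_mul]
    simp only [Q]
    rw [integral_add ((hpi.const_mul _).fun_add (integrable_const _)) (integrable_const _),
      integral_add (hpi.const_mul _) (integrable_const _), integral_const_mul]
    simp [hI]
  rw [hcalc]
  have hss : s * s = N := Real.mul_self_sqrt (by linarith)
  have hv : 0 ≤ sqVar := variance_nonneg _ _
  have hI' : (α * N) ^ 2 * I ≤ α ^ 2 * sqVar * N := by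
    have h := mul_le_mul_of_nonneg_left hdev (sq_nonneg (α * N))
    refine h.trans (le_of_eq ?_)
    field_simp
  have hE : L * (4 * (α * N) ^ 2 * I + 16 + α * N) / (2 * s) ≤
      L * (2 * α ^ 2 * sqVar + α + 16) * s := by
    rw [div_le_iff₀ (by positivity)]
    have : 4 * (α * N) ^ 2 * I + 16 + α * N ≤
        (2 * α ^ 2 * sqVar + α + 16) * (2 * (s * s)) := by
      rw [hss]
      nlinarith
    have := mul_le_mul_of_nonneg_left this hL
    linarith
  have : L * (2 * α ^ 2 * sqVar + α + 17) * s =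
      L * (2 * α ^ 2 * sqVar + α + 16) * s + L * s := by ring
  simp only [sphereLog]
  linarith

lemma exists_limit_sphereLog (hc : ρ.real Set.univ < c) {α : ℝ} (hα : 0 ≤ α) :
    ∃ L, Tendsto (fun N : ℕ => sphereLog (fun z => c - cosTransform ρ z) N ⌊α * N⌋₊ / N)
      atTop (𝓝 L) := by
  set L := |Real.log (c - ρ.real Set.univ)| + |Real.log (c + ρ.real Set.univ)|
  have hu := weight_cosTransform hc
  have hv : 0 ≤ sqVar := variance_nonneg _ _
  refine tendsto_div_of_approx_superadd _ (B := L * α) (C := L * (2 * α ^ 2 * sqVar + α + 17))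
    (by positivity) (fun N => ?_) (fun A B hA hB => sphereLog_superadd hc hα hA hB)
  rcases Nat.eq_zero_or_pos N with rfl | hN
  · simp [sphereLog, contLog, phiW, unitUnif, Measure.toSphere_apply_univ]
  · have : Nonempty (Fin N) := ⟨⟨0, hN⟩⟩
    refine (abs_contLog_le hu (unitUnif (Fin N)) _).trans ?_
    rw [mul_assoc]
    exact mul_le_mul_of_nonneg_left (Nat.floor_le (by positivity)) hu.nonneg

/-- The uniform probability measure on the sphere of radius `√N` in `ℝ^N`: the normalised surface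
measure of the unit sphere, dilated by `√N`. -/
noncomputable def sphereUnif (N : ℕ) : Measure (Fin N → ℝ) :=
  ((volume : Measure (EuclideanSpace ℝ (Fin N))).toSphere Set.univ)⁻¹ •
    (volume : Measure (EuclideanSpace ℝ (Fin N))).toSphere.map
      fun (u : Metric.sphere (0 : EuclideanSpace ℝ (Fin N)) 1) i =>
        Real.sqrt N * (u : EuclideanSpace ℝ (Fin N)) i

/-- The averaged pressure of the spherical perceptron with log-potential `f`. -/
noncomputable def spherePressure (f : ℝ → ℝ) (α : ℝ) (N : ℕ) : ℝ :=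
  (∫ G, Real.log (∫ x, Real.exp (∑ a, f ((∑ i, G a i * x i) / Real.sqrt N)) ∂sphereUnif N)
    ∂(Measure.pi fun _ : Fin ⌊α * N⌋₊ => Measure.pi fun _ : Fin N => gaussianReal 0 1)) / N

lemma spherePressure_eq {u : ℝ → ℝ} (hu : Measurable u) (hpos : ∀ z, 0 < u z) {α : ℝ} {N : ℕ}
    (hN : 0 < N) :
    spherePressure (fun z => Real.log (u z)) α N = sphereLog u N ⌊α * N⌋₊ / N := by
  have hscale : Measurable fun a : Fin N → ℝ => fun i => Real.sqrt N * a i := by fun_prop
  have hmap : sphereUnif N =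
      (unitUnif (Fin N)).map fun a i => Real.sqrt N * a i := by
    rw [unitUnif, Measure.map_smul, Measure.map_map hscale measurable_sphereCoord, sphereUnif]
    rfl
  unfold spherePressure sphereLog contLog gaussM gauss
  congr 1
  refine integral_congr_ae (.of_forall fun G => ?_)
  simp only
  congr 1
  rw [hmap, integral_map hscale.aemeasurable]
  · refine integral_congr_ae (.of_forall fun a => ?_)
    simp only [phiW, Real.exp_sum]
    refine prod_congr rfl fun j _ => ?_
    rw [Real.exp_log (hpos _)]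
    congr 1
    have hs : Real.sqrt N ≠ 0 := (Real.sqrt_pos.2 (by exact_mod_cast hN)).ne'
    rw [sum_div]
    refine sum_congr rfl fun i _ => ?_
    field_simp
  · exact (Real.measurable_exp.comp (Finset.measurable_sum _ fun j _ =>
      (Real.measurable_log.comp hu).comp ((Finset.measurable_sum _ fun i _ =>
        measurable_const.mul (measurable_pi_apply i)).div_const _))).aestronglyMeasurable

theorem exists_limit_spherePressure (hc : ρ.real Set.univ < c) {α : ℝ} (hα : 0 ≤ α) :
    ∃ L, Tendsto (fun N => spherePressure (fun z => Real.log (c - ∫ s, Real.cos (s * z) ∂ρ)) α N)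
      atTop (𝓝 L) := by
  obtain ⟨L, hL⟩ := exists_limit_sphereLog hc hα
  refine ⟨L, hL.congr' ((eventually_gt_atTop 0).mono fun N hN => ?_)⟩
  exact (spherePressure_eq ((continuous_const.sub continuous_cosTransform).measurable)
    (weight_cosTransform hc).pos hN).symm

end Vale.Agent.P157
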