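import Vale.Agent.P157.TestFn
import Vale.Agent.P157.SphereLimit

/-!
The Ising cube and the sphere as laws of unit coefficient vectors: both have overlaps which are
sub-Gaussian at scale `1/√N`.
-/

namespace Vale.Agent.P157

open MeasureTheory ProbabilityTheory Finset

variable {ι : Type} [Fintype ι]

/-- The bound on the exponential moment of a squared overlap. -/
noncomputable def overlapConst : ℝ := ∫ z, Real.exp (z ^ 2 / 4) ∂gaussianReal 0 1

lemma unitUnif_ae_unit [Nonempty ι] : ∀ᵐ a ∂unitUnif ι, ∑ i, a i ^ 2 = 1 := by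
  have hm : MeasurableSet {a : ι → ℝ | ∑ i, a i ^ 2 = 1} :=
    measurableSet_eq_fun (by fun_prop) measurable_const
  refine Measure.ae_smul_measure ?_ _
  rw [ae_map_iff measurable_sphereCoord.aemeasurable hm]
  refine .of_forall fun u => ?_
  have h : ‖(u : EuclideanSpace ℝ ι)‖ ^ 2 = 1 := by
    rw [norm_eq_of_mem_sphere, one_pow]
  rw [EuclideanSpace.norm_sq_eq] at h
  simpa [sphereCoord] using h

lemma unitUnif_overlap [Nonempty ι] {b : ι → ℝ} (hb : ∑ i, b i ^ 2 = 1) :
    Integrable (fun a => Real.exp ((Fintype.card ι : ℝ) / 4 * (∑ i, a i * b i) ^ 2)) (unitUnif ι) ∧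
      ∫ a, Real.exp ((Fintype.card ι : ℝ) / 4 * (∑ i, a i * b i) ^ 2) ∂unitUnif ι ≤
        overlapConst := by
  set N : ℝ := (Fintype.card ι : ℝ)
  set ν := (gauss ι).map normSqF with hν
  have hR : ∀ a : ι → ℝ, ∑ i, a i ^ 2 = 1 → (∑ i, a i * b i) ^ 2 ≤ 1 := fun a ha => by
    have := sum_mul_sq_le_sq_mul_sq univ a b
    rwa [ha, hb, one_mul] at this
  have hN : 0 ≤ N := Nat.cast_nonneg _
  have hi : Integrable (fun a => Real.exp (N / 4 * (∑ i, a i * b i) ^ 2)) (unitUnif ι) := by
    refine Integrable.of_bound (Measurable.aestronglyMeasurable (by fun_prop))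
      (Real.exp (N / 4)) (unitUnif_ae_unit.mono fun a ha => ?_)
    rw [Real.norm_eq_abs, abs_of_pos (Real.exp_pos _), Real.exp_le_exp]
    exact mul_le_of_le_one_right (by positivity) (hR a ha)
  refine ⟨hi, ?_⟩
  let F : (ι → ℝ) × ℝ → ℝ := fun p => Real.exp (p.2 * (∑ i, p.1 i * b i) ^ 2 / 4)
  have hFm : Measurable F := by fun_prop
  have hT : Measurable fun ξ : ι → ℝ => (udir ξ, normSqF ξ) :=
    measurable_udir.prodMk measurable_normSqF
  have hFT : ∀ ξ, F (udir ξ, normSqF ξ) = Real.exp ((∑ i, ξ i * b i) ^ 2 / 4) := by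
    intro ξ
    simp only [F]
    congr 2
    rcases eq_or_ne (normSqF ξ) 0 with h0 | h0
    · have hz : ∀ i, ξ i = 0 := fun i => by
        simpa using (sum_eq_zero_iff_of_nonneg fun j _ => sq_nonneg (ξ j)).1 h0 i (mem_univ i)
      simp [h0, hz]
    · simp only [udir, div_mul_eq_mul_div, ← sum_div, div_pow,
        Real.sq_sqrt (normSqF_nonneg ξ)]
      field_simp
  have hlaw := map_gauss_eq (Λ := Unit) (fun _ i => b i) (fun _ (_ : Unit) => (1 : ℝ))
    (fun s => by simp only [Fintype.sum_unique, mul_pow, ← mul_sum, hb]; simp)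
  have hgi : Integrable (fun ξ : ι → ℝ => Real.exp ((∑ i, ξ i * b i) ^ 2 / 4)) (gauss ι) := by
    have h1 : Integrable (fun q : Unit → ℝ => Real.exp (q () ^ 2 / 4))
        ((gauss Unit).map fun g (_ : Unit) => ∑ k, g k * 1) := by
      rw [integrable_map_measure (Measurable.aestronglyMeasurable (by fun_prop))
        (Measurable.aemeasurable (by fun_prop))]
      refine (MeasurePreserving.integrable_comp_of_integrable
        (measurePreserving_eval (fun _ : Unit => gaussianReal 0 1) ())
        (integrable_exp_sq_gaussian (t := 1 / 4) (by norm_num))).congr (.of_forall fun g => ?_)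
      simp [div_eq_inv_mul]
    rw [← hlaw, integrable_map_measure (Measurable.aestronglyMeasurable (by fun_prop))
      (Measurable.aemeasurable (by fun_prop))] at h1
    exact h1
  have hFi : Integrable F ((unitUnif ι).prod ν) := by
    rw [hν, ← map_polar, integrable_map_measure hFm.aestronglyMeasurable hT.aemeasurable]
    exact hgi.congr (.of_forall fun ξ => (hFT ξ).symm)
  have htot : ∫ p, F p ∂(unitUnif ι).prod ν = overlapConst := by
    rw [hν, ← map_polar, integral_map hT.aemeasurable hFm.aestronglyMeasurable]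
    simp only [hFT]
    exact integral_field hb (F := fun z => Real.exp (z ^ 2 / 4)) (by fun_prop)
  obtain ⟨hSi, hS, -, -⟩ := weighted_sq_moments (ι := ι) (fun _ => 1)
  simp only [one_mul] at hSi hS
  have hνi : Integrable (fun s : ℝ => s) ν := by
    rw [hν, integrable_map_measure (Measurable.aestronglyMeasurable (by fun_prop))
      measurable_normSqF.aemeasurable]
    exact hSi
  have hν1 : ∫ s, s ∂ν = N := by
    rw [hν, integral_map measurable_normSqF.aemeasurable (by fun_prop)]
    simp only [normSqF, hS]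
    simp [N]
  rw [← htot, integral_prod _ hFi]
  refine integral_mono_ae hi hFi.integral_prod_left ?_
  filter_upwards [hFi.prod_right_ae] with a hai
  set R := (∑ i, a i * b i) ^ 2
  have hlin : Integrable (fun s : ℝ => Real.exp (N / 4 * R) * (1 + (R / 4 * s - R / 4 * N))) ν :=
    ((integrable_const 1).add ((hνi.const_mul (R / 4)).sub (integrable_const _))).const_mul _
  refine le_trans (le_of_eq ?_) (integral_mono hlin hai fun s => ?_)
  · have hi' : Integrable (fun s : ℝ => R / 4 * s - R / 4 * N) ν :=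
      (hνi.const_mul (R / 4)).sub (integrable_const _)
    rw [integral_const_mul, integral_add (integrable_const 1) hi',
      integral_sub (hνi.const_mul (R / 4)) (integrable_const _), integral_const_mul, hν1]
    simp
  · simp only [F]
    have h := mul_le_mul_of_nonneg_left (Real.add_one_le_exp (R / 4 * s - R / 4 * N))
      (Real.exp_pos (N / 4 * R)).le
    rw [← Real.exp_add] at h
    refine le_trans (le_of_eq (by ring)) (h.trans (le_of_eq ?_))
    congr 1
    simp only [R]
    ring

/-- The law of the coefficient vector of a uniform Ising configuration. -/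
noncomputable def isingLaw (N : ℕ) : Measure (Fin N → ℝ) :=
  (PMF.uniformOfFintype (Fin N → Bool)).toMeasure.map (isingCoef N)

instance (N : ℕ) : IsProbabilityMeasure (isingLaw N) :=
  Measure.isProbabilityMeasure_map (Measurable.aemeasurable (Measurable.of_discrete))

lemma integral_isingLaw {N : ℕ} {F : (Fin N → ℝ) → ℝ} (hF : Measurable F) :
    ∫ a, F a ∂isingLaw N = ((2 : ℝ) ^ N)⁻¹ * ∑ x : Fin N → Bool, F (isingCoef N x) := by
  rw [isingLaw, integral_map (Measurable.aemeasurable Measurable.of_discrete)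
    hF.aestronglyMeasurable, PMF.integral_eq_sum, mul_sum]
  refine sum_congr rfl fun x _ => ?_
  simp [PMF.uniformOfFintype_apply]

lemma isingLaw_ae_unit {N : ℕ} (hN : 0 < N) : ∀ᵐ a ∂isingLaw N, ∑ i, a i ^ 2 = 1 := by
  have hm : MeasurableSet {a : Fin N → ℝ | ∑ i, a i ^ 2 = 1} :=
    measurableSet_eq_fun (by fun_prop) measurable_const
  rw [isingLaw, ae_map_iff (Measurable.aemeasurable Measurable.of_discrete) hm]
  refine .of_forall fun x => ?_
  have hs : ∀ i, isingCoef N x i ^ 2 = (N : ℝ)⁻¹ := fun i => by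
    rw [isingCoef, div_pow, Real.sq_sqrt (Nat.cast_nonneg _)]
    cases x i <;> simp [spin]
  simp only [hs, sum_const, card_univ, Fintype.card_fin, nsmul_eq_mul]
  field_simp

lemma isingLaw_overlap {N : ℕ} (hN : 0 < N) {b : Fin N → ℝ} (hb : ∑ i, b i ^ 2 = 1) :
    Integrable (fun a => Real.exp ((N : ℝ) / 4 * (∑ i, a i * b i) ^ 2)) (isingLaw N) ∧
      ∫ a, Real.exp ((N : ℝ) / 4 * (∑ i, a i * b i) ^ 2) ∂isingLaw N ≤ overlapConst := by
  have hm : Measurable fun a : Fin N → ℝ => Real.exp ((N : ℝ) / 4 * (∑ i, a i * b i) ^ 2) := by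
    fun_prop
  refine ⟨?_, ?_⟩
  · rw [isingLaw, integrable_map_measure hm.aestronglyMeasurable
      (Measurable.aemeasurable Measurable.of_discrete)]
    exact Integrable.of_finite
  rw [integral_isingLaw hm]
  set c : ℝ := (Real.sqrt 2)⁻¹
  have hc : c ^ 2 = 1 / 2 := by simp [c, inv_pow, Real.sq_sqrt]
  have e : ∀ x : Fin N → Bool, Real.exp ((N : ℝ) / 4 * (∑ i, isingCoef N x i * b i) ^ 2) =
      ∫ η, Real.exp ((c * ∑ i, spin (x i) * b i) * η) ∂gaussianReal 0 1 := by
    intro x
    have h : ∫ η, Real.exp ((c * ∑ i, spin (x i) * b i) * η) ∂gaussianReal 0 1 =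
        Real.exp ((c * ∑ i, spin (x i) * b i) ^ 2 / 2) := by
      have := congrFun (mgf_id_gaussianReal (μ := 0) (v := 1)) (c * ∑ i, spin (x i) * b i)
      simpa [mgf] using this
    rw [h, mul_pow, hc]
    congr 1
    simp only [isingCoef, div_mul_eq_mul_div, ← sum_div, div_pow,
      Real.sq_sqrt (Nat.cast_nonneg N)]
    field_simp
    ring
  simp only [e]
  rw [← integral_finsetSum _ fun x _ => integrable_exp_mul_gaussianReal _, ← integral_const_mul]
  refine integral_mono_of_nonneg (.of_forall fun η => mul_nonneg (by positivity)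
    (sum_nonneg fun x _ => (Real.exp_pos _).le))
    ((integrable_exp_sq_gaussian (t := 1 / 4) (by norm_num)).congr
      (.of_forall fun z => by ring_nf)) (.of_forall fun η => ?_)
  have hx : ∀ x : Fin N → Bool, Real.exp ((c * ∑ i, spin (x i) * b i) * η) =
      ∏ i, Real.exp (spin (x i) * (c * b i * η)) := fun x => by
    rw [← Real.exp_sum, mul_sum, sum_mul]
    exact congrArg _ (sum_congr rfl fun i _ => by ring)
  simp only [hx]
  rw [← Fintype.prod_sum fun i (v : Bool) => Real.exp (spin v * (c * b i * η)),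
    show ((2 : ℝ) ^ N)⁻¹ = ∏ _i : Fin N, (2 : ℝ)⁻¹ by simp, ← prod_mul_distrib]
  refine (prod_le_prod (fun i _ => by positivity) fun i _ => ?_).trans_eq
    (b := ∏ i, Real.exp ((c * b i * η) ^ 2 / 2)) ?_
  · refine le_trans (le_of_eq ?_) (Real.cosh_le_exp_half_sq _)
    simp [spin, Real.cosh_eq]
    ring
  · rw [← Real.exp_sum]
    congr 1
    simp only [mul_pow, ← sum_div, ← sum_mul, ← mul_sum, hb, hc]
    ring

end Vale.Agent.P157
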