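import Vale.Agent.P157.Sample

/-!
Linear images of Gaussian arrays are determined by the variances of their linear functionals.
-/

namespace Vale.Agent.P157

open MeasureTheory ProbabilityTheory Finset

variable {ι κ Λ : Type} [Fintype ι] [Fintype κ] [Fintype Λ]

lemma integral_exp_gauss (c : ι → ℝ) :
    ∫ g, Complex.exp (((∑ i, g i * c i : ℝ) : ℂ) * Complex.I) ∂gauss ι =
      ((Real.exp (-(∑ i, c i ^ 2) / 2) : ℝ) : ℂ) := by
  have h := integral_exp_field (k := 1) (X := Unit) (fun _ => c) (fun _ => ()) (fun _ => 1)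
  simpa [field, phaseVar] using h

lemma integral_exp_gaussM {M : ℕ} (c : Fin M → ι → ℝ) :
    ∫ G, Complex.exp (((∑ j, ∑ i, G j i * c j i : ℝ) : ℂ) * Complex.I) ∂gaussM ι M =
      ((Real.exp (-(∑ j, ∑ i, c j i ^ 2) / 2) : ℝ) : ℂ) := by
  simp only [Complex.ofReal_sum, sum_mul, Complex.exp_sum]
  unfold gaussM
  rw [integral_fintype_prod_eq_prod (fun j (g : ι → ℝ) =>
    ∏ i, Complex.exp (((g i * c j i : ℝ) : ℂ) * Complex.I))]
  have e : ∀ j, ∫ g, ∏ i, Complex.exp (((g i * c j i : ℝ) : ℂ) * Complex.I) ∂gauss ι =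
      ((Real.exp (-(∑ i, c j i ^ 2) / 2) : ℝ) : ℂ) := by
    intro j
    rw [← integral_exp_gauss (c j)]
    simp only [Complex.ofReal_sum, sum_mul, Complex.exp_sum]
  simp only [e]
  rw [← Complex.ofReal_prod, ← Real.exp_sum]
  congr 2
  simp only [neg_div, sum_neg_distrib, sum_div]

/-- Two linear images of Gaussian arrays with the same variances have the same law. -/
lemma map_gaussM_eq {M : ℕ} (a : Λ → Fin M → ι → ℝ) (b : Λ → κ → ℝ)
    (h : ∀ s : Λ → ℝ, ∑ j, ∑ i, (∑ l, s l * a l j i) ^ 2 = ∑ k, (∑ l, s l * b l k) ^ 2) :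
    (gaussM ι M).map (fun G l => ∑ j, ∑ i, G j i * a l j i) =
      (gauss κ).map (fun g l => ∑ k, g k * b l k) := by
  have hm1 : Measurable fun G : Fin M → ι → ℝ => fun l => ∑ j, ∑ i, G j i * a l j i := by fun_prop
  have hm2 : Measurable fun g : κ → ℝ => fun l => ∑ k, g k * b l k := by fun_prop
  let T := MeasurableEquiv.toLp 2 (Λ → ℝ)
  apply T.map_measurableEquiv_injective
  have : IsProbabilityMeasure ((gaussM ι M).map fun G l => ∑ j, ∑ i, G j i * a l j i) :=
    Measure.isProbabilityMeasure_map hm1.aemeasurable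
  have : IsProbabilityMeasure ((gauss κ).map fun g l => ∑ k, g k * b l k) :=
    Measure.isProbabilityMeasure_map hm2.aemeasurable
  refine Measure.ext_of_charFun (funext fun t => ?_)
  rw [charFun_apply, charFun_apply, integral_map_equiv, integral_map_equiv,
    integral_map hm1.aemeasurable (by fun_prop), integral_map hm2.aemeasurable (by fun_prop)]
  have e1 : ∀ G : Fin M → ι → ℝ,
      inner ℝ (T fun l => ∑ j, ∑ i, G j i * a l j i) t =
        ∑ j, ∑ i, G j i * ∑ l, t l * a l j i := by
    intro G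
    simp only [T, MeasurableEquiv.coe_toLp, PiLp.inner_apply, RCLike.inner_apply, conj_trivial,
      mul_sum]
    rw [sum_comm]
    refine sum_congr rfl fun j _ => ?_
    rw [sum_comm]
    exact sum_congr rfl fun i _ => sum_congr rfl fun l _ => by ring
  have e2 : ∀ g : κ → ℝ, inner ℝ (T fun l => ∑ k, g k * b l k) t =
      ∑ k, g k * ∑ l, t l * b l k := by
    intro g
    simp only [T, MeasurableEquiv.coe_toLp, PiLp.inner_apply, RCLike.inner_apply, conj_trivial,
      mul_sum]
    rw [sum_comm]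
    exact sum_congr rfl fun k _ => sum_congr rfl fun l _ => by ring
  simp only [e1, e2]
  rw [integral_exp_gaussM fun j i => ∑ l, t l * a l j i,
    integral_exp_gauss fun k => ∑ l, t l * b l k, h (fun l => t l)]

/-- The version for a single Gaussian vector. -/
lemma map_gauss_eq (a : Λ → ι → ℝ) (b : Λ → κ → ℝ)
    (h : ∀ s : Λ → ℝ, ∑ i, (∑ l, s l * a l i) ^ 2 = ∑ k, (∑ l, s l * b l k) ^ 2) :
    (gauss ι).map (fun g l => ∑ i, g i * a l i) =
      (gauss κ).map (fun g l => ∑ k, g k * b l k) := by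
  have h1 := map_gaussM_eq (M := 1) (fun l _ i => a l i) b (fun s => by simpa using h s)
  have mp : MeasurePreserving (Function.eval 0) (gaussM ι 1) (gauss ι) :=
    measurePreserving_eval (fun _ : Fin 1 => gauss ι) 0
  rw [← h1]
  conv_lhs => rw [← mp.map_eq]
  rw [Measure.map_map (by fun_prop) mp.measurable]
  congr 1
  funext G l
  simp

/-- The field along a unit vector is a standard Gaussian variable. -/
lemma integral_field {a : ι → ℝ} (ha : ∑ i, a i ^ 2 = 1) {F : ℝ → ℝ} (hF : Measurable F) :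
    ∫ g, F (∑ i, g i * a i) ∂gauss ι = ∫ z, F z ∂gaussianReal 0 1 := by
  have h := map_gauss_eq (Λ := Unit) (fun _ i => a i) (fun _ (_ : Unit) => (1 : ℝ))
    (fun s => by simp only [Fintype.sum_unique, mul_pow, ← mul_sum, ha]; simp)
  have hF' : AEStronglyMeasurable (fun q : Unit → ℝ => F (q ()))
      ((gauss ι).map fun g (_ : Unit) => ∑ i, g i * a i) :=
    (hF.comp (measurable_pi_apply ())).aestronglyMeasurable
  calc ∫ g, F (∑ i, g i * a i) ∂gauss ι
      = ∫ q, F (q ()) ∂((gauss ι).map fun g (_ : Unit) => ∑ i, g i * a i) :=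
        (integral_map (f := fun q : Unit → ℝ => F (q ())) (Measurable.aemeasurable (by fun_prop))
          hF').symm
    _ = ∫ q, F (q ()) ∂((gauss Unit).map fun g (_ : Unit) => ∑ k, g k * 1) := by rw [h]
    _ = ∫ g : Unit → ℝ, F (g ()) ∂gauss Unit := by
        rw [integral_map (f := fun q : Unit → ℝ => F (q ())) (Measurable.aemeasurable (by fun_prop))
          (hF.comp (measurable_pi_apply ())).aestronglyMeasurable]
        simp
    _ = _ := by
        unfold gauss
        exact integral_comp_eval (μ := fun _ : Unit => gaussianReal 0 1) (i := ())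
          hF.aestronglyMeasurable

/-- The fields along two unit vectors are a correlated Gaussian pair. -/
lemma integral_pair {a b : ι → ℝ} (ha : ∑ i, a i ^ 2 = 1) (hb : ∑ i, b i ^ 2 = 1) {w : ℝ → ℝ}
    (hw : Measurable w) :
    ∫ g, w (∑ i, g i * a i) * w (∑ i, g i * b i) ∂gauss ι =
      ∫ v : Fin 2 → ℝ, w (v 0) *
        w ((∑ i, a i * b i) * v 0 + Real.sqrt (1 - (∑ i, a i * b i) ^ 2) * v 1)
        ∂gauss (Fin 2) := by
  set R := ∑ i, a i * b i with hR
  have hR1 : R ^ 2 ≤ 1 := by
    have := sum_mul_sq_le_sq_mul_sq univ a b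
    rwa [ha, hb, one_mul] at this
  have h := map_gauss_eq (Λ := Fin 2) ![a, b] ![![1, 0], ![R, Real.sqrt (1 - R ^ 2)]]
    (fun s => by
      simp only [Fin.sum_univ_two, Matrix.cons_val_zero, Matrix.cons_val_one]
      calc ∑ i, (s 0 * a i + s 1 * b i) ^ 2
          = s 0 ^ 2 * ∑ i, a i ^ 2 + 2 * s 0 * s 1 * ∑ i, a i * b i +
              s 1 ^ 2 * ∑ i, b i ^ 2 := by
            simp only [mul_sum, ← sum_add_distrib]
            exact sum_congr rfl fun i _ => by ring
        _ = _ := by
            rw [ha, hb, ← hR]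
            have := Real.mul_self_sqrt (show 0 ≤ 1 - R ^ 2 by linarith)
            linear_combination -(s 1 ^ 2) * this)
  have hm : AEStronglyMeasurable (fun q : Fin 2 → ℝ => w (q 0) * w (q 1))
      ((gauss ι).map fun g l => ∑ i, g i * ![a, b] l i) :=
    ((hw.comp (measurable_pi_apply 0)).mul (hw.comp (measurable_pi_apply 1))).aestronglyMeasurable
  have e := integral_map (f := fun q : Fin 2 → ℝ => w (q 0) * w (q 1))
    (φ := fun g : ι → ℝ => fun l => ∑ i, g i * ![a, b] l i) (μ := gauss ι) (Measurable.aemeasurable (by fun_prop)) hm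
  rw [h] at e hm
  rw [integral_map (Measurable.aemeasurable (by fun_prop)) hm] at e
  simp only [Fin.sum_univ_two, Matrix.cons_val_zero, Matrix.cons_val_one, mul_zero, add_zero,
    mul_one] at e
  rw [← e]
  exact integral_congr_ae (.of_forall fun v => by simp only []; ring_nf)

end Vale.Agent.P157
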