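import Vale.Agent.P157.Kernel

/-!
The averaged log-partition function against its annealed value: the first moment bound and its
monotonicity in the number of patterns, the second moment bound, and a bound from a test function.
-/

namespace Vale.Agent.P157

open MeasureTheory ProbabilityTheory Finset

variable {ι : Type} [Fintype ι] {w : ℝ → ℝ} {B : ℝ}

lemma BWeight.log_le (hw : BWeight w B) (z : ℝ) : |Real.log (w z)| ≤ B :=
  abs_log_le_of_bounds (hw.lower z) (hw.upper z)

lemma BWeight.nonneg (hw : BWeight w B) : 0 ≤ B := (abs_nonneg _).trans (hw.log_le 0)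

lemma BWeight.prod_bounds (hw : BWeight w B) {M : ℕ} (G : Fin M → ι → ℝ) (a : ι → ℝ) :
    Real.exp (-(B * M)) ≤ phiW w G a ∧ phiW w G a ≤ Real.exp (B * M) := by
  have h1 : Real.exp (-(B * M)) = ∏ _j : Fin M, Real.exp (-B) := by
    rw [prod_const, card_univ, Fintype.card_fin, ← Real.exp_nat_mul]; ring_nf
  have h2 : Real.exp (B * M) = ∏ _j : Fin M, Real.exp B := by
    rw [prod_const, card_univ, Fintype.card_fin, ← Real.exp_nat_mul]; ring_nf
  rw [h1, h2]
  exact ⟨prod_le_prod (fun j _ => (Real.exp_pos _).le) fun j _ => hw.lower _,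
    prod_le_prod (fun j _ => (hw.pos _).le) fun j _ => hw.upper _⟩

lemma BWeight.prod_pos (hw : BWeight w B) {M : ℕ} (G : Fin M → ι → ℝ) (a : ι → ℝ) :
    0 < phiW w G a :=
  lt_of_lt_of_le (Real.exp_pos _) (hw.prod_bounds G a).1

lemma BWeight.measurable_prod (hw : BWeight w B) (M : ℕ) :
    Measurable fun p : (Fin M → ι → ℝ) × (ι → ℝ) => phiW w p.1 p.2 :=
  Finset.measurable_prod _ fun j _ => hw.meas.comp (by fun_prop)

lemma BWeight.integrable_prod (hw : BWeight w B) {M : ℕ} (G : Fin M → ι → ℝ)
    (ν : Measure (ι → ℝ)) [IsFiniteMeasure ν] : Integrable (phiW w G) ν :=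
  Integrable.of_bound
    ((hw.measurable_prod M).comp (measurable_const.prodMk measurable_id)).aestronglyMeasurable
    (Real.exp (B * M)) (.of_forall fun a => by
      rw [Real.norm_eq_abs, abs_of_pos (hw.prod_pos G a)]
      exact (hw.prod_bounds G a).2)

/-- The partition function. -/
noncomputable def partFn (w : ℝ → ℝ) (ν : Measure (ι → ℝ)) {M : ℕ} (G : Fin M → ι → ℝ) : ℝ :=
  ∫ a, phiW w G a ∂ν

variable (ν : Measure (ι → ℝ)) [IsProbabilityMeasure ν]

lemma BWeight.part_bounds (hw : BWeight w B) {M : ℕ} (G : Fin M → ι → ℝ) :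
    Real.exp (-(B * M)) ≤ partFn w ν G ∧ partFn w ν G ≤ Real.exp (B * M) := by
  constructor
  · simpa [partFn] using integral_mono (integrable_const _) (hw.integrable_prod G ν)
      fun a => (hw.prod_bounds G a).1
  · simpa [partFn] using integral_mono (hw.integrable_prod G ν) (integrable_const _)
      fun a => (hw.prod_bounds G a).2

lemma BWeight.part_pos (hw : BWeight w B) {M : ℕ} (G : Fin M → ι → ℝ) : 0 < partFn w ν G :=
  lt_of_lt_of_le (Real.exp_pos _) (hw.part_bounds ν G).1

lemma BWeight.measurable_part (hw : BWeight w B) (M : ℕ) :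
    Measurable (partFn w ν : (Fin M → ι → ℝ) → ℝ) :=
  (hw.measurable_prod M).stronglyMeasurable.integral_prod_right'.measurable

lemma BWeight.integrable_part (hw : BWeight w B) (M : ℕ) :
    Integrable (partFn w ν) (gaussM ι M) :=
  Integrable.of_bound (hw.measurable_part ν M).aestronglyMeasurable (Real.exp (B * M))
    (.of_forall fun G => by
      rw [Real.norm_eq_abs, abs_of_pos (hw.part_pos ν G)]
      exact (hw.part_bounds ν G).2)

lemma BWeight.integrable_log_part (hw : BWeight w B) (M : ℕ) :
    Integrable (fun G => Real.log (partFn w ν G)) (gaussM ι M) :=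
  Integrable.of_bound (Real.measurable_log.comp (hw.measurable_part ν M)).aestronglyMeasurable
    (B * M) (.of_forall fun G => by
      rw [Real.norm_eq_abs]
      exact abs_log_le_of_bounds (hw.part_bounds ν G).1 (hw.part_bounds ν G).2)

omit [IsProbabilityMeasure ν] in
lemma contLog_eq_log_part (M : ℕ) :
    contLog w ν M = ∫ G, Real.log (partFn w ν G) ∂gaussM ι M := rfl

omit [IsProbabilityMeasure ν] in
lemma integral_prod_field (hw : Measurable w) {M : ℕ} {a : ι → ℝ} (ha : ∑ i, a i ^ 2 = 1) :
    ∫ G, phiW w G a ∂gaussM ι M = (∫ z, w z ∂gaussianReal 0 1) ^ M := by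
  unfold phiW gaussM
  rw [integral_fintype_prod_eq_prod (fun _ (g : ι → ℝ) => w (∑ i, g i * a i))]
  simp [integral_field ha hw]

lemma BWeight.integral_part (hw : BWeight w B) (hν : ∀ᵐ a ∂ν, ∑ i, a i ^ 2 = 1) (M : ℕ) :
    ∫ G, partFn w ν G ∂gaussM ι M = (∫ z, w z ∂gaussianReal 0 1) ^ M := by
  unfold partFn
  rw [integral_integral_swap (Integrable.of_bound (hw.measurable_prod M).aestronglyMeasurable
    (Real.exp (B * M)) (.of_forall fun p => by
      change |phiW w p.1 p.2| ≤ _
      rw [abs_of_pos (hw.prod_pos p.1 p.2)]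
      exact (hw.prod_bounds p.1 p.2).2))]
  rw [integral_congr_ae (g := fun _ => (∫ z, w z ∂gaussianReal 0 1) ^ M)
    (hν.mono fun a ha => integral_prod_field hw.meas ha)]
  simp

/-- A test function bounds the averaged logarithm. -/
lemma BWeight.contLog_le_test (hw : BWeight w B) (M : ℕ) {h : (Fin M → ι → ℝ) → ℝ}
    (hh : Integrable h (gaussM ι M)) (hh0 : ∀ G, h G ≤ 0) {c : ℝ}
    (hc : ∫ G, partFn w ν G * Real.exp (h G) ∂gaussM ι M ≤ Real.exp c) :
    contLog w ν M ≤ c - ∫ G, h G ∂gaussM ι M := by
  have hY : Integrable (fun G => partFn w ν G * Real.exp (h G)) (gaussM ι M) :=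
    (hw.integrable_part ν M).mul_bdd (c := 1) (Real.measurable_exp.comp_aemeasurable
      hh.aemeasurable).aestronglyMeasurable (.of_forall fun G => by
        rw [Real.norm_eq_abs, abs_of_pos (Real.exp_pos _), Real.exp_le_one_iff]
        exact hh0 G)
  have hmono := integral_mono (((hw.integrable_log_part ν M).add hh).sub (integrable_const c))
    ((hY.div_const (Real.exp c)).sub (integrable_const 1)) fun G => by
      have hp := hw.part_pos ν G
      have := Real.log_le_sub_one_of_pos
        (show 0 < partFn w ν G * Real.exp (h G) / Real.exp c by positivity)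
      rw [Real.log_div (by positivity) (Real.exp_ne_zero _), Real.log_mul hp.ne'
        (Real.exp_ne_zero _), Real.log_exp, Real.log_exp] at this
      simpa using this
  simp only [Pi.sub_apply, Pi.add_apply] at hmono
  rw [integral_sub ((hw.integrable_log_part ν M).fun_add hh) (integrable_const c),
    integral_add (hw.integrable_log_part ν M) hh,
    integral_sub (hY.div_const _) (integrable_const 1), integral_div] at hmono
  simp only [integral_const, probReal_univ, one_smul] at hmono
  have := (div_le_one (Real.exp_pos c)).2 hc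
  rw [contLog_eq_log_part]
  linarith

/-- The first moment bound. -/
lemma BWeight.contLog_le_annealed (hw : BWeight w B) (hν : ∀ᵐ a ∂ν, ∑ i, a i ^ 2 = 1) (M : ℕ) :
    contLog w ν M ≤ M * Real.log (∫ z, w z ∂gaussianReal 0 1) := by
  have h := hw.contLog_le_test ν M (h := fun _ => 0) (integrable_zero _ _ _) (fun _ => le_rfl)
    (c := M * Real.log (∫ z, w z ∂gaussianReal 0 1)) (by
      simp only [Real.exp_zero, mul_one, hw.integral_part ν hν, Real.exp_nat_mul,
        Real.exp_log hw.integral_pos, le_refl])
  simpa using h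

/-- Adding a pattern raises the averaged logarithm by at most the annealed amount. -/
lemma BWeight.contLog_succ_le (hw : BWeight w B) (hν : ∀ᵐ a ∂ν, ∑ i, a i ^ 2 = 1) (M : ℕ) :
    contLog w ν (M + 1) ≤ contLog w ν M + Real.log (∫ z, w z ∂gaussianReal 0 1) := by
  set m₀ := ∫ z, w z ∂gaussianReal 0 1
  have hm0 : 0 < m₀ := hw.integral_pos
  rw [contLog_eq_log_part, contLog_eq_log_part]
  let T : (ι → ℝ) × (Fin M → ι → ℝ) → (Fin (M + 1) → ι → ℝ) := fun p => Fin.cons p.1 p.2
  have hT : MeasurePreserving T ((gauss ι).prod (gaussM ι M)) (gaussM ι (M + 1)) := by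
    have h := (measurePreserving_piFinSuccAbove (fun _ : Fin (M + 1) => gauss ι) 0).symm
    have e : T = (MeasurableEquiv.piFinSuccAbove (fun _ : Fin (M + 1) => ι → ℝ) 0).symm := by
      funext p
      simp [T, MeasurableEquiv.piFinSuccAbove_symm_apply, Fin.insertNthEquiv]
    rw [e]
    exact h
  have hTm : Measurable T := hT.measurable
  have hsplit : ∀ g G a, phiW w (T (g, G)) a = w (∑ i, g i * a i) * phiW w G a := fun g G a => by
    simp [T, phiW, Fin.prod_univ_succ]
  have hi : Integrable (fun p => Real.log (partFn w ν (T p))) ((gauss ι).prod (gaussM ι M)) :=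
    hT.integrable_comp_of_integrable (hw.integrable_log_part ν (M + 1))
  have e : ∫ G, Real.log (partFn w ν G) ∂gaussM ι (M + 1) =
      ∫ G, ∫ g, Real.log (partFn w ν (T (g, G))) ∂gauss ι ∂gaussM ι M := by
    rw [← hT.map_eq, integral_map (f := fun G => Real.log (partFn w ν G)) hTm.aemeasurable
      (Real.measurable_log.comp (hw.measurable_part ν (M + 1))).aestronglyMeasurable,
      integral_prod_symm _ hi]
  rw [e]
  refine (integral_mono hi.integral_prod_right ((hw.integrable_log_part ν M).add
    (integrable_const (Real.log m₀))) fun G => ?_).trans (le_of_eq ?_)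
  · simp only [Pi.add_apply]
    set Z := partFn w ν G with hZ
    have hZpos : 0 < Z := hw.part_pos ν G
    have hmG : Measurable fun g => partFn w ν (T (g, G)) :=
      (hw.measurable_part ν (M + 1)).comp (hTm.comp (measurable_id.prodMk measurable_const))
    have hiP : Integrable (fun g => partFn w ν (T (g, G))) (gauss ι) :=
      Integrable.of_bound hmG.aestronglyMeasurable (Real.exp (B * (M + 1 : ℕ)))
        (.of_forall fun g => by
          rw [Real.norm_eq_abs, abs_of_pos (hw.part_pos ν _)]
          exact (hw.part_bounds ν _).2)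
    have hiL : Integrable (fun g => Real.log (partFn w ν (T (g, G)))) (gauss ι) :=
      Integrable.of_bound (Real.measurable_log.comp hmG).aestronglyMeasurable (B * (M + 1 : ℕ))
        (.of_forall fun g => by
          rw [Real.norm_eq_abs]
          exact abs_log_le_of_bounds (hw.part_bounds ν _).1 (hw.part_bounds ν _).2)
    have hmean : ∫ g, partFn w ν (T (g, G)) ∂gauss ι = m₀ * Z := by
      simp only [partFn, hsplit]
      rw [integral_integral_swap (Integrable.of_bound (C := Real.exp B * Real.exp (B * M))
        (((hw.meas.comp (by fun_prop : Measurable fun p : (ι → ℝ) × (ι → ℝ) =>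
          ∑ i, p.1 i * p.2 i)).mul ((hw.measurable_prod M).comp
            (measurable_const.prodMk measurable_snd)))).aestronglyMeasurable
        (.of_forall fun p => by
          change |w _ * phiW w G p.2| ≤ _
          rw [abs_of_pos (mul_pos (hw.pos _) (hw.prod_pos G _))]
          exact mul_le_mul (hw.upper _) (hw.prod_bounds G _).2 (hw.prod_pos G _).le
            (Real.exp_pos _).le))]
      simp only [integral_mul_const]
      rw [integral_congr_ae (g := fun a => m₀ * phiW w G a)
        (hν.mono fun a ha => by simp only [integral_field ha hw.meas]; rfl), integral_const_mul,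
        hZ]
      rfl
    refine (integral_mono hiL ((hiP.div_const (m₀ * Z)).add
      (integrable_const (Real.log (m₀ * Z) - 1))) fun g => ?_).trans (le_of_eq ?_)
    · have hp := hw.part_pos ν (T (g, G))
      have := Real.log_le_sub_one_of_pos
        (show 0 < partFn w ν (T (g, G)) / (m₀ * Z) by positivity)
      rw [Real.log_div hp.ne' (by positivity)] at this
      simp only [Pi.add_apply]
      linarith
    · simp only [Pi.add_apply]
      rw [integral_add (hiP.div_const _) (integrable_const _), integral_div, hmean]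
      simp only [integral_const, probReal_univ, one_smul]
      rw [div_self (by positivity), Real.log_mul hm0.ne' hZpos.ne']
      ring
  · simp only [Pi.add_apply]
    rw [integral_add (hw.integrable_log_part ν M) (integrable_const _)]
    simp

lemma BWeight.deficit_mono (hw : BWeight w B) (hν : ∀ᵐ a ∂ν, ∑ i, a i ^ 2 = 1) {M M' : ℕ}
    (h : M ≤ M') :
    contLog w ν M' - M' * Real.log (∫ z, w z ∂gaussianReal 0 1) ≤
      contLog w ν M - M * Real.log (∫ z, w z ∂gaussianReal 0 1) := by
  induction M', h using Nat.le_induction with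
  | base => exact le_rfl
  | succ n _ ih =>
    have := hw.contLog_succ_le ν hν n
    push_cast
    linarith

/-- Bounded differences control the variance. -/
lemma variance_le_of_diff {α : Type} [MeasurableSpace α] (μ : Measure α) [IsProbabilityMeasure μ]
    {D : ℝ} (n : ℕ) : ∀ {F : (Fin n → α) → ℝ}, Measurable F → ∀ {C : ℝ}, (∀ G, |F G| ≤ C) →
      (∀ G i x, |F (Function.update G i x) - F G| ≤ D) →
      ∫ G, (F G - ∫ H, F H ∂Measure.pi fun _ => μ) ^ 2 ∂(Measure.pi fun _ => μ) ≤ n * D ^ 2 := by
  induction n with
  | zero =>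
    intro F _ C _ _
    have : ∀ G : Fin 0 → α, F G = F default := fun G => congrArg F (Subsingleton.elim _ _)
    rw [integral_congr_ae (g := fun _ => F default) (.of_forall this),
      integral_congr_ae (g := fun _ => (F default - F default) ^ 2)
        (.of_forall fun G => by simp [this G])]
    simp
  | succ n ih =>
    intro F hF C hC hD
    set P := Measure.pi fun _ : Fin n => μ
    let T : α × (Fin n → α) → (Fin (n + 1) → α) := fun p => Fin.cons p.1 p.2
    have hT : MeasurePreserving T (μ.prod P) (Measure.pi fun _ : Fin (n + 1) => μ) := by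
      have h := (measurePreserving_piFinSuccAbove (fun _ : Fin (n + 1) => μ) 0).symm
      have e : T = (MeasurableEquiv.piFinSuccAbove (fun _ : Fin (n + 1) => α) 0).symm := by
        funext p
        simp [T, MeasurableEquiv.piFinSuccAbove_symm_apply, Fin.insertNthEquiv]
      rw [e]
      exact h
    let Fb : (Fin n → α) → ℝ := fun r => ∫ g, F (T (g, r)) ∂μ
    have hFT : Measurable fun p => F (T p) := hF.comp hT.measurable
    have hC0 : ∀ r, |Fb r| ≤ C := fun r => by
      have := norm_integral_le_of_norm_le_const (μ := μ) (f := fun g => F (T (g, r))) (C := C)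
        (.of_forall fun g => by rw [Real.norm_eq_abs]; exact hC _)
      simpa using this
    have hFbm : Measurable Fb :=
      hFT.stronglyMeasurable.integral_prod_left'.measurable
    have hsl : ∀ r, Integrable (fun g => F (T (g, r))) μ := fun r =>
      Integrable.of_bound (hFT.comp (measurable_id.prodMk measurable_const)).aestronglyMeasurable C
        (.of_forall fun g => by rw [Real.norm_eq_abs]; exact hC _)
    have hnear : ∀ g r, |F (T (g, r)) - Fb r| ≤ D := by
      intro g r
      have h := norm_integral_le_of_norm_le_const (μ := μ) (C := D)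
        (f := fun g' => F (T (g, r)) - F (T (g', r))) (.of_forall fun g' => by
          rw [Real.norm_eq_abs]
          have := hD (T (g', r)) 0 g
          simpa [T, Fin.update_cons_zero] using this)
      rw [integral_sub (integrable_const _) (hsl r)] at h
      simpa [Fb] using h
    have hFbD : ∀ r i x, |Fb (Function.update r i x) - Fb r| ≤ D := by
      intro r i x
      have h := norm_integral_le_of_norm_le_const (μ := μ) (C := D)
        (f := fun g => F (T (g, Function.update r i x)) - F (T (g, r))) (.of_forall fun g => by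
          rw [Real.norm_eq_abs]
          have := hD (T (g, r)) i.succ x
          simpa [T, Fin.cons_update] using this)
      rw [integral_sub (hsl _) (hsl _)] at h
      simpa [Fb] using h
    have hiF : Integrable (fun p => F (T p)) (μ.prod P) :=
      Integrable.of_bound hFT.aestronglyMeasurable C
        (.of_forall fun p => by rw [Real.norm_eq_abs]; exact hC _)
    have hmean : ∫ H, F H ∂Measure.pi (fun _ : Fin (n + 1) => μ) = ∫ r, Fb r ∂P := by
      rw [← hT.map_eq, integral_map hT.measurable.aemeasurable hF.aestronglyMeasurable,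
        integral_prod_symm _ hiF]
    rw [hmean]
    set m := ∫ r, Fb r ∂P
    have hm : |m| ≤ C := by
      have := norm_integral_le_of_norm_le_const (μ := P) (f := Fb) (C := C)
        (.of_forall fun r => by rw [Real.norm_eq_abs]; exact hC0 r)
      simpa using this
    have hi : Integrable (fun p => (F (T p) - m) ^ 2) (μ.prod P) :=
      Integrable.of_bound ((hFT.sub_const m).pow_const 2).aestronglyMeasurable ((C + C) ^ 2)
        (.of_forall fun p => by
          rw [Real.norm_eq_abs, abs_pow]
          exact pow_le_pow_left₀ (abs_nonneg _)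
            ((abs_sub _ _).trans (add_le_add (hC _) hm)) 2)
    have hib : Integrable (fun r => (Fb r - m) ^ 2) P :=
      Integrable.of_bound ((hFbm.sub_const m).pow_const 2).aestronglyMeasurable ((C + C) ^ 2)
        (.of_forall fun r => by
          rw [Real.norm_eq_abs, abs_pow]
          exact pow_le_pow_left₀ (abs_nonneg _)
            ((abs_sub _ _).trans (add_le_add (hC0 r) hm)) 2)
    rw [← hT.map_eq, integral_map hT.measurable.aemeasurable
      ((hF.sub_const m).pow_const 2).aestronglyMeasurable, integral_prod_symm _ hi]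
    refine (integral_mono hi.integral_prod_right ((integrable_const (D ^ 2)).add hib)
      fun r => ?_).trans ?_
    · simp only [Pi.add_apply]
      have i1 : Integrable (fun g => (F (T (g, r)) - Fb r) ^ 2) μ :=
        Integrable.of_bound (((hFT.comp (measurable_id.prodMk measurable_const)).sub_const
          _).pow_const 2).aestronglyMeasurable (D ^ 2) (.of_forall fun g => by
            rw [Real.norm_eq_abs, abs_pow]
            exact pow_le_pow_left₀ (abs_nonneg _) (hnear g r) 2)
      have i2 : Integrable (fun g => 2 * (Fb r - m) * (F (T (g, r)) - Fb r) + (Fb r - m) ^ 2) μ :=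
        (((hsl r).sub (integrable_const _)).const_mul _).add (integrable_const _)
      have e : ∫ g, (F (T (g, r)) - m) ^ 2 ∂μ =
          ∫ g, (F (T (g, r)) - Fb r) ^ 2 ∂μ + (Fb r - m) ^ 2 := by
        rw [show (fun g => (F (T (g, r)) - m) ^ 2) = fun g => (F (T (g, r)) - Fb r) ^ 2 +
          (2 * (Fb r - m) * (F (T (g, r)) - Fb r) + (Fb r - m) ^ 2) by funext g; ring,
          integral_add i1 i2]
        have i3 : Integrable (fun g => 2 * (Fb r - m) * (F (T (g, r)) - Fb r)) μ :=
          ((hsl r).sub (integrable_const _)).const_mul _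
        rw [integral_add i3 (integrable_const _), integral_const_mul,
          integral_sub (hsl r) (integrable_const _)]
        simp [Fb]
      rw [e]
      refine add_le_add ((integral_mono i1 (integrable_const (D ^ 2)) fun g =>
        (sq_abs _).symm.trans_le (pow_le_pow_left₀ (abs_nonneg _) (hnear g r) 2)).trans
          (le_of_eq (by simp))) le_rfl
    · simp only [Pi.add_apply]
      rw [integral_add (integrable_const _) hib]
      have := ih hFbm hC0 hFbD
      simp only [integral_const, probReal_univ, one_smul]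
      push_cast
      linarith

lemma BWeight.log_part_update (hw : BWeight w B) {M : ℕ} (G : Fin M → ι → ℝ) (j : Fin M)
    (g : ι → ℝ) :
    |Real.log (partFn w ν (Function.update G j g)) - Real.log (partFn w ν G)| ≤ 2 * B := by
  have key : ∀ (G : Fin M → ι → ℝ) (g : ι → ℝ),
      Real.log (partFn w ν (Function.update G j g)) ≤ 2 * B + Real.log (partFn w ν G) := by
    intro G g
    have hle : ∀ a, phiW w (Function.update G j g) a ≤ Real.exp (2 * B) * phiW w G a := by
      intro a
      simp only [phiW]
      rw [← mul_prod_erase univ (fun k => w (∑ i, G k i * a i)) (mem_univ j),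
        ← mul_prod_erase univ (fun k => w (∑ i, Function.update G j g k i * a i)) (mem_univ j),
        Function.update_self,
        prod_congr rfl fun k hk => by rw [Function.update_of_ne (ne_of_mem_erase hk)]]
      have hP : 0 ≤ ∏ k ∈ univ.erase j, w (∑ i, G k i * a i) :=
        prod_nonneg fun k _ => (hw.pos _).le
      have h1 : w (∑ i, g i * a i) ≤ Real.exp (2 * B) * w (∑ i, G j i * a i) := by
        refine (hw.upper _).trans ?_
        refine le_trans ?_ (mul_le_mul_of_nonneg_left (hw.lower _) (Real.exp_pos _).le)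
        rw [← Real.exp_add]; ring_nf; rfl
      rw [← mul_assoc]
      exact mul_le_mul_of_nonneg_right h1 hP
    have := Real.log_le_log (hw.part_pos ν _) (show partFn w ν (Function.update G j g) ≤
        Real.exp (2 * B) * partFn w ν G by
      unfold partFn
      rw [← integral_const_mul]
      exact integral_mono (hw.integrable_prod _ ν) ((hw.integrable_prod G ν).const_mul _) hle)
    rwa [Real.log_mul (Real.exp_ne_zero _) (hw.part_pos ν G).ne', Real.log_exp] at this
  have h := key (Function.update G j g) (G j)
  rw [Function.update_idem, Function.update_eq_self] at h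
  rw [abs_le]
  constructor <;> linarith [key G g]

/-- The second moment bound. -/
lemma BWeight.second_moment (hw : BWeight w B) (hν : ∀ᵐ a ∂ν, ∑ i, a i ^ 2 = 1) {K : ℝ}
    (hK : ∀ a b : ι → ℝ, ∑ i, a i ^ 2 = 1 → ∑ i, b i ^ 2 = 1 →
      ∫ g, w (∑ i, g i * a i) * w (∑ i, g i * b i) ∂gauss ι ≤
        (∫ z, w z ∂gaussianReal 0 1) ^ 2 * Real.exp (K * (∑ i, a i * b i) ^ 2))
    {N C : ℝ} (hC : ∀ b : ι → ℝ, ∑ i, b i ^ 2 = 1 →
      Integrable (fun a => Real.exp (N / 4 * (∑ i, a i * b i) ^ 2)) ν ∧
        ∫ a, Real.exp (N / 4 * (∑ i, a i * b i) ^ 2) ∂ν ≤ C)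
    (M : ℕ) (hM : K * M ≤ N / 4) :
    ∫ G, partFn w ν G ^ 2 ∂gaussM ι M ≤ ((∫ z, w z ∂gaussianReal 0 1) ^ M) ^ 2 * C := by
  set m₀ := ∫ z, w z ∂gaussianReal 0 1
  have e : ∀ G : Fin M → ι → ℝ, partFn w ν G ^ 2 =
      ∫ p, phiW w G p.1 * phiW w G p.2 ∂ν.prod ν := fun G => by
    rw [integral_prod_mul, sq]; rfl
  simp only [e]
  have hm : Measurable fun q : (Fin M → ι → ℝ) × ((ι → ℝ) × (ι → ℝ)) =>
      phiW w q.1 q.2.1 * phiW w q.1 q.2.2 :=
    ((hw.measurable_prod M).comp
      (measurable_fst.prodMk (measurable_fst.comp measurable_snd))).mul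
      ((hw.measurable_prod M).comp (measurable_fst.prodMk (measurable_snd.comp measurable_snd)))
  have hi : Integrable (fun q : (Fin M → ι → ℝ) × ((ι → ℝ) × (ι → ℝ)) =>
      phiW w q.1 q.2.1 * phiW w q.1 q.2.2) ((gaussM ι M).prod (ν.prod ν)) :=
    Integrable.of_bound hm.aestronglyMeasurable (Real.exp (B * M) * Real.exp (B * M))
      (.of_forall fun q => by
        rw [Real.norm_eq_abs, abs_of_pos (mul_pos (hw.prod_pos _ _) (hw.prod_pos _ _))]
        exact mul_le_mul (hw.prod_bounds _ _).2 (hw.prod_bounds _ _).2 (hw.prod_pos _ _).le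
          (Real.exp_pos _).le)
  rw [integral_integral_swap hi]
  set X : (ι → ℝ) × (ι → ℝ) → ℝ :=
    fun p => ∫ G, phiW w G p.1 * phiW w G p.2 ∂gaussM ι M
  have hXi : Integrable X (ν.prod ν) := hi.integral_prod_right
  change ∫ p, X p ∂ν.prod ν ≤ _
  rw [integral_prod _ hXi]
  refine (integral_mono_ae hXi.integral_prod_left (integrable_const ((m₀ ^ M) ^ 2 * C)) ?_).trans
    (le_of_eq (by simp))
  filter_upwards [hν] with b hb
  obtain ⟨hCi, hCle⟩ := hC b hb
  refine (integral_mono_of_nonneg (.of_forall fun a => integral_nonneg fun G =>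
    (mul_pos (hw.prod_pos _ _) (hw.prod_pos _ _)).le) (hCi.const_mul ((m₀ ^ M) ^ 2)) ?_).trans ?_
  · filter_upwards [hν] with a ha
    have e2 : ∀ G : Fin M → ι → ℝ, phiW w G b * phiW w G a =
        ∏ j, w (∑ i, G j i * b i) * w (∑ i, G j i * a i) :=
      fun G => prod_mul_distrib.symm
    simp only [e2]
    unfold gaussM
    rw [integral_fintype_prod_eq_prod
      (fun _ (g : ι → ℝ) => w (∑ i, g i * b i) * w (∑ i, g i * a i)), prod_const, card_univ,
      Fintype.card_fin]
    refine (pow_le_pow_left₀ (integral_nonneg fun g => (mul_pos (hw.pos _) (hw.pos _)).le)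
      (hK b a hb ha) M).trans ?_
    rw [mul_pow, ← pow_mul, mul_comm 2 M, pow_mul, ← Real.exp_nat_mul,
      show ∑ i, b i * a i = ∑ i, a i * b i from sum_congr rfl fun i _ => mul_comm _ _]
    refine mul_le_mul_of_nonneg_left (Real.exp_le_exp.2 ?_) (sq_nonneg _)
    have := mul_le_mul_of_nonneg_right hM (sq_nonneg (∑ i, a i * b i))
    linarith
  · rw [integral_const_mul]
    exact mul_le_mul_of_nonneg_left hCle (sq_nonneg _)

/-- The lower bound from the second moment. -/
lemma BWeight.contLog_ge_annealed (hw : BWeight w B) (hν : ∀ᵐ a ∂ν, ∑ i, a i ^ 2 = 1) {C : ℝ}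
    (M : ℕ) (h2 : ∫ G, partFn w ν G ^ 2 ∂gaussM ι M ≤
      ((∫ z, w z ∂gaussianReal 0 1) ^ M) ^ 2 * C) :
    M * Real.log (∫ z, w z ∂gaussianReal 0 1) - Real.log 2 - 4 * B * Real.sqrt (C * M) ≤
      contLog w ν M := by
  set m₀ := ∫ z, w z ∂gaussianReal 0 1
  have hm0 : 0 < m₀ := hw.integral_pos
  set c := (m₀ ^ M : ℝ)
  have hc : 0 < c := pow_pos hm0 M
  set μ := contLog w ν M with hμ
  set lc := Real.log c
  have hlc : lc = M * Real.log m₀ := Real.log_pow _ _
  rcases le_or_gt (M * Real.log m₀ - Real.log 2) μ with h | h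
  · have := mul_nonneg (mul_nonneg (by norm_num : (0 : ℝ) ≤ 4) hw.nonneg)
      (Real.sqrt_nonneg (C * M))
    linarith
  set d := M * Real.log m₀ - Real.log 2 - μ with hd
  have hd0 : 0 < d := by linarith
  have hC0 : 1 ≤ C := by
    have hsq : c ^ 2 ≤ c ^ 2 * C := by
      refine le_trans ?_ h2
      have hv := variance_eq_sub (μ := gaussM ι M) (X := partFn w ν)
        (MemLp.of_bound (hw.measurable_part ν M).aestronglyMeasurable (Real.exp (B * M))
          (.of_forall fun G => by
            rw [Real.norm_eq_abs, abs_of_pos (hw.part_pos ν G)]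
            exact (hw.part_bounds ν G).2))
      have := variance_nonneg (partFn w ν) (gaussM ι M)
      simp only [Pi.pow_apply, hw.integral_part ν hν] at hv
      linarith
    exact le_of_mul_le_mul_left ((mul_one _).trans_le hsq) (by positivity)
  have hvar : ∫ G, (Real.log (partFn w ν G) - μ) ^ 2 ∂gaussM ι M ≤ M * (2 * B) ^ 2 :=
    variance_le_of_diff (gauss ι) M (Real.measurable_log.comp (hw.measurable_part ν M))
      (C := B * M) (fun G => abs_log_le_of_bounds (hw.part_bounds ν G).1 (hw.part_bounds ν G).2)
      (fun G j g => hw.log_part_update ν G j g)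
  set ε := 1 / (2 * C) with hε
  have hε0 : 0 < ε := by positivity
  have hpt : ∀ G : Fin M → ι → ℝ, partFn w ν G / c ≤ 1 / 2 + ε / 2 * (partFn w ν G / c) ^ 2 +
      (Real.log (partFn w ν G) - μ) ^ 2 / (2 * ε * d ^ 2) := by
    intro G
    set Y := partFn w ν G / c
    have hY : 0 < Y := div_pos (hw.part_pos ν G) hc
    rcases le_or_gt Y (1 / 2) with h' | h'
    · have : 0 ≤ ε / 2 * Y ^ 2 := by positivity
      have : 0 ≤ (Real.log (partFn w ν G) - μ) ^ 2 / (2 * ε * d ^ 2) := by positivity
      linarith
    · have hlog : d ≤ Real.log (partFn w ν G) - μ := by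
        have := Real.log_lt_log (by norm_num) h'
        rw [Real.log_div (hw.part_pos ν G).ne' hc.ne', one_div, Real.log_inv] at this
        change _ < _ - lc at this
        linarith
      have h1 : 1 / (2 * ε) ≤ (Real.log (partFn w ν G) - μ) ^ 2 / (2 * ε * d ^ 2) := by
        rw [div_le_div_iff₀ (by positivity) (by positivity)]
        have := pow_le_pow_left₀ hd0.le hlog 2
        have := mul_le_mul_of_nonneg_left this (show (0 : ℝ) ≤ 2 * ε by positivity)
        linarith
      have h2 : Y ≤ ε / 2 * Y ^ 2 + 1 / (2 * ε) := by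
        rw [← sub_nonneg]
        have e : ε / 2 * Y ^ 2 + 1 / (2 * ε) - Y = (ε * Y - 1) ^ 2 / (2 * ε) := by
          field_simp
          ring
        rw [e]
        positivity
      linarith
  have hi1 := (hw.integrable_part ν M).div_const c
  have hi2 : Integrable (fun G => (partFn w ν G / c) ^ 2) (gaussM ι M) :=
    Integrable.of_bound (((hw.measurable_part ν M).div_const c).pow_const 2).aestronglyMeasurable
      ((Real.exp (B * M) / c) ^ 2) (.of_forall fun G => by
        rw [Real.norm_eq_abs, abs_pow, abs_div, abs_of_pos (hw.part_pos ν G), abs_of_pos hc]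
        exact pow_le_pow_left₀ (div_nonneg (hw.part_pos ν G).le hc.le)
          (div_le_div_of_nonneg_right (hw.part_bounds ν G).2 hc.le) 2)
  have hi3 : Integrable (fun G => (Real.log (partFn w ν G) - μ) ^ 2) (gaussM ι M) := by
    refine Integrable.of_bound (((Real.measurable_log.comp (hw.measurable_part ν M)).sub_const
      μ).pow_const 2).aestronglyMeasurable ((B * M + |μ|) ^ 2) (.of_forall fun G => ?_)
    rw [Real.norm_eq_abs, abs_pow]
    exact pow_le_pow_left₀ (abs_nonneg _) ((abs_sub _ _).trans (add_le_add
      (abs_log_le_of_bounds (hw.part_bounds ν G).1 (hw.part_bounds ν G).2) le_rfl)) 2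
  have hint := integral_mono hi1
    (((integrable_const (1 / 2 : ℝ)).add (hi2.const_mul (ε / 2))).add
      (hi3.div_const (2 * ε * d ^ 2))) hpt
  simp only [Pi.add_apply] at hint
  rw [integral_add ((integrable_const _).fun_add (hi2.const_mul _)) (hi3.div_const _),
    integral_add (integrable_const _) (hi2.const_mul _), integral_div, integral_const_mul,
    hw.integral_part ν hν, div_self hc.ne', integral_div (2 * ε * d ^ 2)] at hint
  simp only [integral_const, probReal_univ, one_smul] at hint
  have hY2 : ε / 2 * ∫ G, (partFn w ν G / c) ^ 2 ∂gaussM ι M ≤ 1 / 4 := by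
    simp only [div_pow, integral_div]
    calc ε / 2 * ((∫ G, partFn w ν G ^ 2 ∂gaussM ι M) / c ^ 2) ≤ ε / 2 * (c ^ 2 * C / c ^ 2) :=
          mul_le_mul_of_nonneg_left (div_le_div_of_nonneg_right h2 (by positivity)) (by positivity)
      _ = 1 / 4 := by rw [hε]; field_simp; ring
  have hV : 1 / 4 ≤ (M : ℝ) * (2 * B) ^ 2 / (2 * ε * d ^ 2) := by
    have := div_le_div_of_nonneg_right hvar (show (0 : ℝ) ≤ 2 * ε * d ^ 2 by positivity)
    linarith
  rw [le_div_iff₀ (by positivity), hε] at hV
  have hd2 : d ^ 2 ≤ (4 * B * Real.sqrt (C * M)) ^ 2 := by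
    rw [mul_pow, Real.sq_sqrt (by positivity)]
    have := mul_le_mul_of_nonneg_left hV (show (0 : ℝ) ≤ 4 * C by positivity)
    field_simp at this
    linarith
  have := pow_le_pow_iff_left₀ hd0.le (by have := hw.nonneg; positivity) two_ne_zero |>.1 hd2
  linarith

end Vale.Agent.P157
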