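import Vale.Agent.P157.Interp

/-!
Factorisation of two blocks of coordinates and the resulting approximate superadditivity of the
averaged log-partition function.
-/

namespace Vale.Agent.P157

open MeasureTheory ProbabilityTheory Finset Real

variable {ι₁ ι₂ X₁ X₂ : Type} [Fintype ι₁] [Fintype ι₂] [Fintype X₁] [Fintype X₂]
variable {u : ℝ → ℝ} {L : ℝ}

/-- A pattern acting on one of two blocks. -/
def blockCoef (a₁ : X₁ → ι₁ → ℝ) (a₂ : X₂ → ι₂ → ℝ) : Bool → X₁ × X₂ → ι₁ ⊕ ι₂ → ℝ
  | true, x => Sum.elim (a₁ x.1) (fun _ => 0)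
  | false, x => Sum.elim (fun _ => 0) (a₂ x.2)

lemma integral_gauss_fst {F : (ι₁ → ℝ) → ℝ} (hF : AEStronglyMeasurable F (gauss ι₁)) :
    ∫ g, F (fun i => g (Sum.inl i)) ∂gauss (ι₁ ⊕ ι₂) = ∫ g, F g ∂gauss ι₁ := by
  have h := measurePreserving_sumPiEquivProdPi (fun _ : ι₁ ⊕ ι₂ => gaussianReal 0 1)
  have h' : MeasurePreserving (fun g : ι₁ ⊕ ι₂ → ℝ => fun i => g (Sum.inl i))
      (gauss (ι₁ ⊕ ι₂)) (gauss ι₁) :=
    measurePreserving_fst.comp h
  rw [← h'.map_eq] at hF ⊢
  exact (integral_map h'.measurable.aemeasurable hF).symm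

lemma integral_gauss_snd {F : (ι₂ → ℝ) → ℝ} (hF : AEStronglyMeasurable F (gauss ι₂)) :
    ∫ g, F (fun i => g (Sum.inr i)) ∂gauss (ι₁ ⊕ ι₂) = ∫ g, F g ∂gauss ι₂ := by
  have h := measurePreserving_sumPiEquivProdPi (fun _ : ι₁ ⊕ ι₂ => gaussianReal 0 1)
  have h' : MeasurePreserving (fun g : ι₁ ⊕ ι₂ → ℝ => fun i => g (Sum.inr i))
      (gauss (ι₁ ⊕ ι₂)) (gauss ι₂) :=
    measurePreserving_snd.comp h
  rw [← h'.map_eq] at hF ⊢
  exact (integral_map h'.measurable.aemeasurable hF).symm

lemma logPart_factor (hu : Weight u L) (a₁ : X₁ → ι₁ → ℝ) (a₂ : X₂ → ι₂ → ℝ) (Q : List Bool) :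
    ∀ {W₁ : X₁ → ℝ} {W₂ : X₂ → ℝ}, (∀ x, 0 ≤ W₁ x) → 0 < ∑ x, W₁ x → (∀ x, 0 ≤ W₂ x) →
      0 < ∑ x, W₂ x →
      logPart u (Q.map (blockCoef a₁ a₂)) (fun x => W₁ x.1 * W₂ x.2) =
        logPart u (List.replicate (Q.count true) a₁) W₁ +
          logPart u (List.replicate (Q.count false) a₂) W₂ := by
  induction Q with
  | nil =>
    intro W₁ W₂ _ h1 _ h2
    simp only [List.map_nil, List.count_nil, List.replicate_zero, logPart]
    rw [Fintype.sum_prod_type]
    simp only [← mul_sum, ← sum_mul]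
    exact Real.log_mul h1.ne' h2.ne'
  | cons b Q ih =>
    intro W₁ W₂ hW₁ h1 hW₂ h2
    cases b
    · have hf : ∀ (g : ι₁ ⊕ ι₂ → ℝ) (x : X₁ × X₂),
          field (blockCoef a₁ a₂ false) g x = field a₂ (fun i => g (Sum.inr i)) x.2 := by
        intro g x; simp [field, blockCoef, Fintype.sum_sum_type]
      simp only [List.map_cons, logPart, hf, List.count_cons_self,
        List.count_cons_of_ne (show (false : Bool) ≠ true by decide), List.replicate_succ,
        mul_assoc]
      have key : ∀ g : ι₁ ⊕ ι₂ → ℝ, logPart u (Q.map (blockCoef a₁ a₂))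
          (fun x => W₁ x.1 * (W₂ x.2 * u (field a₂ (fun i => g (Sum.inr i)) x.2))) =
          logPart u (List.replicate (Q.count true) a₁) W₁ +
            logPart u (List.replicate (Q.count false) a₂)
              (fun y => W₂ y * u (field a₂ (fun i => g (Sum.inr i)) y)) :=
        fun g => ih hW₁ h1 (fun y => mul_nonneg (hW₂ y) (hu.pos _).le) (abs_log_step hu hW₂ h2 _).1
      simp only [key]
      have hi := integrable_cons hu (List.replicate (Q.count false) a₂) a₂ hW₂ h2
      rw [integral_gauss_snd (F := fun g => logPart u (List.replicate (Q.count true) a₁) W₁ +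
        logPart u (List.replicate (Q.count false) a₂) (fun y => W₂ y * u (field a₂ g y)))
        ((integrable_const _).add hi).aestronglyMeasurable]
      rw [integral_add (integrable_const _) hi]
      simp
    · have hf : ∀ (g : ι₁ ⊕ ι₂ → ℝ) (x : X₁ × X₂),
          field (blockCoef a₁ a₂ true) g x = field a₁ (fun i => g (Sum.inl i)) x.1 := by
        intro g x; simp [field, blockCoef, Fintype.sum_sum_type]
      simp only [List.map_cons, logPart, hf, List.count_cons_self,
        List.count_cons_of_ne (show (true : Bool) ≠ false by decide), List.replicate_succ,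
        mul_right_comm (W₁ _) (W₂ _)]
      have key : ∀ g : ι₁ ⊕ ι₂ → ℝ, logPart u (Q.map (blockCoef a₁ a₂))
          (fun x => W₁ x.1 * u (field a₁ (fun i => g (Sum.inl i)) x.1) * W₂ x.2) =
          logPart u (List.replicate (Q.count true) a₁)
              (fun y => W₁ y * u (field a₁ (fun i => g (Sum.inl i)) y)) +
            logPart u (List.replicate (Q.count false) a₂) W₂ :=
        fun g => ih (fun y => mul_nonneg (hW₁ y) (hu.pos _).le) (abs_log_step hu hW₁ h1 _).1 hW₂ h2
      simp only [key]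
      have hi := integrable_cons hu (List.replicate (Q.count true) a₁) a₁ hW₁ h1
      rw [integral_gauss_fst (F := fun g => logPart u (List.replicate (Q.count true) a₁)
        (fun y => W₁ y * u (field a₁ g y)) + logPart u (List.replicate (Q.count false) a₂) W₂)
        (hi.add (integrable_const _)).aestronglyMeasurable]
      rw [integral_add hi (integrable_const _)]
      simp

lemma abs_logPart_append (hu : Weight u L) {ι X : Type} [Fintype ι] [Fintype X]
    (a : X → ι → ℝ) (l : List (X → ι → ℝ)) :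
    ∀ {W : X → ℝ}, (∀ x, 0 ≤ W x) → 0 < ∑ x, W x →
      |logPart u (l ++ [a]) W - logPart u l W| ≤ L := by
  induction l with
  | nil =>
    intro W hW hS
    have := abs_logPart_sub hu [a] hW hS
    simpa [logPart] using this
  | cons b l ih =>
    intro W hW hS
    simp only [List.cons_append, logPart]
    rw [← integral_sub (integrable_cons hu _ b hW hS) (integrable_cons hu _ b hW hS)]
    have := norm_integral_le_of_norm_le_const (μ := gauss ι) (C := L)
      (f := fun g => logPart u (l ++ [a]) (fun x => W x * u (field b g x)) -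
        logPart u l (fun x => W x * u (field b g x)))
      (.of_forall fun g => (Real.norm_eq_abs _).trans_le (ih
        (fun x => mul_nonneg (hW x) (hu.pos _).le) (abs_log_step hu hW hS _).1))
    simpa using this

lemma abs_logPart_replicate (hu : Weight u L) {ι X : Type} [Fintype ι] [Fintype X]
    (a : X → ι → ℝ) {W : X → ℝ} (hW : ∀ x, 0 ≤ W x) (hS : 0 < ∑ x, W x) (m n : ℕ) :
    |logPart u (List.replicate m a) W - logPart u (List.replicate n a) W| ≤
      L * |(m : ℝ) - n| := by
  have step : ∀ n d, |logPart u (List.replicate (n + d) a) W -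
      logPart u (List.replicate n a) W| ≤ L * d := by
    intro n d
    induction d with
    | zero => simp
    | succ d ih =>
      rw [← Nat.add_assoc, List.replicate_succ']
      refine (abs_sub_le _ (logPart u (List.replicate (n + d) a) W) _).trans ?_
      have := abs_logPart_append hu a (List.replicate (n + d) a) hW hS
      push_cast
      linarith
  rcases le_total n m with h | h <;> obtain ⟨d, rfl⟩ := Nat.exists_eq_add_of_le h
  · refine (step n d).trans (le_of_eq ?_)
    push_cast
    rw [add_sub_cancel_left, abs_of_nonneg (Nat.cast_nonneg _)]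
  · rw [abs_sub_comm]
    refine (step m d).trans (le_of_eq ?_)
    push_cast
    rw [sub_add_cancel_left, abs_neg, abs_of_nonneg (Nat.cast_nonneg _)]

/-- Interpolation between the system and its two blocks. -/
lemma interpolate (hu : Weight u L) {lam μ : ℝ} (hl : 0 ≤ lam) (hm : 0 ≤ μ) (hlm : lam + μ = 1)
    (a₁ : X₁ → ι₁ → ℝ) (a₂ : X₂ → ι₂ → ℝ) (a : X₁ × X₂ → ι₁ ⊕ ι₂ → ℝ)
    (hjen : ∀ W : X₁ × X₂ → ℝ, (∀ x, 0 ≤ W x) → 0 < ∑ x, W x →
      lam * logPart u [blockCoef a₁ a₂ true] W + μ * logPart u [blockCoef a₁ a₂ false] W ≤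
        logPart u [a] W)
    {W₁ : X₁ → ℝ} {W₂ : X₂ → ℝ} (hW₁ : ∀ x, 0 ≤ W₁ x) (h1 : 0 < ∑ x, W₁ x)
    (hW₂ : ∀ x, 0 ≤ W₂ x) (h2 : 0 < ∑ x, W₂ x) (m₁ m₂ : ℕ) {s : ℝ} (hs : 0 < s) (n : ℕ) :
    ∀ Q : List Bool,
      logPart u (List.replicate m₁ a₁) W₁ + logPart u (List.replicate m₂ a₂) W₂ -
        L * (((Q.count true : ℝ) + n * lam - m₁) ^ 2 + ((Q.count false : ℝ) + n * μ - m₂) ^ 2 +
          2 * n * lam * μ) / (2 * s) - L * s ≤
      logPart u (List.replicate n a ++ Q.map (blockCoef a₁ a₂)) (fun x => W₁ x.1 * W₂ x.2) := by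
  have hL := hu.nonneg
  have hW : ∀ x : X₁ × X₂, 0 ≤ W₁ x.1 * W₂ x.2 := fun x => mul_nonneg (hW₁ _) (hW₂ _)
  have hS : 0 < ∑ x : X₁ × X₂, W₁ x.1 * W₂ x.2 := by
    rw [Fintype.sum_prod_type]
    simp only [← mul_sum, ← sum_mul]
    exact mul_pos h1 h2
  induction n with
  | zero =>
    intro Q
    rw [List.replicate_zero, List.nil_append, logPart_factor hu a₁ a₂ Q hW₁ h1 hW₂ h2]
    have e1 := (abs_le.1 (abs_logPart_replicate hu a₁ hW₁ h1 (Q.count true) m₁)).1
    have e2 := (abs_le.1 (abs_logPart_replicate hu a₂ hW₂ h2 (Q.count false) m₂)).1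
    have quad : ∀ t : ℝ, |t| ≤ t ^ 2 / (2 * s) + s / 2 := by
      intro t
      rw [div_add_div _ _ (by positivity) (by norm_num), le_div_iff₀ (by positivity)]
      nlinarith [sq_nonneg (|t| - s), sq_abs t]
    have q1 := mul_le_mul_of_nonneg_left (quad ((Q.count true : ℝ) - m₁)) hL
    have q2 := mul_le_mul_of_nonneg_left (quad ((Q.count false : ℝ) - m₂)) hL
    simp only [Nat.cast_zero, zero_mul, mul_zero, add_zero]
    rw [mul_add] at q1 q2
    have key : L * (((Q.count true : ℝ) - m₁) ^ 2 + ((Q.count false : ℝ) - m₂) ^ 2) / (2 * s) =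
        L * (((Q.count true : ℝ) - m₁) ^ 2 / (2 * s)) +
          L * (((Q.count false : ℝ) - m₂) ^ 2 / (2 * s)) := by ring
    rw [key]
    linarith
  | succ n ih =>
    intro Q
    rw [List.replicate_succ, List.cons_append]
    refine le_trans ?_ (logPart_swap_head hu a _ _ hjen _ hW hS)
    have e : ∀ b : Bool, logPart u (blockCoef a₁ a₂ b ::
        (List.replicate n a ++ Q.map (blockCoef a₁ a₂))) (fun x => W₁ x.1 * W₂ x.2) =
        logPart u (List.replicate n a ++ (b :: Q).map (blockCoef a₁ a₂))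
          (fun x => W₁ x.1 * W₂ x.2) := fun b =>
      logPart_perm hu List.perm_middle.symm hW hS
    rw [e, e]
    have i1 := mul_le_mul_of_nonneg_left (ih (true :: Q)) hl
    have i2 := mul_le_mul_of_nonneg_left (ih (false :: Q)) hm
    refine le_trans (le_of_eq ?_) (add_le_add i1 i2)
    simp only [List.count_cons_self, List.count_cons_of_ne (show (false : Bool) ≠ true by decide),
      List.count_cons_of_ne (show (true : Bool) ≠ false by decide)]
    have hμ : μ = 1 - lam := by linarith
    subst hμ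
    field_simp
    push_cast
    ring

end Vale.Agent.P157
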