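import Vale.Agent.P157.Spaces

/-!
For which potentials the limit of the pressure is the annealed one.
-/

namespace Vale.Agent.P157

open MeasureTheory ProbabilityTheory Finset Filter Topology

variable {w : ℝ → ℝ} {B : ℝ}

/-- A sequence of configuration spaces: unit vectors with sub-Gaussian overlaps. -/
structure GoodSpaces (ν : (N : ℕ) → Measure (Fin N → ℝ)) : Prop where
  prob : ∀ N, 0 < N → IsProbabilityMeasure (ν N)
  unit : ∀ N, 0 < N → ∀ᵐ a ∂ν N, ∑ i, a i ^ 2 = 1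
  overlap : ∀ N, 0 < N → ∀ b : Fin N → ℝ, ∑ i, b i ^ 2 = 1 →
    Integrable (fun a => Real.exp ((N : ℝ) / 4 * (∑ i, a i * b i) ^ 2)) (ν N) ∧
      ∫ a, Real.exp ((N : ℝ) / 4 * (∑ i, a i * b i) ^ 2) ∂ν N ≤ overlapConst

lemma goodSpaces_ising : GoodSpaces isingLaw :=
  ⟨fun _ _ => inferInstance, fun _ h => isingLaw_ae_unit h, fun _ h _ hb => isingLaw_overlap h hb⟩

lemma goodSpaces_sphere : GoodSpaces fun N => unitUnif (Fin N) := by
  refine ⟨fun N h => ?_, fun N h => ?_, fun N h b hb => ?_⟩ <;>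
    have : Nonempty (Fin N) := ⟨⟨0, h⟩⟩
  · infer_instance
  · exact unitUnif_ae_unit
  · simpa using unitUnif_overlap hb

/-- The pressure of a sequence of spaces. -/
noncomputable def spacePressure (w : ℝ → ℝ) (ν : (N : ℕ) → Measure (Fin N → ℝ)) (α : ℝ) (N : ℕ) :
    ℝ :=
  contLog w (ν N) ⌊α * N⌋₊ / N

variable {ν : (N : ℕ) → Measure (Fin N → ℝ)}

lemma tendsto_floor_div {α : ℝ} (hα : 0 ≤ α) :
    Tendsto (fun N : ℕ => (⌊α * N⌋₊ : ℝ) / N) atTop (𝓝 α) :=
  (tendsto_nat_floor_mul_div_atTop hα).comp tendsto_natCast_atTop_atTop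

/-- At small density the limit is annealed when the first moment vanishes. -/
lemma tendsto_annealed (hw : BWeight w B) (hν : GoodSpaces ν)
    (hm : ∫ z, z * w z ∂gaussianReal 0 1 = 0) :
    ∃ α₀ : ℝ, 0 < α₀ ∧ ∀ α ∈ Set.Ioc 0 α₀, Tendsto (spacePressure w ν α) atTop
      (𝓝 (α * Real.log (∫ z, w z ∂gaussianReal 0 1))) := by
  obtain ⟨K, hK0, hK⟩ := pair_bound hw hm
  refine ⟨1 / (4 * K), by positivity, fun α hα => ?_⟩
  set ℓ := Real.log (∫ z, w z ∂gaussianReal 0 1)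
  have hC : 0 ≤ overlapConst := integral_nonneg fun z => (Real.exp_pos _).le
  have hlow : Tendsto (fun N : ℕ => (⌊α * N⌋₊ : ℝ) / N * ℓ -
      (Real.log 2 / N + 4 * B * Real.sqrt (overlapConst * α) / Real.sqrt N)) atTop
      (𝓝 (α * ℓ - (0 + 0))) :=
    ((tendsto_floor_div hα.1.le).mul_const ℓ).sub
      ((tendsto_const_div_atTop_nhds_zero_nat _).add
        ((Real.tendsto_sqrt_atTop.comp tendsto_natCast_atTop_atTop).const_div_atTop _))
  rw [add_zero, sub_zero] at hlow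
  refine tendsto_of_tendsto_of_tendsto_of_le_of_le' hlow
    ((tendsto_floor_div hα.1.le).mul_const ℓ) ?_ ?_
  · filter_upwards [eventually_gt_atTop 0] with N hN
    have hN0 : (0 : ℝ) < N := by exact_mod_cast hN
    have := hν.prob N hN
    set M := ⌊α * N⌋₊
    have hM : (M : ℝ) ≤ α * N := Nat.floor_le (mul_nonneg hα.1.le hN0.le)
    have hKM : K * M ≤ (N : ℝ) / 4 := by
      have h1 := mul_le_mul_of_nonneg_left
        (hM.trans (mul_le_mul_of_nonneg_right hα.2 hN0.le)) hK0.le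
      refine h1.trans (le_of_eq ?_)
      field_simp
    have h := hw.contLog_ge_annealed (ν N) (hν.unit N hN) M
      (hw.second_moment (ν N) (hν.unit N hN) (hK (Fin N)) (hν.overlap N hN) M hKM)
    have hs : Real.sqrt (overlapConst * M) ≤ Real.sqrt (overlapConst * α) * Real.sqrt N := by
      rw [← Real.sqrt_mul (by have := hα.1; positivity)]
      refine Real.sqrt_le_sqrt ?_
      rw [mul_assoc]
      exact mul_le_mul_of_nonneg_left hM hC
    have hB := mul_le_mul_of_nonneg_left hs (show 0 ≤ 4 * B from mul_nonneg (by norm_num) hw.nonneg)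
    unfold spacePressure
    rw [le_div_iff₀ hN0]
    have hsq : Real.sqrt N * Real.sqrt N = N := Real.mul_self_sqrt hN0.le
    have hsp : 0 < Real.sqrt (N : ℝ) := Real.sqrt_pos.2 hN0
    have e : ((M : ℝ) / N * ℓ - (Real.log 2 / N + 4 * B * Real.sqrt (overlapConst * α) /
        Real.sqrt N)) * N = M * ℓ - Real.log 2 -
          4 * B * (Real.sqrt (overlapConst * α) * Real.sqrt N) := by
      field_simp
      linear_combination (4 * B * Real.sqrt (overlapConst * α)) * hsq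
    rw [e]
    linarith
  · filter_upwards [eventually_gt_atTop 0] with N hN
    have := hν.prob N hN
    rw [spacePressure, div_mul_eq_mul_div]
    exact div_le_div_of_nonneg_right (hw.contLog_le_annealed (ν N) (hν.unit N hN) _)
      (Nat.cast_nonneg N)

/-- The set of densities with an annealed limit is downward closed. -/
lemma tendsto_annealed_mono (hw : BWeight w B) (hν : GoodSpaces ν) {α α' : ℝ} (hα' : 0 ≤ α')
    (h : α' ≤ α) (ht : Tendsto (spacePressure w ν α) atTop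
      (𝓝 (α * Real.log (∫ z, w z ∂gaussianReal 0 1)))) :
    Tendsto (spacePressure w ν α') atTop
      (𝓝 (α' * Real.log (∫ z, w z ∂gaussianReal 0 1))) := by
  set ℓ := Real.log (∫ z, w z ∂gaussianReal 0 1)
  have hlow : Tendsto (fun N : ℕ => spacePressure w ν α N - (⌊α * N⌋₊ : ℝ) / N * ℓ +
      (⌊α' * N⌋₊ : ℝ) / N * ℓ) atTop (𝓝 (α * ℓ - α * ℓ + α' * ℓ)) :=
    (ht.sub ((tendsto_floor_div (hα'.trans h)).mul_const ℓ)).add
      ((tendsto_floor_div hα').mul_const ℓ)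
  rw [sub_self, zero_add] at hlow
  refine tendsto_of_tendsto_of_tendsto_of_le_of_le' hlow
    ((tendsto_floor_div hα').mul_const ℓ) ?_ ?_
  · filter_upwards [eventually_gt_atTop 0] with N hN
    have hN0 : (0 : ℝ) < N := by exact_mod_cast hN
    have := hν.prob N hN
    have hd := hw.deficit_mono (ν N) (hν.unit N hN)
      (show ⌊α' * N⌋₊ ≤ ⌊α * N⌋₊ from Nat.floor_mono (mul_le_mul_of_nonneg_right h hN0.le))
    have := div_le_div_of_nonneg_right hd hN0.le
    simp only [spacePressure]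
    rw [sub_div, sub_div] at this
    linarith [div_mul_eq_mul_div (⌊α * N⌋₊ : ℝ) (N : ℝ) ℓ,
      div_mul_eq_mul_div (⌊α' * N⌋₊ : ℝ) (N : ℝ) ℓ]
  · filter_upwards [eventually_gt_atTop 0] with N hN
    have := hν.prob N hN
    rw [spacePressure, div_mul_eq_mul_div]
    exact div_le_div_of_nonneg_right (hw.contLog_le_annealed (ν N) (hν.unit N hN) _)
      (Nat.cast_nonneg N)

/-- The arithmetic of the test function bound at one size. -/
lemma test_arith {X ℓ M N lam α m J μ c : ℝ} (hN : 0 < N) (hl : 0 ≤ lam) (hα : 0 ≤ α) (hJ : 0 ≤ J)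
    (hμ : 0 ≤ μ) (hM0 : 0 ≤ M) (hM : M ≤ α * N) (hM' : α * N - 1 ≤ M)
    (hA : lam * (4 * α ^ 3 * m ^ 2 * J + μ * α ^ 2) ≤ α ^ 2 * m ^ 2 / 2)
    (hsmall : c + |ℓ| + 2 * lam * α * m ^ 2 ≤ lam * (α ^ 2 * m ^ 2) / 4 * N)
    (h : X - M * ℓ ≤ c + lam * (α ^ 2 * m ^ 2) * N +
      (-(2 * lam * α * m ^ 2) * M + lam ^ 2 * (4 * α ^ 2 * m ^ 2 * J) * M) +
        N * μ * (lam / N * M) ^ 2) :
    X / N ≤ α * ℓ - lam * (α ^ 2 * m ^ 2) / 4 := by
  have e4 : N * μ * (lam / N * M) ^ 2 ≤ lam ^ 2 * (μ * α ^ 2) * N := by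
    have e : N * μ * (lam / N * M) ^ 2 = lam ^ 2 * μ * (M ^ 2 / N) := by field_simp
    rw [e]
    have h2 : M ^ 2 / N ≤ α ^ 2 * N := by
      rw [div_le_iff₀ hN]
      linarith [mul_le_mul hM hM hM0 (mul_nonneg hα hN.le)]
    calc lam ^ 2 * μ * (M ^ 2 / N) ≤ lam ^ 2 * μ * (α ^ 2 * N) :=
          mul_le_mul_of_nonneg_left h2 (by positivity)
      _ = _ := by ring
  have e5 : lam ^ 2 * (4 * α ^ 2 * m ^ 2 * J) * M ≤
      lam ^ 2 * (4 * α ^ 2 * m ^ 2 * J) * (α * N) :=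
    mul_le_mul_of_nonneg_left hM (by positivity)
  have e6 : 2 * lam * α * m ^ 2 * (α * N - 1) ≤ 2 * lam * α * m ^ 2 * M :=
    mul_le_mul_of_nonneg_left hM' (by positivity)
  have e7 : |(M - α * N) * ℓ| ≤ |ℓ| := by
    rw [abs_mul]
    exact mul_le_of_le_one_left (abs_nonneg _) (abs_le.2 ⟨by linarith, by linarith⟩)
  have e8 := mul_le_mul_of_nonneg_right (mul_le_mul_of_nonneg_left hA hl) hN.le
  rw [div_le_iff₀ hN]
  linarith [le_abs_self ((M - α * N) * ℓ)]

lemma exists_small {α m A : ℝ} (hα : 0 < α) (hm : m ≠ 0) (hA : 0 ≤ A) :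
    ∃ lam : ℝ, 0 < lam ∧ lam * A ≤ α ^ 2 * m ^ 2 / 2 ∧ 2 * lam * (α * |m|) ≤ 1 ∧
      2 * (lam * α) ≤ 1 / 4 := by
  refine ⟨min (α ^ 2 * m ^ 2 / (2 * (A + 1))) (min (1 / (2 * α * |m| + 1)) (1 / (8 * α + 1))),
    lt_min (by positivity) (lt_min (by positivity) (by positivity)), ?_, ?_, ?_⟩
  · refine (mul_le_mul_of_nonneg_right (min_le_left _ _) hA).trans ?_
    rw [div_mul_eq_mul_div, div_le_iff₀ (by positivity)]
    nlinarith [sq_nonneg (α * m)]
  · set lam := min (α ^ 2 * m ^ 2 / (2 * (A + 1)))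
      (min (1 / (2 * α * |m| + 1)) (1 / (8 * α + 1))) with hlam
    have h : lam ≤ 1 / (2 * α * |m| + 1) := (min_le_right _ _).trans (min_le_left _ _)
    have h0 : 0 ≤ lam := (lt_min (by positivity) (lt_min (by positivity) (by positivity))).le
    rw [le_div_iff₀ (by positivity)] at h
    linarith
  · set lam := min (α ^ 2 * m ^ 2 / (2 * (A + 1)))
      (min (1 / (2 * α * |m| + 1)) (1 / (8 * α + 1))) with hlam
    have h : lam ≤ 1 / (8 * α + 1) := (min_le_right _ _).trans (min_le_right _ _)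
    have h0 : 0 ≤ lam := (lt_min (by positivity) (lt_min (by positivity) (by positivity))).le
    rw [le_div_iff₀ (by positivity)] at h
    linarith

/-- When the first moment does not vanish, the pressure stays below the annealed one. -/
lemma below_annealed (hw : BWeight w B) (hν : GoodSpaces ν)
    (hm : ∫ z, z * w z ∂gaussianReal 0 1 ≠ 0) {α : ℝ} (hα : 0 < α) :
    ∃ δ : ℝ, 0 < δ ∧ ∀ᶠ N in atTop,
      spacePressure w ν α N ≤ α * Real.log (∫ z, w z ∂gaussianReal 0 1) - δ := by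
  obtain ⟨m₀, hm₀⟩ : ∃ x, x = ∫ z, w z ∂gaussianReal 0 1 := ⟨_, rfl⟩
  obtain ⟨m₁, hm₁⟩ : ∃ x, x = ∫ z, z * w z ∂gaussianReal 0 1 := ⟨_, rfl⟩
  obtain ⟨J, hJ'⟩ : ∃ x, x = ∫ z, z ^ 2 * Real.exp |z| * w z ∂gaussianReal 0 1 := ⟨_, rfl⟩
  obtain ⟨μ₄, hμ'⟩ : ∃ x, x = ∫ x, x ^ 4 ∂gaussianReal 0 1 := ⟨_, rfl⟩
  obtain ⟨c, hc⟩ : ∃ x, x = Real.log (1 + ∫ z, Real.exp (z ^ 2 / 4) ∂gaussianReal 0 1) :=
    ⟨_, rfl⟩
  rw [← hm₁] at hm
  rw [← hm₀]
  have hm0 : 0 < m₀ := hm₀ ▸ hw.integral_pos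
  have hm' : m₁ / m₀ ≠ 0 := div_ne_zero hm hm0.ne'
  have hJ : 0 ≤ J := hJ' ▸ integral_nonneg fun z =>
    mul_nonneg (mul_nonneg (sq_nonneg _) (Real.exp_pos _).le) (hw.pos z).le
  have h4 : 0 ≤ μ₄ := hμ' ▸ integral_nonneg fun z => by positivity
  obtain ⟨lam, hl0, hl1, hl2, hl3⟩ := exists_small hα hm'
    (A := 4 * α ^ 3 * (m₁ / m₀) ^ 2 * (J / m₀) + μ₄ * α ^ 2) (by positivity)
  have hδ : 0 < lam * (α ^ 2 * (m₁ / m₀) ^ 2) / 4 := by positivity
  refine ⟨_, hδ, ?_⟩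
  filter_upwards [eventually_gt_atTop 0, (tendsto_const_div_atTop_nhds_zero_nat
    (c + |Real.log m₀| + 2 * lam * α * (m₁ / m₀) ^ 2)).eventually_le_const hδ] with N hN hsmall
  have hN0 : (0 : ℝ) < N := by exact_mod_cast hN
  have := hν.prob N hN
  have hM : (⌊α * N⌋₊ : ℝ) ≤ α * N := Nat.floor_le (by positivity)
  have e0 : lam / N * (α * (m₁ / m₀) * N) = lam * (α * (m₁ / m₀)) := by field_simp
  have h := hw.contLog_le_sumSq (ν N) (hν.unit N hN) ⌊α * N⌋₊ (κ := lam / N)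
    (t := α * (m₁ / m₀) * N) (by positivity) (by
      have := mul_le_mul_of_nonneg_left hM (show 0 ≤ lam / N by positivity)
      rw [show lam / N * (α * N) = lam * α by field_simp] at this
      linarith) (by
      rw [mul_assoc, e0, abs_mul, abs_two, abs_mul, abs_of_pos hl0, abs_mul, abs_of_pos hα]
      linarith)
  rw [Fintype.card_fin, ← hm₀, ← hm₁, ← hJ', ← hμ', ← hc] at h
  have e1 : lam / N * (α * (m₁ / m₀) * N) ^ 2 = lam * (α ^ 2 * (m₁ / m₀) ^ 2) * N := by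
    field_simp
  have e2 : 2 * (lam / N) * (α * (m₁ / m₀) * N) = 2 * lam * (α * (m₁ / m₀)) := by field_simp
  rw [e1, e2] at h
  have e3 : ((⌊α * N⌋₊ : ℝ)) * ((-(2 * lam * (α * (m₁ / m₀))) * m₁ +
      (2 * lam * (α * (m₁ / m₀))) ^ 2 * J) / m₀) =
      -(2 * lam * α * (m₁ / m₀) ^ 2) * ⌊α * N⌋₊ +
        lam ^ 2 * (4 * α ^ 2 * (m₁ / m₀) ^ 2 * (J / m₀)) * ⌊α * N⌋₊ := by
    field_simp
    ring
  rw [e3] at h
  rw [div_le_iff₀ hN0] at hsmall
  exact test_arith hN0 hl0.le hα.le (by positivity) h4 (Nat.cast_nonneg _) hM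
    (Nat.sub_one_lt_floor _).le hl1 hsmall h

/-- The Ising pressure in the notation of the spaces. -/
lemma pressure_eq_space (hw : Measurable w) (hpos : ∀ z, 0 < w z) (α : ℝ) (N : ℕ) :
    pressure (fun z => Real.log (w z)) α N = spacePressure w isingLaw α N := by
  unfold pressure spacePressure contLog gaussM gauss
  congr 1
  refine integral_congr_ae (.of_forall fun G => ?_)
  simp only
  congr 1
  rw [integral_isingLaw (F := phiW w G)
    (Finset.measurable_prod _ fun j _ => hw.comp (by fun_prop))]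
  congr 1
  refine sum_congr rfl fun x _ => ?_
  simp only [phiW, Real.exp_sum, Real.exp_log (hpos _)]
  refine prod_congr rfl fun j _ => congrArg w ?_
  simp only [isingCoef, spin, sum_div, mul_div_assoc]

lemma spherePressure_eq_space (hw : Measurable w) (hpos : ∀ z, 0 < w z) (α : ℝ) {N : ℕ}
    (hN : 0 < N) :
    spherePressure (fun z => Real.log (w z)) α N =
      spacePressure w (fun N => unitUnif (Fin N)) α N :=
  spherePressure_eq hw hpos hN

theorem annealed_dichotomy {f : ℝ → ℝ} (hf : Measurable f) {B : ℝ} (hB : ∀ z, |f z| ≤ B) :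
    let a : ℝ := Real.log (∫ z, Real.exp (f z) ∂gaussianReal 0 1)
    let m : ℝ := ∫ z, z * Real.exp (f z) ∂gaussianReal 0 1
    (m = 0 → ∃ α₀ : ℝ, 0 < α₀ ∧ ∀ α ∈ Set.Ioc 0 α₀,
      Tendsto (pressure f α) atTop (𝓝 (α * a)) ∧
      Tendsto (spherePressure f α) atTop (𝓝 (α * a))) ∧
    (m ≠ 0 → ∀ α : ℝ, 0 < α → ∃ δ : ℝ, 0 < δ ∧
      ∀ᶠ N in atTop, pressure f α N ≤ α * a - δ ∧ spherePressure f α N ≤ α * a - δ) ∧
    (∀ α' α : ℝ, 0 < α' → α' ≤ α →
      (Tendsto (pressure f α) atTop (𝓝 (α * a)) →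
        Tendsto (pressure f α') atTop (𝓝 (α' * a))) ∧
      (Tendsto (spherePressure f α) atTop (𝓝 (α * a)) →
        Tendsto (spherePressure f α') atTop (𝓝 (α' * a)))) := by
  intro a m
  set w := fun z => Real.exp (f z) with hwdef
  have hwm : Measurable w := hf.exp
  have hw : BWeight w B := ⟨hwm, fun z => Real.exp_le_exp.2 (abs_le.1 (hB z)).1,
    fun z => Real.exp_le_exp.2 (abs_le.1 (hB z)).2⟩
  have hpos : ∀ z, 0 < w z := fun z => Real.exp_pos _
  have hfw : f = fun z => Real.log (w z) := funext fun z => (Real.log_exp _).symm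
  have eI : ∀ α, pressure f α = spacePressure w isingLaw α := fun α => by
    funext N
    rw [hfw]
    exact pressure_eq_space hwm hpos α N
  have eS : ∀ α, spherePressure f α =ᶠ[atTop] spacePressure w (fun N => unitUnif (Fin N)) α :=
    fun α => (eventually_gt_atTop 0).mono fun N hN => by
      rw [hfw]
      exact spherePressure_eq_space hwm hpos α hN
  refine ⟨fun h => ?_, fun h α hα => ?_, fun α' α h0 hle => ⟨fun ht => ?_, fun ht => ?_⟩⟩
  · obtain ⟨α₁, h1, H1⟩ := tendsto_annealed hw goodSpaces_ising h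
    obtain ⟨α₂, h2, H2⟩ := tendsto_annealed hw goodSpaces_sphere h
    refine ⟨min α₁ α₂, lt_min h1 h2, fun α hα => ⟨?_, ?_⟩⟩
    · rw [eI]
      exact H1 α ⟨hα.1, hα.2.trans (min_le_left _ _)⟩
    · exact (H2 α ⟨hα.1, hα.2.trans (min_le_right _ _)⟩).congr' (eS α).symm
  · obtain ⟨δ₁, h1, H1⟩ := below_annealed hw goodSpaces_ising h hα
    obtain ⟨δ₂, h2, H2⟩ := below_annealed hw goodSpaces_sphere h hα
    refine ⟨min δ₁ δ₂, lt_min h1 h2, ?_⟩
    filter_upwards [H1, H2, eS α] with N e1 e2 e3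
    rw [e3, eI]
    have := min_le_left δ₁ δ₂
    have := min_le_right δ₁ δ₂
    change _ ≤ α * a - _ at e1 e2
    constructor <;> linarith
  · rw [eI] at ht ⊢
    exact tendsto_annealed_mono hw goodSpaces_ising h0.le hle ht
  · exact (tendsto_annealed_mono hw goodSpaces_sphere h0.le hle
      (ht.congr' (eS α))).congr' (eS α').symm

end Vale.Agent.P157
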