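import Mathlib

/-!
A sequence which is superadditive up to an error of order square root has a limit after division
by its index.
-/

namespace Vale.Agent.P157

open Filter Topology

lemma sqrt_split {q p : ℕ} (h1 : 1 ≤ p) (h2 : p ≤ q) (h3 : q ≤ p + 1) :
    4 * Real.sqrt ((p + q : ℕ) : ℝ) ≤ 3 * (Real.sqrt p + Real.sqrt q) := by
  set x := Real.sqrt (p : ℝ)
  set y := Real.sqrt (q : ℝ)
  have hx : x * x = p := Real.mul_self_sqrt (Nat.cast_nonneg _)
  have hy : y * y = q := Real.mul_self_sqrt (Nat.cast_nonneg _)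
  have hx0 : 0 ≤ x := Real.sqrt_nonneg _
  have hxy : x ≤ y := Real.sqrt_le_sqrt (by exact_mod_cast h2)
  have hp : (1 : ℝ) ≤ p := by exact_mod_cast h1
  have hq : (q : ℝ) ≤ p + 1 := by exact_mod_cast h3
  push_cast
  have hs : Real.sqrt ((p : ℝ) + q) ≤ 3 / 4 * (x + y) := by
    rw [Real.sqrt_le_left (by positivity)]
    nlinarith [mul_le_mul_of_nonneg_left hxy hx0]
  linarith

lemma le_mul_block (a : ℕ → ℝ) {C : ℝ} (hC : 0 ≤ C)
    (h : ∀ m n, 1 ≤ m → 1 ≤ n → a m + a n - C * Real.sqrt ((m + n : ℕ) : ℝ) ≤ a (m + n))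
    {m : ℕ} (hm : 1 ≤ m) (q : ℕ) (hq : 1 ≤ q) :
    (q : ℝ) * a m - 3 * C * Real.sqrt m * (q - Real.sqrt q) ≤ a (q * m) := by
  induction q using Nat.strong_induction_on with
  | _ q ih =>
    rcases eq_or_lt_of_le hq with rfl | hq2
    · simp
    · obtain ⟨p, r, hpr, hp, hpq, hrp⟩ : ∃ p r, q = p + r ∧ 1 ≤ p ∧ p ≤ r ∧ r ≤ p + 1 :=
        ⟨q / 2, q - q / 2, by omega, by omega, by omega, by omega⟩
      have i1 := ih p (by omega) hp
      have i2 := ih r (by omega) (by omega)
      have hh := h (p * m) (r * m) (Nat.mul_pos hp hm) (Nat.mul_pos (by omega) hm)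
      rw [← add_mul, ← hpr] at hh
      have hs : Real.sqrt ((q * m : ℕ) : ℝ) = Real.sqrt q * Real.sqrt m := by
        push_cast
        exact Real.sqrt_mul (Nat.cast_nonneg _) _
      rw [hs] at hh
      have hk := sqrt_split hp hpq hrp
      rw [← hpr] at hk
      have hq' : (q : ℝ) = p + r := by exact_mod_cast hpr
      have := mul_le_mul_of_nonneg_left hk (mul_nonneg hC (Real.sqrt_nonneg (m : ℝ)))
      rw [hq'] at hh this ⊢
      linarith

theorem tendsto_div_of_approx_superadd (a : ℕ → ℝ) {B C : ℝ} (hC : 0 ≤ C)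
    (hB : ∀ n, |a n| ≤ B * n)
    (h : ∀ m n, 1 ≤ m → 1 ≤ n → a m + a n - C * Real.sqrt ((m + n : ℕ) : ℝ) ≤ a (m + n)) :
    ∃ L, Tendsto (fun n => a n / n) atTop (𝓝 L) := by
  let c : ℕ → ℝ := fun m => a (m + 1) / (m + 1 : ℕ) - 3 * C / Real.sqrt (m + 1 : ℕ)
  have hB0 : 0 ≤ B := by have := (abs_nonneg _).trans (hB 1); simpa using this
  have hbdd : BddAbove (Set.range c) := by
    refine ⟨B, ?_⟩
    rintro _ ⟨m, rfl⟩
    have h1 : a (m + 1) / (m + 1 : ℕ) ≤ B := by
      rw [div_le_iff₀ (by positivity)]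
      exact (le_abs_self _).trans (hB _)
    have h2 : 0 ≤ 3 * C / Real.sqrt (m + 1 : ℕ) := by positivity
    simp only [c]
    linarith
  refine ⟨⨆ m, c m, ?_⟩
  rw [Metric.tendsto_atTop]
  intro ε hε
  obtain ⟨m, hm⟩ := exists_lt_of_lt_ciSup (show (⨆ m, c m) - ε / 2 < ⨆ m, c m by linarith)
  have hz : Tendsto (fun n : ℕ => (|c m| + B) * (m + 1 : ℕ) / (n : ℝ) + 4 * C / Real.sqrt n) atTop
      (𝓝 0) := by
    have h1 := tendsto_const_div_atTop_nhds_zero_nat ((|c m| + B) * (m + 1 : ℕ))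
    have h2 : Tendsto (fun n : ℕ => 4 * C / Real.sqrt n) atTop (𝓝 0) :=
      (Real.tendsto_sqrt_atTop.comp tendsto_natCast_atTop_atTop).const_div_atTop _
    simpa using h1.add h2
  obtain ⟨n0, hn0⟩ := Metric.tendsto_atTop.1 hz (ε / 2) (by linarith)
  refine ⟨max n0 (m + 1), fun n hn => ?_⟩
  have hnm : m + 1 ≤ n := le_of_max_le_right hn
  have hsmall := hn0 n (le_of_max_le_left hn)
  rw [Real.dist_eq, sub_zero] at hsmall
  have hsmall' := (abs_lt.1 hsmall).2
  have hnpos : (0 : ℝ) < n := by exact_mod_cast (by omega : 0 < n)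
  have hup : a n / n ≤ (⨆ m, c m) + 4 * C / Real.sqrt n := by
    have := le_ciSup hbdd (n - 1)
    simp only [c, Nat.sub_add_cancel (show 1 ≤ n by omega)] at this
    have h3 : 3 * C / Real.sqrt n ≤ 4 * C / Real.sqrt n := by gcongr; norm_num
    linarith
  have h0 : 0 ≤ (|c m| + B) * (m + 1 : ℕ) / (n : ℝ) := by positivity
  have h0' : 0 ≤ 4 * C / Real.sqrt n := by positivity
  have hlow : c m - ((|c m| + B) * (m + 1 : ℕ) / (n : ℝ) + 4 * C / Real.sqrt n) ≤ a n / n := by
    obtain ⟨k, hk⟩ : ∃ k, k = m + 1 := ⟨_, rfl⟩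
    have hck : c m = a k / (k : ℝ) - 3 * C / Real.sqrt k := by rw [hk]
    rw [← hk]
    have hk0 : (0 : ℝ) < k := by exact_mod_cast (by omega : 0 < k)
    set q := n / k
    set r := n % k
    have hn_eq : q * k + r = n := by rw [mul_comm]; exact Nat.div_add_mod n k
    have hrk : r < k := Nat.mod_lt _ (by omega)
    have hq1 : 1 ≤ q := (Nat.one_le_div_iff (by omega)).2 (by omega)
    have hblock := le_mul_block a hC h (show 1 ≤ k by omega) q hq1
    have hqk : (q : ℝ) * (a k) - 3 * C * Real.sqrt k * q ≤ a (q * k) := by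
      have : 0 ≤ 3 * C * Real.sqrt k * Real.sqrt q := by positivity
      nlinarith
    have hsk : Real.sqrt k * Real.sqrt k = k := Real.mul_self_sqrt hk0.le
    have hval : (q : ℝ) * a k - 3 * C * Real.sqrt k * q = (q * k) * c m := by
      rw [hck]
      field_simp
      nlinarith [hsk]
    have hN : a (q * k) - B * k - C * Real.sqrt n ≤ a n := by
      rcases Nat.eq_zero_or_pos r with hr | hr
      · rw [hr, add_zero] at hn_eq
        rw [hn_eq]
        have : 0 ≤ B * (k : ℝ) := by positivity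
        have : 0 ≤ C * Real.sqrt n := by positivity
        linarith
      · have hh := h (q * k) r (Nat.one_le_iff_ne_zero.2 (by
          have : 0 < q * k := Nat.mul_pos hq1 (by omega)
          omega)) hr
        rw [hn_eq] at hh
        have := (abs_le.1 (hB r)).1
        have : B * (r : ℝ) ≤ B * k := by gcongr
        linarith
    have hr' : ((q : ℝ) * k) = n - r := by
      rw [eq_sub_iff_add_eq]
      exact_mod_cast hn_eq
    have hrc : (r : ℝ) * c m ≤ |c m| * k := by
      calc (r : ℝ) * c m ≤ r * |c m| := by gcongr; exact le_abs_self _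
        _ ≤ k * |c m| := by gcongr
        _ = _ := mul_comm _ _
    have hsn : Real.sqrt n * Real.sqrt n = n := Real.mul_self_sqrt hnpos.le
    have hsn0 : 0 < Real.sqrt (n : ℝ) := Real.sqrt_pos.2 hnpos
    rw [le_div_iff₀ hnpos]
    have e1 : 4 * C / Real.sqrt n * n = 4 * C * Real.sqrt n := by
      field_simp
      nlinarith [hsn]
    have e2 : (|c m| + B) * (k : ℕ) / (n : ℝ) * n = (|c m| + B) * k := by field_simp
    have e3 : 0 ≤ C * Real.sqrt n := by positivity
    rw [sub_mul, add_mul, e1, e2]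
    rw [hr'] at hval
    nlinarith
  rw [Real.dist_eq, abs_lt]
  constructor <;> linarith

end Vale.Agent.P157
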