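import Vale.Agent.P157.Moments

/-!
The averaged log-partition function of a list of patterns, and interpolation between a system and
two blocks of its coordinates.
-/

namespace Vale.Agent.P157

open MeasureTheory ProbabilityTheory Finset Real

variable {ι X : Type} [Fintype ι] [Fintype X]

/-- The averaged logarithm of the partition function of a list of patterns. -/
noncomputable def logPart (u : ℝ → ℝ) : List (X → ι → ℝ) → (X → ℝ) → ℝ
  | [], W => Real.log (∑ x, W x)
  | a :: l, W => ∫ g, logPart u l (fun x => W x * u (field a g x)) ∂gauss ι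

/-- A bounded continuous weight function. -/
structure Weight (u : ℝ → ℝ) (L : ℝ) : Prop where
  pos : ∀ z, 0 < u z
  log_le : ∀ z, |Real.log (u z)| ≤ L
  cont : Continuous u

variable {u : ℝ → ℝ} {L : ℝ}

lemma Weight.nonneg (hu : Weight u L) : 0 ≤ L := (abs_nonneg _).trans (hu.log_le 0)

lemma Weight.le_exp (hu : Weight u L) (z : ℝ) : Real.exp (-L) ≤ u z ∧ u z ≤ Real.exp L := by
  have := abs_le.1 (hu.log_le z)
  rw [← Real.exp_log (hu.pos z)]
  exact ⟨Real.exp_le_exp.2 this.1, Real.exp_le_exp.2 this.2⟩

lemma abs_log_step (hu : Weight u L) {W : X → ℝ} (hW : ∀ x, 0 ≤ W x) (hS : 0 < ∑ x, W x)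
    (f : X → ℝ) :
    0 < ∑ x, W x * u (f x) ∧
      |Real.log (∑ x, W x * u (f x)) - Real.log (∑ x, W x)| ≤ L := by
  have h1 : Real.exp (-L) * ∑ x, W x ≤ ∑ x, W x * u (f x) := by
    rw [mul_sum]
    exact sum_le_sum fun x _ => by nlinarith [(hu.le_exp (f x)).1, hW x]
  have h2 : ∑ x, W x * u (f x) ≤ Real.exp L * ∑ x, W x := by
    rw [mul_sum]
    exact sum_le_sum fun x _ => by nlinarith [(hu.le_exp (f x)).2, hW x]
  have hp : 0 < ∑ x, W x * u (f x) := lt_of_lt_of_le (mul_pos (Real.exp_pos _) hS) h1
  refine ⟨hp, abs_le.2 ⟨?_, ?_⟩⟩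
  · have := Real.log_le_log (mul_pos (Real.exp_pos _) hS) h1
    rw [Real.log_mul (Real.exp_ne_zero _) hS.ne', Real.log_exp] at this
    linarith
  · have := Real.log_le_log hp h2
    rw [Real.log_mul (Real.exp_ne_zero _) hS.ne', Real.log_exp] at this
    linarith

lemma measurable_logPart (hu : Weight u L) (l : List (X → ι → ℝ)) :
    Measurable (logPart u l) := by
  induction l with
  | nil => exact Real.measurable_log.comp (Finset.measurable_sum _ fun x _ => measurable_pi_apply x)
  | cons a l ih =>
    have hm : Measurable (fun p : (X → ℝ) × (ι → ℝ) =>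
        logPart u l (fun x => p.1 x * u (field a p.2 x))) := by
      refine ih.comp (measurable_pi_lambda _ fun x => ?_)
      exact ((measurable_pi_apply x).comp measurable_fst).mul
        ((hu.cont.comp (continuous_field a x)).measurable.comp measurable_snd)
    exact (hm.stronglyMeasurable.integral_prod_right').measurable

lemma integrable_step (hu : Weight u L) (l : List (X → ι → ℝ)) (a : X → ι → ℝ) (W : X → ℝ)
    (C : ℝ) (hC : ∀ g, |logPart u l (fun x => W x * u (field a g x))| ≤ C) :
    Integrable (fun g => logPart u l (fun x => W x * u (field a g x))) (gauss ι) :=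
  Integrable.of_bound ((measurable_logPart hu l).comp (measurable_pi_lambda _ fun x =>
    measurable_const.mul ((hu.cont.comp (continuous_field a x)).measurable))).aestronglyMeasurable C
    (.of_forall fun g => by rw [Real.norm_eq_abs]; exact hC g)

lemma abs_logPart_sub (hu : Weight u L) (l : List (X → ι → ℝ)) :
    ∀ {W : X → ℝ}, (∀ x, 0 ≤ W x) → 0 < ∑ x, W x →
      |logPart u l W - Real.log (∑ x, W x)| ≤ L * l.length := by
  induction l with
  | nil => intro W _ _; simp [logPart]
  | cons a l ih =>
    intro W hW hS
    have hb : ∀ g, |logPart u l (fun x => W x * u (field a g x)) - Real.log (∑ x, W x)| ≤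
        L * (a :: l).length := by
      intro g
      obtain ⟨hp, hd⟩ := abs_log_step hu hW hS (fun x => field a g x)
      have := ih (W := fun x => W x * u (field a g x))
        (fun x => mul_nonneg (hW x) (hu.pos _).le) hp
      refine (abs_sub_le _ (Real.log (∑ x, W x * u (field a g x))) _).trans ?_
      push_cast [List.length_cons]
      linarith
    have hi := integrable_step hu l a W (L * (a :: l).length + |Real.log (∑ x, W x)|) fun g => by
      have := hb g
      have := abs_sub_abs_le_abs_sub (logPart u l fun x => W x * u (field a g x))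
        (Real.log (∑ x, W x))
      linarith
    have := norm_integral_le_of_norm_le_const (μ := gauss ι)
      (f := fun g => logPart u l (fun x => W x * u (field a g x)) - Real.log (∑ x, W x))
      (.of_forall fun g => (Real.norm_eq_abs _).trans_le (hb g))
    rw [integral_sub hi (integrable_const _)] at this
    simpa [logPart] using this

lemma integrable_cons (hu : Weight u L) (l : List (X → ι → ℝ)) (a : X → ι → ℝ) {W : X → ℝ}
    (hW : ∀ x, 0 ≤ W x) (hS : 0 < ∑ x, W x) :
    Integrable (fun g => logPart u l (fun x => W x * u (field a g x))) (gauss ι) := by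
  refine integrable_step hu l a W (L * l.length + L + |Real.log (∑ x, W x)|) fun g => ?_
  obtain ⟨hp, hd⟩ := abs_log_step hu hW hS (fun x => field a g x)
  have h1 := abs_le.1 (abs_logPart_sub hu l (W := fun x => W x * u (field a g x))
    (fun x => mul_nonneg (hW x) (hu.pos _).le) hp)
  have h2 := abs_le.1 hd
  have := le_abs_self (Real.log (∑ x, W x))
  have := neg_abs_le (Real.log (∑ x, W x))
  rw [abs_le]
  constructor <;> linarith

lemma logPart_perm (hu : Weight u L) {l l' : List (X → ι → ℝ)} (h : l.Perm l') :
    ∀ {W : X → ℝ}, (∀ x, 0 ≤ W x) → 0 < ∑ x, W x → logPart u l W = logPart u l' W := by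
  induction h with
  | nil => intros; rfl
  | cons a _ ih =>
    intro W hW hS
    exact integral_congr_ae (.of_forall fun g => ih (fun x => mul_nonneg (hW x) (hu.pos _).le)
      (abs_log_step hu hW hS (fun x => field a g x)).1)
  | trans _ _ ih₁ ih₂ =>
    intro W hW hS
    exact (ih₁ hW hS).trans (ih₂ hW hS)
  | swap a b l =>
    intro W hW hS
    simp only [logPart]
    rw [integral_integral_swap]
    · refine integral_congr_ae (.of_forall fun g => integral_congr_ae (.of_forall fun g' => ?_))
      exact congrArg _ (funext fun x => by ring)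
    · refine Integrable.of_bound ?_ (L * l.length + 2 * L + |Real.log (∑ x, W x)|)
        (.of_forall fun p => ?_)
      · refine ((measurable_logPart hu l).comp (measurable_pi_lambda _ fun x => ?_)).aestronglyMeasurable
        exact (measurable_const.mul ((hu.cont.comp (continuous_field b x)).measurable.comp
          measurable_fst)).mul ((hu.cont.comp (continuous_field a x)).measurable.comp measurable_snd)
      · obtain ⟨hp, hd⟩ := abs_log_step hu hW hS (fun x => field b p.1 x)
        obtain ⟨hp', hd'⟩ := abs_log_step hu (W := fun x => W x * u (field b p.1 x))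
          (fun x => mul_nonneg (hW x) (hu.pos _).le) hp (fun x => field a p.2 x)
        have h0 := abs_le.1 (abs_logPart_sub hu l
          (W := fun x => W x * u (field b p.1 x) * u (field a p.2 x))
          (fun x => mul_nonneg (mul_nonneg (hW x) (hu.pos _).le) (hu.pos _).le) hp')
        have h2 := abs_le.1 hd
        have h3 := abs_le.1 hd'
        have := le_abs_self (Real.log (∑ x, W x))
        have := neg_abs_le (Real.log (∑ x, W x))
        rw [Real.norm_eq_abs, abs_le]
        simp only [Function.uncurry_def]
        constructor <;> linarith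

lemma logPart_swap_last (hu : Weight u L) {lam μ : ℝ} (a a₁ a₂ : X → ι → ℝ)
    (hjen : ∀ W : X → ℝ, (∀ x, 0 ≤ W x) → 0 < ∑ x, W x →
      lam * logPart u [a₁] W + μ * logPart u [a₂] W ≤ logPart u [a] W)
    (l : List (X → ι → ℝ)) :
    ∀ {W : X → ℝ}, (∀ x, 0 ≤ W x) → 0 < ∑ x, W x →
      lam * logPart u (l ++ [a₁]) W + μ * logPart u (l ++ [a₂]) W ≤ logPart u (l ++ [a]) W := by
  induction l with
  | nil => exact fun {W} hW hS => hjen W hW hS
  | cons b l ih =>
    intro W hW hS
    simp only [List.cons_append, logPart]
    have i1 := integrable_cons hu (l ++ [a₁]) b hW hS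
    have i2 := integrable_cons hu (l ++ [a₂]) b hW hS
    rw [← integral_const_mul, ← integral_const_mul, ← integral_add (i1.const_mul _) (i2.const_mul _)]
    exact integral_mono ((i1.const_mul _).add (i2.const_mul _)) (integrable_cons hu (l ++ [a]) b hW hS)
      fun g => ih (fun x => mul_nonneg (hW x) (hu.pos _).le)
        (abs_log_step hu hW hS (fun x => field b g x)).1

lemma logPart_swap_head (hu : Weight u L) {lam μ : ℝ} (a a₁ a₂ : X → ι → ℝ)
    (hjen : ∀ W : X → ℝ, (∀ x, 0 ≤ W x) → 0 < ∑ x, W x →
      lam * logPart u [a₁] W + μ * logPart u [a₂] W ≤ logPart u [a] W)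
    (l : List (X → ι → ℝ)) {W : X → ℝ} (hW : ∀ x, 0 ≤ W x) (hS : 0 < ∑ x, W x) :
    lam * logPart u (a₁ :: l) W + μ * logPart u (a₂ :: l) W ≤ logPart u (a :: l) W := by
  have e : ∀ b, logPart u (b :: l) W = logPart u (l ++ [b]) W := fun b =>
    logPart_perm hu (List.perm_append_singleton b l).symm hW hS
  rw [e, e, e]
  exact logPart_swap_last hu a a₁ a₂ hjen l hW hS

/-- Transport of a list of patterns. -/
lemma logPart_map {ι' X' : Type} [Fintype ι'] [Fintype X'] (T : (ι → ℝ) → (ι' → ℝ))
    (hT : MeasurePreserving T (gauss ι) (gauss ι')) (e : X ≃ X') (F : (X' → ι' → ℝ) → (X → ι → ℝ))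
    (hF : ∀ a g x, field (F a) g x = field a (T g) (e x))
    (hu : Weight u L) (l : List (X' → ι' → ℝ)) :
    ∀ {W : X' → ℝ}, (∀ x, 0 ≤ W x) → 0 < ∑ x, W x →
      logPart u (l.map F) (W ∘ e) = logPart u l W := by
  induction l with
  | nil =>
    intro W _ _
    simp only [List.map_nil, logPart, Function.comp_apply]
    rw [e.sum_comp W]
  | cons a l ih =>
    intro W hW hS
    simp only [List.map_cons, logPart]
    have hm : AEStronglyMeasurable (fun g' => logPart u l (fun x => W x * u (field a g' x)))
        (Measure.map T (gauss ι)) := by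
      rw [hT.map_eq]
      exact (integrable_cons hu l a hW hS).aestronglyMeasurable
    rw [← hT.map_eq, integral_map hT.measurable.aemeasurable hm]
    refine integral_congr_ae (.of_forall fun g => ?_)
    simp only [← ih (W := fun x => W x * u (field a (T g) x))
      (fun x => mul_nonneg (hW x) (hu.pos _).le)
      (abs_log_step hu hW hS (fun x => field a (T g) x)).1]
    exact congrArg _ (funext fun x => by simp [hF])

end Vale.Agent.P157
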