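import Vale.Agent.P157.Blocks
import Vale.Agent.P157.Fekete

/-!
The Ising perceptron: approximate superadditivity and existence of the limit of the pressure.
-/

namespace Vale.Agent.P157

open MeasureTheory ProbabilityTheory Finset Real Filter Topology

/-- The spin of a Boolean. -/
def spin (b : Bool) : ℝ := if b then 1 else -1

/-- The pattern coefficients of the Ising system. -/
noncomputable def isingCoef (N : ℕ) (x : Fin N → Bool) (i : Fin N) : ℝ := spin (x i) / Real.sqrt N

/-- The uniform weights. -/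
noncomputable def unifW (N : ℕ) : (Fin N → Bool) → ℝ := fun _ => ((2 : ℝ) ^ N)⁻¹

lemma sum_unifW (N : ℕ) : ∑ x, unifW N x = 1 := by
  simp [unifW, Finset.card_univ]

/-- The averaged log-partition function of the Ising system. -/
noncomputable def isingLog (u : ℝ → ℝ) (N M : ℕ) : ℝ :=
  logPart u (List.replicate M (isingCoef N)) (unifW N)

/-- The Ising system on `A + B` sites as a system on two blocks. -/
noncomputable def sumCoef (A B : ℕ) (x : (Fin A → Bool) × (Fin B → Bool)) : Fin A ⊕ Fin B → ℝ :=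
  Sum.elim (fun i => spin (x.1 i) / Real.sqrt (A + B : ℕ))
    (fun i => spin (x.2 i) / Real.sqrt (A + B : ℕ))

variable {ρ : Measure ℝ} [IsFiniteMeasure ρ] {c : ℝ}

lemma weight_cosTransform (hc : ρ.real Set.univ < c) :
    Weight (fun z => c - cosTransform ρ z)
      (|Real.log (c - ρ.real Set.univ)| + |Real.log (c + ρ.real Set.univ)|) := by
  have hb : ∀ z, c - ρ.real Set.univ ≤ c - cosTransform ρ z ∧
      c - cosTransform ρ z ≤ c + ρ.real Set.univ := by
    intro z
    have := abs_le.1 (abs_cosTransform_le (ρ := ρ) z)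
    constructor <;> linarith
  refine ⟨fun z => lt_of_lt_of_le (by linarith) (hb z).1, fun z => ?_,
    continuous_const.sub continuous_cosTransform⟩
  have h1 := Real.log_le_log (by linarith) (hb z).1
  have h2 := Real.log_le_log (lt_of_lt_of_le (by linarith) (hb z).1) (hb z).2
  have := neg_abs_le (Real.log (c - ρ.real Set.univ))
  have := le_abs_self (Real.log (c + ρ.real Set.univ))
  have := abs_nonneg (Real.log (c - ρ.real Set.univ))
  have := abs_nonneg (Real.log (c + ρ.real Set.univ))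
  rw [abs_le]
  constructor <;> linarith

lemma isingLog_sum {u : ℝ → ℝ} {L : ℝ} (hu : Weight u L) (A B M : ℕ) :
    isingLog u (A + B) M = logPart u (List.replicate M (sumCoef A B))
      (fun x => unifW A x.1 * unifW B x.2) := by
  let e : ((Fin A → Bool) × (Fin B → Bool)) ≃ (Fin (A + B) → Bool) :=
    (Equiv.sumArrowEquivProdArrow _ _ _).symm.trans
      (Equiv.arrowCongr finSumFinEquiv (Equiv.refl Bool))
  have hT : MeasurePreserving (MeasurableEquiv.piCongrLeft (fun _ : Fin (A + B) => ℝ) finSumFinEquiv)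
      (gauss (Fin A ⊕ Fin B)) (gauss (Fin (A + B))) :=
    measurePreserving_piCongrLeft (fun _ : Fin (A + B) => gaussianReal 0 1) finSumFinEquiv
  let F : ((Fin (A + B) → Bool) → Fin (A + B) → ℝ) →
      ((Fin A → Bool) × (Fin B → Bool)) → Fin A ⊕ Fin B → ℝ :=
    fun a x i => a (e x) (finSumFinEquiv i)
  have hF : ∀ a g x, field (F a) g x =
      field a (MeasurableEquiv.piCongrLeft (fun _ : Fin (A + B) => ℝ) finSumFinEquiv g) (e x) := by
    intro a g x
    simp only [field, F]
    refine Fintype.sum_equiv finSumFinEquiv _ _ fun i => ?_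
    rw [MeasurableEquiv.piCongrLeft_apply_apply]
  have hcoef : F (isingCoef (A + B)) = sumCoef A B := by
    funext x i
    cases i <;>
      simp [F, e, isingCoef, sumCoef, Equiv.arrowCongr, Equiv.sumArrowEquivProdArrow,
        finSumFinEquiv_symm_apply_castAdd, finSumFinEquiv_symm_apply_natAdd]
  have h := logPart_map _ hT e F hF hu (List.replicate M (isingCoef (A + B))) (W := unifW (A + B))
    (fun x => by unfold unifW; positivity) (by rw [sum_unifW]; norm_num)
  rw [List.map_replicate, hcoef] at h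
  unfold isingLog
  rw [← h]
  refine congrArg _ (funext fun x => ?_)
  simp only [Function.comp_apply, unifW, pow_add]
  rw [mul_inv]

lemma split_phaseVar {A B : ℕ} (hA : 1 ≤ A) (hB : 1 ≤ B) (k : ℕ)
    (σ : Fin k → (Fin A → Bool) × (Fin B → Bool)) (s : Fin k → ℝ) :
    phaseVar (sumCoef A B) σ s =
      (A : ℝ) / (A + B : ℕ) * phaseVar (blockCoef (isingCoef A) (isingCoef B) true) σ s +
      (B : ℝ) / (A + B : ℕ) * phaseVar (blockCoef (isingCoef A) (isingCoef B) false) σ s := by
  have hA0 : (0 : ℝ) < A := by exact_mod_cast hA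
  have hB0 : (0 : ℝ) < B := by exact_mod_cast hB
  have hN0 : (0 : ℝ) < (A + B : ℕ) := by push_cast; linarith
  have hs : ∀ (n : ℝ) (v : Fin k → ℝ), 0 < n →
      (∑ l, s l * (v l / Real.sqrt n)) ^ 2 = (∑ l, s l * v l) ^ 2 / n := by
    intro n v hn
    simp only [← mul_div_assoc, ← sum_div, div_pow]
    rw [Real.sq_sqrt hn.le]
  simp only [phaseVar, sumCoef, blockCoef, isingCoef, Fintype.sum_sum_type, Sum.elim_inl,
    Sum.elim_inr, mul_zero, sum_const_zero, ne_eq, OfNat.ofNat_ne_zero, not_false_eq_true,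
    zero_pow, add_zero, zero_add, hs _ _ hA0, hs _ _ hB0, hs _ _ hN0, mul_sum]
  congr 1 <;> refine sum_congr rfl fun i _ => ?_ <;> field_simp

lemma isingLog_superadd (hc : ρ.real Set.univ < c) {α : ℝ} (hα : 0 ≤ α) {A B : ℕ} (hA : 1 ≤ A)
    (hB : 1 ≤ B) :
    isingLog (fun z => c - cosTransform ρ z) A ⌊α * A⌋₊ +
      isingLog (fun z => c - cosTransform ρ z) B ⌊α * B⌋₊ -
      (|Real.log (c - ρ.real Set.univ)| + |Real.log (c + ρ.real Set.univ)|) * (5 + α) *
        Real.sqrt ((A + B : ℕ) : ℝ) ≤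
      isingLog (fun z => c - cosTransform ρ z) (A + B) ⌊α * (A + B : ℕ)⌋₊ := by
  have hu := weight_cosTransform hc
  set L := |Real.log (c - ρ.real Set.univ)| + |Real.log (c + ρ.real Set.univ)| with hLdef
  have hL : 0 ≤ L := hu.nonneg
  have hA0 : (0 : ℝ) < A := by exact_mod_cast hA
  have hB0 : (0 : ℝ) < B := by exact_mod_cast hB
  have hN1 : (1 : ℝ) ≤ (A + B : ℕ) := by exact_mod_cast (by omega : 1 ≤ A + B)
  have hN0 : (0 : ℝ) < (A + B : ℕ) := by linarith
  set N : ℝ := ((A + B : ℕ) : ℝ) with hNdef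
  set lam : ℝ := (A : ℝ) / N with hlam
  set μ : ℝ := (B : ℝ) / N with hμ
  have hlm : lam + μ = 1 := by
    rw [hlam, hμ, ← add_div, div_eq_one_iff_eq hN0.ne', hNdef]
    push_cast; ring
  have hl0 : 0 ≤ lam := by positivity
  have hm0 : 0 ≤ μ := by positivity
  have hjen : ∀ W : (Fin A → Bool) × (Fin B → Bool) → ℝ, (∀ x, 0 ≤ W x) → 0 < ∑ x, W x →
      lam * logPart (fun z => c - cosTransform ρ z)
          [blockCoef (isingCoef A) (isingCoef B) true] W +
        μ * logPart (fun z => c - cosTransform ρ z)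
          [blockCoef (isingCoef A) (isingCoef B) false] W ≤
        logPart (fun z => c - cosTransform ρ z) [sumCoef A B] W := fun W hW hS => by
    simp only [logPart]
    exact integral_log_le hc hl0 hm0 hlm _ _ _ (fun k σ s => split_phaseVar hA hB k σ s) W hW hS
  have hs : 0 < Real.sqrt N := Real.sqrt_pos.2 hN0
  have h := interpolate hu hl0 hm0 hlm (isingCoef A) (isingCoef B) (sumCoef A B) hjen
    (W₁ := unifW A) (W₂ := unifW B) (fun x => by unfold unifW; positivity)
    (by rw [sum_unifW]; norm_num) (fun x => by unfold unifW; positivity)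
    (by rw [sum_unifW]; norm_num) ⌊α * A⌋₊ ⌊α * B⌋₊ hs ⌊α * N⌋₊ []
  rw [List.map_nil, List.append_nil, List.count_nil, List.count_nil] at h
  rw [isingLog_sum hu]
  refine le_trans ?_ h
  have b1 := Nat.floor_le (mul_nonneg hα hN0.le)
  have b2 := Nat.lt_floor_add_one (α * N)
  have a1 := Nat.floor_le (mul_nonneg hα hA0.le)
  have a2 := Nat.lt_floor_add_one (α * (A : ℝ))
  have c1 := Nat.floor_le (mul_nonneg hα hB0.le)
  have c2 := Nat.lt_floor_add_one (α * (B : ℝ))
  set n : ℝ := (⌊α * N⌋₊ : ℝ) with hn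
  have hlN : lam * N = A := by rw [hlam]; field_simp
  have hmN : μ * N = B := by rw [hμ]; field_simp
  have hl1 : lam ≤ 1 := by linarith
  have hm1 : μ ≤ 1 := by linarith
  have d1 : |((0 : ℕ) : ℝ) + n * lam - ⌊α * (A : ℝ)⌋₊| ≤ 2 := by
    have h1 : n * lam ≤ α * N * lam := by gcongr
    have h2 : (α * N - 1) * lam ≤ n * lam := by gcongr; linarith
    have h3 : α * N * lam = α * A := by rw [mul_assoc, mul_comm N, hlN]
    have h4 : (α * N - 1) * lam = α * N * lam - lam := by ring
    rw [abs_le]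
    push_cast
    constructor <;> linarith
  have d2 : |((0 : ℕ) : ℝ) + n * μ - ⌊α * (B : ℝ)⌋₊| ≤ 2 := by
    have h1 : n * μ ≤ α * N * μ := by gcongr
    have h2 : (α * N - 1) * μ ≤ n * μ := by gcongr; linarith
    have h3 : α * N * μ = α * B := by rw [mul_assoc, mul_comm N, hmN]
    have h4 : (α * N - 1) * μ = α * N * μ - μ := by ring
    rw [abs_le]
    push_cast
    constructor <;> linarith
  have s1 := sq_le_sq' (abs_le.1 d1).1 (abs_le.1 d1).2
  have s2 := sq_le_sq' (abs_le.1 d2).1 (abs_le.1 d2).2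
  have hnl : 2 * n * lam * μ ≤ 2 * α * N := by
    have hn0 : 0 ≤ n := Nat.cast_nonneg _
    calc 2 * n * lam * μ ≤ 2 * n * 1 * 1 := by gcongr
      _ ≤ 2 * α * N := by linarith
  have hsq : Real.sqrt N * Real.sqrt N = N := Real.mul_self_sqrt hN0.le
  have hs1 : 1 ≤ Real.sqrt N := Real.one_le_sqrt.2 hN1
  have hE : L * ((((0 : ℕ) : ℝ) + n * lam - ⌊α * (A : ℝ)⌋₊) ^ 2 +
      (((0 : ℕ) : ℝ) + n * μ - ⌊α * (B : ℝ)⌋₊) ^ 2 + 2 * n * lam * μ) / (2 * Real.sqrt N) ≤
      L * (4 + α) * Real.sqrt N := by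
    rw [div_le_iff₀ (by positivity)]
    calc L * _ ≤ L * (2 ^ 2 + 2 ^ 2 + 2 * α * N) :=
          mul_le_mul_of_nonneg_left (add_le_add (add_le_add s1 s2) hnl) hL
      _ ≤ L * ((4 + α) * (2 * N)) := by
          refine mul_le_mul_of_nonneg_left ?_ hL
          linarith
      _ = L * (4 + α) * (2 * (Real.sqrt N * Real.sqrt N)) := by rw [hsq]; ring
      _ = L * (4 + α) * Real.sqrt N * (2 * Real.sqrt N) := by ring
  have hsplit : L * (5 + α) * Real.sqrt N = L * (4 + α) * Real.sqrt N + L * Real.sqrt N := by ring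
  unfold isingLog
  linarith

lemma exists_limit_isingLog (hc : ρ.real Set.univ < c) {α : ℝ} (hα : 0 ≤ α) :
    ∃ L, Tendsto (fun N : ℕ => isingLog (fun z => c - cosTransform ρ z) N ⌊α * N⌋₊ / N)
      atTop (𝓝 L) := by
  refine tendsto_div_of_approx_superadd _
    (B := (|Real.log (c - ρ.real Set.univ)| + |Real.log (c + ρ.real Set.univ)|) * α)
    (C := (|Real.log (c - ρ.real Set.univ)| + |Real.log (c + ρ.real Set.univ)|) * (5 + α))
    (by positivity) (fun N => ?_) (fun A B hA hB => isingLog_superadd hc hα hA hB)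
  have h := abs_logPart_sub (weight_cosTransform hc)
    (List.replicate ⌊α * N⌋₊ (isingCoef N)) (W := unifW N)
    (fun x => by unfold unifW; positivity) (by rw [sum_unifW]; norm_num)
  rw [sum_unifW, Real.log_one, sub_zero, List.length_replicate] at h
  refine h.trans ?_
  rw [mul_assoc]
  exact mul_le_mul_of_nonneg_left (Nat.floor_le (by positivity)) (by positivity)

end Vale.Agent.P157
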