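import Vale.Agent.P157.GaussLaw

/-!
Two replicas: the correlation of a bounded positive weight along two directions is quadratically
small in their overlap when its first Gaussian moment vanishes.
-/

namespace Vale.Agent.P157

open MeasureTheory ProbabilityTheory Finset

lemma integrable_exp_sq_gaussian {t : ℝ} (ht : t < 1 / 2) :
    Integrable (fun x : ℝ => Real.exp (t * x ^ 2)) (gaussianReal 0 1) := by
  rw [gaussianReal_of_var_ne_zero 0 one_ne_zero, integrable_withDensity_iff
    (measurable_gaussianPDF 0 1) (.of_forall fun x => gaussianPDF_lt_top)]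
  refine ((integrable_exp_neg_mul_sq (show 0 < 1 / 2 - t by linarith)).const_mul
    (Real.sqrt (2 * Real.pi))⁻¹).congr (.of_forall fun x => ?_)
  simp only [toReal_gaussianPDF, gaussianPDFReal, NNReal.coe_one, mul_one, sub_zero]
  rw [← mul_assoc, mul_comm (Real.exp (t * x ^ 2)), mul_assoc, ← Real.exp_add]
  ring_nf

lemma exp_second_order (τ : ℝ) : Real.exp τ ≤ 1 + τ + τ ^ 2 * Real.exp |τ| := by
  have h := Complex.norm_exp_sub_sum_le_norm_mul_exp (τ : ℂ) 2
  simp only [sum_range_succ, sum_range_zero, pow_zero, pow_one, Nat.factorial, Complex.norm_real,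
    Real.norm_eq_abs, sq_abs] at h
  norm_num at h
  rw [← Complex.ofReal_exp, show ((Real.exp τ : ℝ) : ℂ) - (1 + (τ : ℂ)) =
    ((Real.exp τ - (1 + τ) : ℝ) : ℂ) by push_cast; ring, Complex.norm_real, Real.norm_eq_abs] at h
  linarith [(abs_le.1 h).2]

lemma kernel_exponent {R Q p : ℝ} (hR : |R| ≤ 1 / 4) (hQ : 0 ≤ Q) (hp : |p| ≤ Q / 2) :
    |(2 * R * p - R ^ 2 * Q) / (2 * (1 - R ^ 2))| ≤ |R| * Q ∧
      |(2 * R * p - R ^ 2 * Q) / (2 * (1 - R ^ 2))| ≤ Q / 6 ∧
      |(2 * R * p - R ^ 2 * Q) / (2 * (1 - R ^ 2)) - R * p| ≤ R ^ 2 * Q := by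
  have hr := abs_nonneg R
  have hR2 : R ^ 2 ≤ |R| / 4 := by
    have := mul_le_mul_of_nonneg_left hR hr
    rw [abs_mul_abs_self] at this
    linarith [sq R]
  have hd : 15 / 8 ≤ 2 * (1 - R ^ 2) := by linarith
  have hd0 : 0 < 2 * (1 - R ^ 2) := by linarith
  have hRp : |2 * R * p| ≤ |R| * Q := by
    rw [mul_assoc, abs_mul, abs_two, abs_mul]
    have := mul_le_mul_of_nonneg_left hp hr
    linarith
  have hRQ : R ^ 2 * Q ≤ |R| / 4 * Q := mul_le_mul_of_nonneg_right hR2 hQ
  have hRQ' : |R| * Q ≤ 1 / 4 * Q := mul_le_mul_of_nonneg_right hR hQ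
  have hnum : |2 * R * p - R ^ 2 * Q| ≤ 5 / 4 * (|R| * Q) := by
    refine (abs_sub _ _).trans ?_
    rw [abs_of_nonneg (show 0 ≤ R ^ 2 * Q by positivity)]
    linarith
  refine ⟨?_, ?_, ?_⟩
  · rw [abs_div, abs_of_pos hd0, div_le_iff₀ hd0]
    have := mul_nonneg hr hQ
    have := mul_le_mul_of_nonneg_left hd (mul_nonneg hr hQ)
    linarith
  · rw [abs_div, abs_of_pos hd0, div_le_iff₀ hd0]
    have := mul_le_mul_of_nonneg_left hd (show 0 ≤ Q / 6 by positivity)
    linarith
  · have hne : 1 - R ^ 2 ≠ 0 := by linarith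
    have e : (2 * R * p - R ^ 2 * Q) / (2 * (1 - R ^ 2)) - R * p =
        R ^ 2 * (2 * R * p - Q) / (2 * (1 - R ^ 2)) := by
      field_simp
      ring
    rw [e, abs_div, abs_mul, abs_of_nonneg (sq_nonneg R), abs_of_pos hd0, div_le_iff₀ hd0,
      mul_assoc (R ^ 2)]
    refine mul_le_mul_of_nonneg_left ?_ (sq_nonneg R)
    refine (abs_sub _ _).trans ?_
    rw [abs_of_nonneg hQ]
    have := mul_le_mul_of_nonneg_left hd hQ
    linarith

/-- The density of `N(R x, 1 - R²)` relative to the standard Gaussian. -/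
lemma kernel_bound {R : ℝ} (hR : |R| ≤ 1 / 4) (x t : ℝ) :
    (Real.sqrt (1 - R ^ 2))⁻¹ *
        Real.exp ((2 * R * x * t - R ^ 2 * (x ^ 2 + t ^ 2)) / (2 * (1 - R ^ 2))) ≤
      1 + R * x * t + R ^ 2 * (400 * (Real.exp (x ^ 2 / 4) * Real.exp (t ^ 2 / 4))) := by
  set Q := x ^ 2 + t ^ 2 with hQdef
  have hQ : 0 ≤ Q := by positivity
  have hR2 : R ^ 2 ≤ 1 / 16 := by nlinarith [sq_abs R, abs_nonneg R]
  have hc : 0 < 1 - R ^ 2 := by linarith
  have hp : |x * t| ≤ Q / 2 := by
    rw [abs_le]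
    constructor <;> nlinarith [sq_nonneg (x - t), sq_nonneg (x + t)]
  obtain ⟨k1, k2, k3⟩ := kernel_exponent hR hQ hp
  rw [show 2 * R * x * t = 2 * R * (x * t) by ring]
  set τ := (2 * R * (x * t) - R ^ 2 * Q) / (2 * (1 - R ^ 2)) with hτ
  set s := (Real.sqrt (1 - R ^ 2))⁻¹
  have hinv : s - 1 ≤ 2 * R ^ 2 := by
    have hs : 1 - R ^ 2 ≤ Real.sqrt (1 - R ^ 2) := Real.le_sqrt_of_sq_le (by nlinarith)
    have h := inv_anti₀ hc hs
    have h2 : (1 - R ^ 2)⁻¹ ≤ 1 + 2 * R ^ 2 := by
      rw [inv_le_iff_one_le_mul₀ hc]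
      nlinarith
    linarith
  have hE : Real.exp (x ^ 2 / 4) * Real.exp (t ^ 2 / 4) = Real.exp (Q / 4) := by
    rw [← Real.exp_add, hQdef]; ring_nf
  rw [hE]
  set E := Real.exp (Q / 4) with hEdef
  have hQE : Q ≤ 4 * E := by linarith [Real.add_one_le_exp (Q / 4)]
  have hτE : Real.exp τ ≤ E := Real.exp_le_exp.2 (by linarith [le_abs_self τ])
  have h4 : Q ^ 2 ≤ 288 * Real.exp (Q / 12) := by
    have := Real.pow_div_factorial_le_exp (Q / 12) (by positivity) 2
    simp only [Nat.factorial] at this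
    norm_num at this
    linarith [show (Q / 12) ^ 2 = Q ^ 2 / 144 by ring]
  have hτ2 : τ ^ 2 * Real.exp |τ| ≤ R ^ 2 * (288 * E) := by
    have h1 : τ ^ 2 ≤ R ^ 2 * Q ^ 2 := by
      have := pow_le_pow_left₀ (abs_nonneg τ) k1 2
      rwa [sq_abs, mul_pow, sq_abs] at this
    refine (mul_le_mul h1 (Real.exp_le_exp.2 k2) (Real.exp_pos _).le (by positivity)).trans ?_
    rw [mul_assoc]
    refine mul_le_mul_of_nonneg_left ((mul_le_mul_of_nonneg_right h4 (Real.exp_pos _).le).trans
      (le_of_eq ?_)) (sq_nonneg R)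
    rw [hEdef, mul_assoc, ← Real.exp_add]
    ring_nf
  have h1 : (s - 1) * Real.exp τ ≤ 2 * R ^ 2 * E :=
    mul_le_mul hinv hτE (Real.exp_pos _).le (by positivity)
  have h2 : τ - R * (x * t) ≤ R ^ 2 * (4 * E) := (le_abs_self _).trans
    (k3.trans (mul_le_mul_of_nonneg_left hQE (sq_nonneg R)))
  have h3 := exp_second_order τ
  have h0 : 0 ≤ R ^ 2 * E := by positivity
  linarith [show R * (x * t) = R * x * t by ring]

variable {w : ℝ → ℝ} {B : ℝ}

/-- A measurable positive weight with bounded logarithm. -/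
structure BWeight (w : ℝ → ℝ) (B : ℝ) : Prop where
  meas : Measurable w
  lower : ∀ z, Real.exp (-B) ≤ w z
  upper : ∀ z, w z ≤ Real.exp B

lemma BWeight.pos (hw : BWeight w B) (z : ℝ) : 0 < w z :=
  lt_of_lt_of_le (Real.exp_pos _) (hw.lower z)

lemma BWeight.norm_le (hw : BWeight w B) (z : ℝ) : ‖w z‖ ≤ Real.exp B := by
  rw [Real.norm_eq_abs, abs_of_pos (hw.pos z)]; exact hw.upper z

lemma BWeight.integral_pos (hw : BWeight w B) : 0 < ∫ z, w z ∂gaussianReal 0 1 := by
  have hi : Integrable w (gaussianReal 0 1) :=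
    Integrable.of_bound hw.meas.aestronglyMeasurable _ (.of_forall hw.norm_le)
  exact lt_of_lt_of_le (Real.exp_pos (-B))
    (by simpa using integral_mono (integrable_const (Real.exp (-B))) hi hw.lower)

lemma smoothed_le (hw : BWeight w B) {R : ℝ} (hR : |R| ≤ 1 / 4) (x : ℝ) :
    ∫ y, w (R * x + Real.sqrt (1 - R ^ 2) * y) ∂gaussianReal 0 1 ≤
      (∫ z, w z ∂gaussianReal 0 1) + R * x * (∫ z, z * w z ∂gaussianReal 0 1) +
        R ^ 2 * (400 * Real.exp (x ^ 2 / 4)) *
          ∫ z, Real.exp (z ^ 2 / 4) * w z ∂gaussianReal 0 1 := by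
  have hR2 : R ^ 2 ≤ 1 / 16 := by nlinarith [sq_abs R, abs_nonneg R]
  have hc : 0 < 1 - R ^ 2 := by linarith
  set c := Real.sqrt (1 - R ^ 2)
  have hcpos : 0 < c := Real.sqrt_pos.2 hc
  let v : NNReal := ⟨1 - R ^ 2, hc.le⟩
  have hv : v ≠ 0 := fun h => hc.ne' (congrArg NNReal.toReal h)
  have hmap : (gaussianReal 0 1).map (fun y => R * x + c * y) = gaussianReal (R * x) v := by
    rw [show (fun y : ℝ => R * x + c * y) = (fun y => R * x + y) ∘ (fun y => c * y) from rfl,
      ← Measure.map_map (by fun_prop) (by fun_prop), gaussianReal_map_const_mul,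
      gaussianReal_map_const_add]
    congr 1
    · ring
    · rw [mul_one]; exact NNReal.eq (Real.sq_sqrt hc.le)
  have hsc : ∫ y, w (R * x + c * y) ∂gaussianReal 0 1 =
      ∫ t, ((c⁻¹ * Real.exp ((2 * R * x * t - R ^ 2 * (x ^ 2 + t ^ 2)) / (2 * (1 - R ^ 2)))) *
        w t) ∂gaussianReal 0 1 := by
    rw [← integral_map (f := w) (by fun_prop) hw.meas.aestronglyMeasurable, hmap,
      integral_gaussianReal_eq_integral_smul hv,
      integral_gaussianReal_eq_integral_smul one_ne_zero]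
    refine integral_congr_ae (.of_forall fun t => ?_)
    simp only [gaussianPDFReal, smul_eq_mul, NNReal.coe_one, mul_one, sub_zero,
      show ((v : ℝ)) = 1 - R ^ 2 from rfl]
    rw [Real.sqrt_mul (by positivity : (0 : ℝ) ≤ 2 * Real.pi), mul_inv]
    have hexp : Real.exp (-(t - R * x) ^ 2 / (2 * (1 - R ^ 2))) = Real.exp (-t ^ 2 / 2) *
        Real.exp ((2 * R * x * t - R ^ 2 * (x ^ 2 + t ^ 2)) / (2 * (1 - R ^ 2))) := by
      rw [← Real.exp_add]
      congr 1
      field_simp
      ring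
    rw [hexp]
    ring
  have hiw : Integrable w (gaussianReal 0 1) :=
    Integrable.of_bound hw.meas.aestronglyMeasurable _ (.of_forall hw.norm_le)
  have hiz : Integrable (fun z => z * w z) (gaussianReal 0 1) :=
    ((memLp_id_gaussianReal 1).integrable (by norm_num)).mul_bdd
      hw.meas.aestronglyMeasurable (.of_forall hw.norm_le)
  have hie : Integrable (fun z => Real.exp (z ^ 2 / 4) * w z) (gaussianReal 0 1) := by
    refine Integrable.mul_bdd ?_ hw.meas.aestronglyMeasurable (.of_forall hw.norm_le)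
    exact (integrable_exp_sq_gaussian (t := 1 / 4) (by norm_num)).congr
      (.of_forall fun z => by ring_nf)
  have hi : Integrable (fun t => w t + R * x * (t * w t) +
      R ^ 2 * (400 * Real.exp (x ^ 2 / 4)) * (Real.exp (t ^ 2 / 4) * w t)) (gaussianReal 0 1) :=
    (hiw.add (hiz.const_mul _)).add (hie.const_mul _)
  rw [hsc]
  refine (integral_mono_of_nonneg (.of_forall fun t => ?_) hi (.of_forall fun t => ?_)).trans
    (le_of_eq ?_)
  · exact mul_nonneg (mul_nonneg (inv_nonneg.2 hcpos.le) (Real.exp_pos _).le) (hw.pos t).le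
  · have := mul_le_mul_of_nonneg_right (kernel_bound hR x t) (hw.pos t).le
    linarith
  · rw [integral_add (hiw.fun_add (hiz.const_mul _)) (hie.const_mul _),
      integral_add hiw (hiz.const_mul _), integral_const_mul, integral_const_mul]

/-- The two-replica correlation of a weight with vanishing first Gaussian moment. -/
theorem pair_bound (hw : BWeight w B) (hm : ∫ z, z * w z ∂gaussianReal 0 1 = 0) :
    ∃ K : ℝ, 0 < K ∧ ∀ (ι : Type) [Fintype ι] (a b : ι → ℝ), ∑ i, a i ^ 2 = 1 →
      ∑ i, b i ^ 2 = 1 →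
      ∫ g, w (∑ i, g i * a i) * w (∑ i, g i * b i) ∂gauss ι ≤
        (∫ z, w z ∂gaussianReal 0 1) ^ 2 * Real.exp (K * (∑ i, a i * b i) ^ 2) := by
  set m₀ := ∫ z, w z ∂gaussianReal 0 1
  set J := ∫ z, Real.exp (z ^ 2 / 4) * w z ∂gaussianReal 0 1
  have hm0 : 0 < m₀ := hw.integral_pos
  have hJ : 0 ≤ J := integral_nonneg fun z => mul_nonneg (Real.exp_pos _).le (hw.pos z).le
  have hB2 : 0 < Real.exp (2 * B) := Real.exp_pos _
  refine ⟨(400 * J ^ 2 + 16 * Real.exp (2 * B)) / m₀ ^ 2, by positivity, fun ι _ a b ha hb => ?_⟩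
  rw [integral_pair ha hb hw.meas]
  set R := ∑ i, a i * b i
  set c := Real.sqrt (1 - R ^ 2)
  refine le_trans (b := m₀ ^ 2 + R ^ 2 * (400 * J ^ 2 + 16 * Real.exp (2 * B))) ?_ ?_
  · have hmeas : Measurable fun q : ℝ × ℝ => w q.1 * w (R * q.1 + c * q.2) :=
      (hw.meas.comp measurable_fst).mul (hw.meas.comp (by fun_prop))
    have hb2 : ∀ x y, w x * w (R * x + c * y) ≤ Real.exp (2 * B) := fun x y => by
      rw [two_mul, Real.exp_add]
      exact mul_le_mul (hw.upper _) (hw.upper _) (hw.pos _).le (Real.exp_pos _).le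
    have hint : Integrable (fun q : ℝ × ℝ => w q.1 * w (R * q.1 + c * q.2))
        ((gaussianReal 0 1).prod (gaussianReal 0 1)) :=
      Integrable.of_bound hmeas.aestronglyMeasurable (Real.exp (2 * B)) (.of_forall fun q => by
        rw [Real.norm_eq_abs, abs_of_pos (mul_pos (hw.pos _) (hw.pos _))]
        exact hb2 _ _)
    have e : ∫ v : Fin 2 → ℝ, w (v 0) * w (R * v 0 + c * v 1) ∂gauss (Fin 2) =
        ∫ x, ∫ y, w x * w (R * x + c * y) ∂gaussianReal 0 1 ∂gaussianReal 0 1 := by
      rw [← integral_prod _ hint,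
        ← (measurePreserving_piFinTwo (fun _ : Fin 2 => gaussianReal 0 1)).integral_comp']
      rfl
    rw [e]
    rcases le_or_gt |R| (1 / 4) with hR | hR
    · have hiw : Integrable w (gaussianReal 0 1) :=
        Integrable.of_bound hw.meas.aestronglyMeasurable _ (.of_forall hw.norm_le)
      have hiz : Integrable (fun z => z * w z) (gaussianReal 0 1) :=
        ((memLp_id_gaussianReal 1).integrable (by norm_num)).mul_bdd
          hw.meas.aestronglyMeasurable (.of_forall hw.norm_le)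
      have hie : Integrable (fun z => Real.exp (z ^ 2 / 4) * w z) (gaussianReal 0 1) := by
        refine Integrable.mul_bdd ?_ hw.meas.aestronglyMeasurable (.of_forall hw.norm_le)
        exact (integrable_exp_sq_gaussian (t := 1 / 4) (by norm_num)).congr
          (.of_forall fun z => by ring_nf)
      refine (integral_mono (g := fun x => m₀ * w x + R ^ 2 * (400 * J) *
          (Real.exp (x ^ 2 / 4) * w x)) hint.integral_prod_left
        ((hiw.const_mul _).add (hie.const_mul _)) fun x => ?_).trans ?_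
      · simp only [integral_const_mul]
        refine (mul_le_mul_of_nonneg_left (smoothed_le hw hR x) (hw.pos x).le).trans (le_of_eq ?_)
        rw [hm]
        ring
      · rw [integral_add (hiw.const_mul _) (hie.const_mul _), integral_const_mul,
          integral_const_mul]
        have : 0 ≤ R ^ 2 * (16 * Real.exp (2 * B)) := by positivity
        linarith
    · have h16 : 1 ≤ 16 * R ^ 2 := by nlinarith [sq_abs R]
      refine (integral_mono (g := fun _ => Real.exp (2 * B)) hint.integral_prod_left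
        (integrable_const _) fun x => ?_).trans ?_
      · refine (integral_mono_of_nonneg (.of_forall fun y => (mul_pos (hw.pos _) (hw.pos _)).le)
          (integrable_const (Real.exp (2 * B))) (.of_forall fun y => hb2 x y)).trans ?_
        simp
      · simp only [integral_const, probReal_univ, one_smul]
        have := mul_le_mul_of_nonneg_right h16 hB2.le
        have : 0 ≤ R ^ 2 * (400 * J ^ 2) := by positivity
        have : 0 ≤ m₀ ^ 2 := sq_nonneg _
        linarith
  · have := mul_le_mul_of_nonneg_left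
      (Real.add_one_le_exp ((400 * J ^ 2 + 16 * Real.exp (2 * B)) / m₀ ^ 2 * R ^ 2))
      (sq_nonneg m₀)
    refine le_trans (le_of_eq ?_) this
    field_simp
    ring

end Vale.Agent.P157
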