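import Mathlib

/-!
Moments of weighted sums of a positive definite function of a Gaussian field, and the resulting
concavity of the averaged logarithm along a splitting of the coordinates.
-/

namespace Vale.Agent.P157

open MeasureTheory ProbabilityTheory Finset Real

/-- The cosine transform of a measure. -/
noncomputable def cosTransform (ρ : Measure ℝ) (z : ℝ) : ℝ := ∫ s, Real.cos (s * z) ∂ρ

variable {ρ : Measure ℝ} [IsFiniteMeasure ρ]

lemma continuous_cosTransform : Continuous (cosTransform ρ) :=
  continuous_of_dominated (fun z => (by fun_prop : Continuous fun s : ℝ => Real.cos (s * z))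
    |>.aestronglyMeasurable) (fun z => .of_forall fun s => by simpa using Real.abs_cos_le_one _)
    (integrable_const 1) (.of_forall fun s => by fun_prop)

lemma abs_cosTransform_le (z : ℝ) : |cosTransform ρ z| ≤ ρ.real Set.univ := by
  have := norm_integral_le_of_norm_le_const (μ := ρ) (f := fun s => Real.cos (s * z)) (C := 1)
    (.of_forall fun s => by simpa using Real.abs_cos_le_one _)
  simpa [cosTransform] using this

/-- The symmetrised measure. -/
noncomputable def symm2 (ρ : Measure ℝ) : Measure ℝ := (2⁻¹ : NNReal) • (ρ + ρ.map Neg.neg)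

instance : IsFiniteMeasure (symm2 ρ) := by unfold symm2; infer_instance

lemma cosTransform_eq_complex (z : ℝ) :
    (cosTransform ρ z : ℂ) = ∫ s, Complex.exp (((s * z : ℝ) : ℂ) * Complex.I) ∂(symm2 ρ) := by
  have hc : ∀ μ : Measure ℝ, IsFiniteMeasure μ →
      Integrable (fun s : ℝ => Complex.exp (((s * z : ℝ) : ℂ) * Complex.I)) μ := by
    intro μ hμ
    refine Integrable.of_bound (by fun_prop) 1 (.of_forall fun s => ?_)
    rw [Complex.norm_exp_ofReal_mul_I]
  have hmap : IsFiniteMeasure (ρ.map Neg.neg) := inferInstance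
  have hneg : Integrable (fun s : ℝ => Complex.exp (((-s * z : ℝ) : ℂ) * Complex.I)) ρ := by
    refine Integrable.of_bound (by fun_prop) 1 (.of_forall fun s => ?_)
    rw [Complex.norm_exp_ofReal_mul_I]
  rw [symm2, integral_smul_nnreal_measure, integral_add_measure (hc _ inferInstance) (hc _ hmap),
    integral_map (by fun_prop) (hc _ hmap).aestronglyMeasurable,
    ← integral_add (hc _ inferInstance) hneg]
  have : ∀ s : ℝ, Complex.exp (((s * z : ℝ) : ℂ) * Complex.I) +
      Complex.exp (((-s * z : ℝ) : ℂ) * Complex.I) = ((2 * Real.cos (s * z) : ℝ) : ℂ) := by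
    intro s
    push_cast
    rw [Complex.two_cos]
    ring_nf
  simp only [this]
  rw [integral_complex_ofReal, integral_const_mul, cosTransform]
  simp [NNReal.smul_def]

variable {ι X : Type} [Fintype ι] [Fintype X]

/-- The field of one pattern `g` at a configuration. -/
def field (a : X → ι → ℝ) (g : ι → ℝ) (x : X) : ℝ := ∑ i, g i * a x i

/-- The law of a standard Gaussian vector. -/
noncomputable def gauss (ι : Type) [Fintype ι] : Measure (ι → ℝ) :=
  Measure.pi fun _ => gaussianReal 0 1

instance : IsProbabilityMeasure (gauss ι) := by unfold gauss; infer_instance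

/-- The variance of the phase of a tuple. -/
def phaseVar {k : ℕ} (a : X → ι → ℝ) (σ : Fin k → X) (s : Fin k → ℝ) : ℝ :=
  ∑ i, (∑ l, s l * a (σ l) i) ^ 2

lemma continuous_field (a : X → ι → ℝ) (x : X) : Continuous fun g => field a g x := by
  unfold field; fun_prop

lemma integral_exp_field {k : ℕ} (a : X → ι → ℝ) (σ : Fin k → X) (s : Fin k → ℝ) :
    ∫ g, ∏ l, Complex.exp (((s l * field a g (σ l) : ℝ) : ℂ) * Complex.I) ∂gauss ι =
      (Real.exp (-(phaseVar a σ s) / 2) : ℂ) := by
  have h : ∀ g, ∏ l, Complex.exp (((s l * field a g (σ l) : ℝ) : ℂ) * Complex.I) =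
      ∏ i, Complex.exp (((∑ l, s l * a (σ l) i : ℝ) : ℂ) * (g i : ℂ) * Complex.I) := by
    intro g
    rw [← Complex.exp_sum, ← Complex.exp_sum]
    congr 1
    simp only [field, Complex.ofReal_mul, Complex.ofReal_sum, mul_sum, sum_mul]
    rw [sum_comm]
    exact sum_congr rfl fun i _ => sum_congr rfl fun l _ => by ring
  simp only [h]
  rw [gauss, integral_fintype_prod_eq_prod (fun i (x : ℝ) =>
    Complex.exp (((∑ l, s l * a (σ l) i : ℝ) : ℂ) * (x : ℂ) * Complex.I))]
  simp only [← charFun_apply_real, charFun_gaussianReal]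
  rw [← Complex.exp_sum, Complex.ofReal_exp]
  congr 1
  simp only [phaseVar]
  push_cast
  simp only [NNReal.coe_one, Complex.ofReal_one, mul_zero, zero_mul, zero_sub, one_mul]
  rw [neg_div, sum_neg_distrib, sum_div]

omit [IsFiniteMeasure ρ] in
lemma measurable_phase {k : ℕ} (a : X → ι → ℝ) (σ : Fin k → X) :
    Continuous (phaseVar a σ) := by
  unfold phaseVar; fun_prop

/-- The moments of a weighted sum of the transform along the field. -/
lemma integral_moment (k : ℕ) (a : X → ι → ℝ) (w : X → ℝ) :
    ∫ g, (∑ x, w x * cosTransform ρ (field a g x)) ^ k ∂gauss ι =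
      ∑ σ : Fin k → X, (∏ l, w (σ l)) *
        ∫ s, Real.exp (-(phaseVar a σ s) / 2) ∂(Measure.pi fun _ : Fin k => symm2 ρ) := by
  classical
  simp only [Fintype.sum_pow, prod_mul_distrib]
  have hcont : ∀ σ : Fin k → X,
      Continuous fun g => ∏ l, cosTransform ρ (field a g (σ l)) := fun σ =>
    continuous_finset_prod _ fun l _ => continuous_cosTransform.comp (continuous_field a _)
  have hbd : ∀ σ : Fin k → X, Integrable (fun g => ∏ l, cosTransform ρ (field a g (σ l)))
      (gauss ι) := by
    intro σ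
    refine Integrable.of_bound (hcont σ).aestronglyMeasurable ((ρ.real Set.univ) ^ k)
      (.of_forall fun g => ?_)
    rw [Real.norm_eq_abs, abs_prod]
    refine (prod_le_prod (fun l _ => abs_nonneg _) fun l _ => abs_cosTransform_le _).trans ?_
    simp
  rw [integral_finset_sum _ fun σ _ => (hbd σ).const_mul _]
  refine sum_congr rfl fun σ _ => ?_
  rw [integral_const_mul]
  congr 1
  apply Complex.ofReal_injective
  rw [← integral_complex_ofReal, ← integral_complex_ofReal]
  simp only [Complex.ofReal_prod, cosTransform_eq_complex]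
  have e : ∀ g, (∏ l, ∫ s, Complex.exp (((s * field a g (σ l) : ℝ) : ℂ) * Complex.I) ∂symm2 ρ) =
      ∫ s, ∏ l, Complex.exp (((s l * field a g (σ l) : ℝ) : ℂ) * Complex.I)
        ∂(Measure.pi fun _ : Fin k => symm2 ρ) := fun g =>
    (integral_fintype_prod_eq_prod (fun l (s : ℝ) =>
      Complex.exp (((s * field a g (σ l) : ℝ) : ℂ) * Complex.I))).symm
  simp only [e]
  rw [integral_integral_swap]
  · exact integral_congr_ae (.of_forall fun s => integral_exp_field a σ s)
  · refine Integrable.of_bound ?_ 1 (.of_forall fun p => ?_)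
    · refine Continuous.aestronglyMeasurable ?_
      simp only [Function.uncurry_def, field]
      fun_prop
    · simp only [Function.uncurry_def, norm_prod, Complex.norm_exp_ofReal_mul_I, prod_const_one,
        le_refl]

/-- Moments are convex along a splitting of the phase variance. -/
lemma moment_le (k : ℕ) {lam μ : ℝ} (hl : 0 ≤ lam) (hm : 0 ≤ μ) (hlm : lam + μ = 1)
    (a a₁ a₂ : X → ι → ℝ)
    (hsplit : ∀ (k : ℕ) (σ : Fin k → X) (s : Fin k → ℝ),
      phaseVar a σ s = lam * phaseVar a₁ σ s + μ * phaseVar a₂ σ s)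
    (w : X → ℝ) (hw : ∀ x, 0 ≤ w x) :
    ∫ g, (∑ x, w x * cosTransform ρ (field a g x)) ^ k ∂gauss ι ≤
      lam * ∫ g, (∑ x, w x * cosTransform ρ (field a₁ g x)) ^ k ∂gauss ι +
      μ * ∫ g, (∑ x, w x * cosTransform ρ (field a₂ g x)) ^ k ∂gauss ι := by
  simp only [integral_moment, mul_sum, ← sum_add_distrib]
  refine sum_le_sum fun σ _ => ?_
  have hi : ∀ b : X → ι → ℝ, Integrable (fun s => Real.exp (-(phaseVar b σ s) / 2))
      (Measure.pi fun _ : Fin k => symm2 ρ) := by
    intro b
    refine Integrable.of_bound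
      (Real.continuous_exp.comp ((measurable_phase b σ).neg.div_const 2)).aestronglyMeasurable 1
      (.of_forall fun s => ?_)
    rw [Real.norm_eq_abs, abs_of_pos (Real.exp_pos _), Real.exp_le_one_iff]
    have : 0 ≤ phaseVar b σ s := sum_nonneg fun i _ => sq_nonneg _
    linarith
  have key : ∫ s, Real.exp (-(phaseVar a σ s) / 2) ∂(Measure.pi fun _ : Fin k => symm2 ρ) ≤
      lam * ∫ s, Real.exp (-(phaseVar a₁ σ s) / 2) ∂(Measure.pi fun _ : Fin k => symm2 ρ) +
      μ * ∫ s, Real.exp (-(phaseVar a₂ σ s) / 2) ∂(Measure.pi fun _ : Fin k => symm2 ρ) := by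
    rw [← integral_const_mul, ← integral_const_mul,
      ← integral_add ((hi a₁).const_mul _) ((hi a₂).const_mul _)]
    refine integral_mono (hi a) (((hi a₁).const_mul _).add ((hi a₂).const_mul _)) fun s => ?_
    have := convexOn_exp.2 (Set.mem_univ (-(phaseVar a₁ σ s) / 2))
      (Set.mem_univ (-(phaseVar a₂ σ s) / 2)) hl hm hlm
    simp only [smul_eq_mul] at this
    refine le_trans (le_of_eq ?_) this
    rw [hsplit]
    congr 1
    ring
  calc (∏ l, w (σ l)) * _ ≤ (∏ l, w (σ l)) * _ :=
        mul_le_mul_of_nonneg_left key (prod_nonneg fun l _ => hw _)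
    _ = _ := by ring

/-- Averaged logarithm along a splitting. -/
lemma integral_log_le {c : ℝ} (hc : ρ.real Set.univ < c) {lam μ : ℝ} (hl : 0 ≤ lam) (hm : 0 ≤ μ)
    (hlm : lam + μ = 1) (a a₁ a₂ : X → ι → ℝ)
    (hsplit : ∀ (k : ℕ) (σ : Fin k → X) (s : Fin k → ℝ),
      phaseVar a σ s = lam * phaseVar a₁ σ s + μ * phaseVar a₂ σ s)
    (w : X → ℝ) (hw : ∀ x, 0 ≤ w x) (hS : 0 < ∑ x, w x) :
    lam * ∫ g, Real.log (∑ x, w x * (c - cosTransform ρ (field a₁ g x))) ∂gauss ι +
      μ * ∫ g, Real.log (∑ x, w x * (c - cosTransform ρ (field a₂ g x))) ∂gauss ι ≤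
      ∫ g, Real.log (∑ x, w x * (c - cosTransform ρ (field a g x))) ∂gauss ι := by
  have hm0 : 0 ≤ ρ.real Set.univ := measureReal_nonneg
  have hc0 : 0 < c := lt_of_le_of_lt hm0 hc
  set S := ∑ x, w x with hSdef
  set r := ρ.real Set.univ / c with hr
  have hr0 : 0 ≤ r := by positivity
  have hr1 : r < 1 := (div_lt_one hc0).2 hc
  let T : (X → ι → ℝ) → (ι → ℝ) → ℝ := fun b g =>
    (∑ x, w x * cosTransform ρ (field b g x)) / (c * S)
  have hT : ∀ b g, |T b g| ≤ r := by
    intro b g
    simp only [T, abs_div, abs_of_pos (mul_pos hc0 hS)]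
    rw [div_le_iff₀ (mul_pos hc0 hS)]
    refine (abs_sum_le_sum_abs _ _).trans ?_
    calc ∑ x, |w x * cosTransform ρ (field b g x)| ≤ ∑ x, w x * ρ.real Set.univ := by
          refine sum_le_sum fun x _ => ?_
          rw [abs_mul, abs_of_nonneg (hw x)]
          exact mul_le_mul_of_nonneg_left (abs_cosTransform_le _) (hw x)
      _ = r * (c * S) := by rw [← sum_mul, ← hSdef, hr]; field_simp
  have hTc : ∀ b, Continuous (T b) := fun b => (continuous_finset_sum _ fun x _ =>
    continuous_const.mul (continuous_cosTransform.comp (continuous_field b x))).div_const _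
  have hlogT : ∀ b g, Real.log (∑ x, w x * (c - cosTransform ρ (field b g x))) =
      Real.log (c * S) + Real.log (1 - T b g) := by
    intro b g
    rw [← Real.log_mul (by positivity)
      (by have := (abs_le.1 (hT b g)).2; linarith)]
    congr 1
    simp only [T, mul_sub, sum_sub_distrib, ← sum_mul, ← hSdef]
    field_simp
  have hi : ∀ b, Integrable (fun g => Real.log (1 - T b g)) (gauss ι) := by
    intro b
    have hp : ∀ g, 0 < 1 - T b g := fun g => by have := (abs_le.1 (hT b g)).2; linarith
    refine Integrable.of_bound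
      ((continuous_const.sub (hTc b)).log fun g => (hp g).ne').aestronglyMeasurable
      (|Real.log (1 - r)| + |Real.log (1 + r)|) (.of_forall fun g => ?_)
    have := abs_le.1 (hT b g)
    rw [Real.norm_eq_abs, abs_le]
    constructor
    · have h1 := Real.log_le_log (by linarith : 0 < 1 - r) (by linarith : 1 - r ≤ 1 - T b g)
      have := neg_abs_le (Real.log (1 - r))
      have := abs_nonneg (Real.log (1 + r))
      linarith
    · have h1 := Real.log_le_log (hp g) (by linarith : 1 - T b g ≤ 1 + r)
      have := le_abs_self (Real.log (1 + r))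
      have := abs_nonneg (Real.log (1 - r))
      linarith
  simp only [hlogT]
  have esplit : ∀ b, ∫ g, (Real.log (c * S) + Real.log (1 - T b g)) ∂gauss ι =
      Real.log (c * S) + ∫ g, Real.log (1 - T b g) ∂gauss ι := by
    intro b
    rw [integral_add (integrable_const _) (hi b)]
    simp
  simp only [esplit]
  suffices h : lam * ∫ g, Real.log (1 - T a₁ g) ∂gauss ι +
      μ * ∫ g, Real.log (1 - T a₂ g) ∂gauss ι ≤ ∫ g, Real.log (1 - T a g) ∂gauss ι by
    have : lam * Real.log (c * S) + μ * Real.log (c * S) = Real.log (c * S) := by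
      rw [← add_mul, hlm, one_mul]
    linarith
  -- truncated series
  let P : ℕ → (X → ι → ℝ) → ℝ := fun n b =>
    ∑ i ∈ range n, (∫ g, (T b g) ^ (i + 1) ∂gauss ι) / ((i : ℝ) + 1)
  have hPi : ∀ b (i : ℕ), Integrable (fun g => (T b g) ^ (i + 1)) (gauss ι) := by
    intro b i
    refine Integrable.of_bound ((hTc b).pow _).aestronglyMeasurable (r ^ (i + 1))
      (.of_forall fun g => ?_)
    rw [Real.norm_eq_abs, abs_pow]
    exact pow_le_pow_left₀ (abs_nonneg _) (hT b g) _
  have herr : ∀ n b, |P n b + ∫ g, Real.log (1 - T b g) ∂gauss ι| ≤ r ^ (n + 1) / (1 - r) := by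
    intro n b
    simp only [P, ← integral_div]
    rw [← integral_finset_sum _ (fun i _ => (hPi b i).div_const _),
      ← integral_add (integrable_finset_sum _ fun i _ => (hPi b i).div_const _) (hi b)]
    have := norm_integral_le_of_norm_le_const (μ := gauss ι) (C := r ^ (n + 1) / (1 - r))
      (f := fun g => (∑ i ∈ range n, T b g ^ (i + 1) / ((i : ℝ) + 1)) + Real.log (1 - T b g))
      (.of_forall fun g => by
        rw [Real.norm_eq_abs]
        refine (Real.abs_log_sub_add_sum_range_le ((hT b g).trans_lt hr1) n).trans ?_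
        exact div_le_div₀ (by positivity) (pow_le_pow_left₀ (abs_nonneg _) (hT b g) _)
          (by linarith) (by linarith [hT b g]))
    simpa using this
  have hP : ∀ n, P n a ≤ lam * P n a₁ + μ * P n a₂ := by
    intro n
    simp only [P, mul_sum, ← sum_add_distrib]
    refine sum_le_sum fun i _ => ?_
    rw [mul_div_assoc', mul_div_assoc', ← add_div]
    refine div_le_div_of_nonneg_right ?_ (by positivity)
    simp only [T, div_pow, integral_div]
    rw [mul_div_assoc', mul_div_assoc', ← add_div]
    exact div_le_div_of_nonneg_right (moment_le _ hl hm hlm a a₁ a₂ hsplit w hw) (by positivity)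
  have hlim : Filter.Tendsto (fun n => 2 * (r ^ (n + 1) / (1 - r))) Filter.atTop (nhds 0) := by
    have := ((tendsto_pow_atTop_nhds_zero_of_lt_one hr0 hr1).comp
      (Filter.tendsto_add_atTop_nat 1)).div_const (1 - r) |>.const_mul 2
    simpa using this
  have hfin : ∀ n, lam * ∫ g, Real.log (1 - T a₁ g) ∂gauss ι +
      μ * ∫ g, Real.log (1 - T a₂ g) ∂gauss ι - ∫ g, Real.log (1 - T a g) ∂gauss ι ≤
      2 * (r ^ (n + 1) / (1 - r)) := by
    intro n
    have e0 := abs_le.1 (herr n a)
    have e1 := mul_le_mul_of_nonneg_left (abs_le.1 (herr n a₁)).2 hl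
    have e2 := mul_le_mul_of_nonneg_left (abs_le.1 (herr n a₂)).2 hm
    have e3 := hP n
    have e4 : lam * (r ^ (n + 1) / (1 - r)) + μ * (r ^ (n + 1) / (1 - r)) =
        r ^ (n + 1) / (1 - r) := by rw [← add_mul, hlm, one_mul]
    linarith [mul_add lam (P n a₁) (∫ g, Real.log (1 - T a₁ g) ∂gauss ι),
      mul_add μ (P n a₂) (∫ g, Real.log (1 - T a₂ g) ∂gauss ι), e0.1, e0.2]
  have := ge_of_tendsto' hlim hfin
  linarith

end Vale.Agent.P157
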