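import Vale.Agent.P157.Ising

/-!
The pressure written with the law of the whole pattern matrix.
-/

namespace Vale.Agent.P157

open MeasureTheory ProbabilityTheory Finset Real Filter Topology

/-- The averaged pressure of the Ising perceptron with log-potential `f`: here
`M = ⌊α N⌋`, `G` is an `M × N` matrix of independent standard Gaussian entries, `x` runs over
`{-1, 1}^N` with uniform weights. -/
noncomputable def pressure (f : ℝ → ℝ) (α : ℝ) (N : ℕ) : ℝ :=
  (∫ G, Real.log (((2 : ℝ) ^ N)⁻¹ * ∑ x : Fin N → Bool,
      Real.exp (∑ a, f ((∑ i, G a i * (if x i then (1 : ℝ) else -1)) / Real.sqrt N)))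
    ∂(Measure.pi fun _ : Fin ⌊α * N⌋₊ => Measure.pi fun _ : Fin N => gaussianReal 0 1)) / N

lemma logPart_eq_pi {ι X : Type} [Fintype ι] [Fintype X] {u : ℝ → ℝ} {L : ℝ} (hu : Weight u L)
    (a : X → ι → ℝ) (M : ℕ) :
    ∀ {W : X → ℝ}, (∀ x, 0 ≤ W x) → 0 < ∑ x, W x →
      logPart u (List.replicate M a) W =
        ∫ G, Real.log (∑ x, W x * ∏ j, u (field a (G j) x))
          ∂(Measure.pi fun _ : Fin M => gauss ι) := by
  induction M with
  | zero => intro W _ _; simp [logPart]
  | succ M ih =>
    intro W hW hS
    simp only [List.replicate_succ, logPart]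
    have hbound : ∀ (n : ℕ) (G : Fin n → ι → ℝ) (W : X → ℝ), (∀ x, 0 ≤ W x) → 0 < ∑ x, W x →
        |Real.log (∑ x, W x * ∏ j, u (field a (G j) x)) - Real.log (∑ x, W x)| ≤ L * n := by
      intro n
      induction n with
      | zero => intro G W _ _; simp
      | succ n ihn =>
        intro G W hW hS
        simp only [Fin.prod_univ_succ, ← mul_assoc]
        obtain ⟨hp, hd⟩ := abs_log_step hu hW hS (fun x => field a (G 0) x)
        have := ihn (fun j => G j.succ) (fun x => W x * u (field a (G 0) x))
          (fun x => mul_nonneg (hW x) (hu.pos _).le) hp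
        refine (abs_sub_le _ (Real.log (∑ x, W x * u (field a (G 0) x))) _).trans ?_
        push_cast
        linarith
    have hmp := (measurePreserving_piFinSuccAbove (fun _ : Fin (M + 1) => gauss ι) 0).symm
    rw [← hmp.integral_comp' (fun G => Real.log (∑ x, W x * ∏ j, u (field a (G j) x)))]
    have hint : Integrable (fun p : (ι → ℝ) × (Fin M → ι → ℝ) =>
        Real.log (∑ x, W x * (u (field a p.1 x) * ∏ j, u (field a (p.2 j) x))))
        ((gauss ι).prod (Measure.pi fun _ : Fin M => gauss ι)) := by
      refine Integrable.of_bound ?_ (L * (M + 1 : ℕ) + |Real.log (∑ x, W x)|)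
        (.of_forall fun p => ?_)
      · refine (Real.measurable_log.comp (Finset.measurable_sum _ fun x _ =>
          measurable_const.mul (((hu.cont.comp (continuous_field a x)).measurable.comp
            measurable_fst).mul (Finset.measurable_prod _ fun j _ => ?_)))).aestronglyMeasurable
        exact (hu.cont.comp (continuous_field a x)).measurable.comp
          ((measurable_pi_apply j).comp measurable_snd)
      · have := hbound (M + 1) (Fin.cons p.1 p.2) W hW hS
        simp only [Fin.prod_univ_succ, Fin.cons_zero, Fin.cons_succ] at this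
        rw [Real.norm_eq_abs]
        have := abs_sub_abs_le_abs_sub
          (Real.log (∑ x, W x * (u (field a p.1 x) * ∏ j, u (field a (p.2 j) x))))
          (Real.log (∑ x, W x))
        linarith
    simp only [MeasurableEquiv.piFinSuccAbove_symm_apply, Fin.insertNthEquiv, Equiv.coe_fn_mk,
      Fin.insertNth_zero, Fin.prod_univ_succ, Fin.cons_zero, Fin.cons_succ]
    erw [integral_prod _ hint]
    refine integral_congr_ae (.of_forall fun g => ?_)
    simp only [ih (fun x => mul_nonneg (hW x) (hu.pos _).le) (abs_log_step hu hW hS _).1, mul_assoc]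

theorem exists_limit_pressure {ρ : Measure ℝ} [IsFiniteMeasure ρ] {c : ℝ}
    (hc : ρ.real Set.univ < c) {α : ℝ} (hα : 0 ≤ α) :
    ∃ L, Tendsto (fun N => pressure (fun z => Real.log (c - ∫ s, Real.cos (s * z) ∂ρ)) α N)
      atTop (𝓝 L) := by
  obtain ⟨L, hL⟩ := exists_limit_isingLog hc hα
  refine ⟨L, hL.congr fun N => ?_⟩
  have hu := weight_cosTransform hc
  unfold isingLog pressure
  rw [logPart_eq_pi hu _ _ (fun x => by unfold unifW; positivity) (by rw [sum_unifW]; norm_num)]
  congr 1
  refine integral_congr_ae (.of_forall fun G => ?_)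
  simp only [mul_sum]
  congr 1
  refine sum_congr rfl fun x _ => ?_
  simp only [Real.exp_sum, unifW]
  congr 1
  refine prod_congr rfl fun j _ => ?_
  have hf : field (isingCoef N) (G j) x =
      (∑ i, G j i * (if x i then (1 : ℝ) else -1)) / Real.sqrt N := by
    simp only [field, isingCoef, spin, sum_div, mul_div_assoc]
  rw [hf]
  exact (Real.exp_log (hu.pos _)).symm

end Vale.Agent.P157
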