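import Vale.Agent.P157.Moments

/-!
Polar decomposition of the standard Gaussian vector and the uniform measure on the unit sphere.
-/

namespace Vale.Agent.P157

open MeasureTheory ProbabilityTheory Finset Real
open scoped ENNReal

variable {ι : Type} [Fintype ι]

/-- Squared Euclidean length of a coordinate vector. -/
def normSqF (ξ : ι → ℝ) : ℝ := ∑ i, ξ i ^ 2

/-- The direction of a coordinate vector. -/
noncomputable def udir (ξ : ι → ℝ) : ι → ℝ := fun i => ξ i / Real.sqrt (normSqF ξ)

lemma normSqF_nonneg (ξ : ι → ℝ) : 0 ≤ normSqF ξ := sum_nonneg fun i _ => sq_nonneg _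

lemma measurable_normSqF : Measurable (normSqF : (ι → ℝ) → ℝ) := by
  unfold normSqF; fun_prop

lemma measurable_udir : Measurable (udir : (ι → ℝ) → ι → ℝ) :=
  measurable_pi_lambda _ fun i =>
    (measurable_pi_apply i).div (Real.continuous_sqrt.measurable.comp measurable_normSqF)

/-- The coordinates of a point of the unit sphere. -/
def sphereCoord (ι : Type) [Fintype ι] (u : Metric.sphere (0 : EuclideanSpace ℝ ι) 1) : ι → ℝ :=
  fun i => (u : EuclideanSpace ℝ ι) i

lemma measurable_sphereCoord : Measurable (sphereCoord ι) :=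
  measurable_pi_lambda _ fun i =>
    ((by fun_prop : Measurable fun y : EuclideanSpace ℝ ι => y i)).comp measurable_subtype_coe

/-- The normalised surface measure on the unit sphere, in coordinates. -/
noncomputable def unitUnif (ι : Type) [Fintype ι] : Measure (ι → ℝ) :=
  ((volume : Measure (EuclideanSpace ℝ ι)).toSphere Set.univ)⁻¹ •
    (volume : Measure (EuclideanSpace ℝ ι)).toSphere.map (sphereCoord ι)

instance [Nonempty ι] : IsProbabilityMeasure (unitUnif ι) := by
  refine ⟨?_⟩
  rw [unitUnif, Measure.smul_apply, Measure.map_apply measurable_sphereCoord .univ,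
    Set.preimage_univ, smul_eq_mul, ENNReal.inv_mul_cancel ?_ (measure_ne_top _ _)]
  rw [Ne, Measure.measure_univ_eq_zero]
  exact Measure.toSphere_ne_zero _

lemma gauss_eq_withDensity : gauss ι =
    (volume : Measure (ι → ℝ)).withDensity
      (fun ξ => ENNReal.ofReal (∏ i, gaussianPDFReal 0 1 (ξ i))) := by
  unfold gauss
  refine Measure.pi_eq fun s hs => ?_
  have hsm : MeasurableSet (Set.univ.pi s) := MeasurableSet.univ_pi hs
  rw [withDensity_apply _ hsm, volume_pi]
  have hint : Integrable (fun ξ : ι → ℝ => ∏ i, gaussianPDFReal 0 1 (ξ i))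
      (Measure.pi fun _ : ι => (volume : Measure ℝ)) :=
    Integrable.fintype_prod fun _ => integrable_gaussianPDFReal 0 1
  rw [← ofReal_integral_eq_lintegral_ofReal hint.integrableOn
    (.of_forall fun ξ => prod_nonneg fun i _ => gaussianPDFReal_nonneg 0 1 _),
    ← integral_indicator hsm]
  have hi : ∀ ξ : ι → ℝ, (Set.univ.pi s).indicator
      (fun ξ => ∏ i, gaussianPDFReal 0 1 (ξ i)) ξ =
      ∏ i, (s i).indicator (gaussianPDFReal 0 1) (ξ i) := by
    intro ξ
    by_cases h : ξ ∈ Set.univ.pi s
    · rw [Set.indicator_of_mem h]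
      exact prod_congr rfl fun i _ => (Set.indicator_of_mem (h i trivial) _).symm
    · rw [Set.indicator_of_notMem h]
      simp only [Set.mem_univ_pi, not_forall] at h
      obtain ⟨i, hi⟩ := h
      exact (prod_eq_zero (mem_univ i) (Set.indicator_of_notMem hi _)).symm
  simp only [hi]
  rw [integral_fintype_prod_eq_prod (fun i x => (s i).indicator (gaussianPDFReal 0 1) x),
    ENNReal.ofReal_prod_of_nonneg fun i _ => integral_nonneg fun x =>
      Set.indicator_nonneg (fun y _ => gaussianPDFReal_nonneg 0 1 y) x]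
  refine prod_congr rfl fun i _ => ?_
  rw [integral_indicator (hs i), gaussianReal_apply_eq_integral 0 one_ne_zero]

lemma prod_gaussianPDFReal (ξ : ι → ℝ) : ∏ i, gaussianPDFReal 0 1 (ξ i) =
    (Real.sqrt (2 * π))⁻¹ ^ Fintype.card ι * Real.exp (-(normSqF ξ) / 2) := by
  simp only [gaussianPDFReal, normSqF, NNReal.coe_one, mul_one, sub_zero, prod_mul_distrib,
    prod_const, card_univ, ← Real.exp_sum]
  congr 2
  simp only [neg_div, sum_neg_distrib, sum_div]

lemma lintegral_polar [Nonempty ι] {F : (ι → ℝ) × ℝ → ℝ≥0∞} (hF : Measurable F) :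
    ∫⁻ ξ, F (udir ξ, normSqF ξ) ∂gauss ι =
      ∫⁻ u, ∫⁻ r : Set.Ioi (0 : ℝ),
          ENNReal.ofReal ((Real.sqrt (2 * π))⁻¹ ^ Fintype.card ι * Real.exp (-((r : ℝ) ^ 2) / 2)) *
            F (sphereCoord ι u, (r : ℝ) ^ 2)
        ∂(Measure.volumeIoiPow (Module.finrank ℝ (EuclideanSpace ℝ ι) - 1))
        ∂(volume : Measure (EuclideanSpace ℝ ι)).toSphere := by
  set c := (Real.sqrt (2 * π))⁻¹ ^ Fintype.card ι
  let G : (ι → ℝ) → ℝ≥0∞ := fun ξ =>
    ENNReal.ofReal (c * Real.exp (-(normSqF ξ) / 2)) * F (udir ξ, normSqF ξ)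
  have hG : Measurable G := by
    refine Measurable.mul ?_ (hF.comp (measurable_udir.prodMk measurable_normSqF))
    exact (((measurable_normSqF.neg.div_const 2).exp).const_mul c).ennreal_ofReal
  let H : Metric.sphere (0 : EuclideanSpace ℝ ι) 1 × Set.Ioi (0 : ℝ) → ℝ≥0∞ := fun p =>
    ENNReal.ofReal (c * Real.exp (-((p.2 : ℝ) ^ 2) / 2)) *
      F (sphereCoord ι p.1, (p.2 : ℝ) ^ 2)
  have hHm : Measurable H := by
    refine Measurable.mul ?_ (hF.comp (Measurable.prodMk ?_ ?_))
    · exact (((((measurable_subtype_coe.comp measurable_snd).pow_const 2).neg.div_const 2).exp)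
        |>.const_mul c).ennreal_ofReal
    · exact measurable_sphereCoord.comp measurable_fst
    · exact (measurable_subtype_coe.comp measurable_snd).pow_const 2
  have e1 : ∫⁻ ξ, F (udir ξ, normSqF ξ) ∂gauss ι = ∫⁻ ξ, G ξ := by
    rw [gauss_eq_withDensity,
      lintegral_withDensity_eq_lintegral_mul _ (by fun_prop)
        (g := fun ξ => F (udir ξ, normSqF ξ))
        (hF.comp (measurable_udir.prodMk measurable_normSqF))]
    simp only [Pi.mul_apply, prod_gaussianPDFReal, G, c]
  have e2 : ∫⁻ ξ, G ξ = ∫⁻ x : EuclideanSpace ℝ ι, G (WithLp.ofLp x) :=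
    ((PiLp.volume_preserving_ofLp ι).lintegral_comp hG).symm
  have e3 : ∫⁻ x : EuclideanSpace ℝ ι, G (WithLp.ofLp x) =
      ∫⁻ p, H p ∂((volume : Measure (EuclideanSpace ℝ ι)).toSphere.prod
        (Measure.volumeIoiPow (Module.finrank ℝ (EuclideanSpace ℝ ι) - 1))) := by
    rw [← (volume : Measure (EuclideanSpace ℝ ι)).measurePreserving_homeomorphUnitSphereProd
        |>.lintegral_comp hHm,
      ← restrict_compl_singleton (μ := (volume : Measure (EuclideanSpace ℝ ι))) 0,
      ← lintegral_subtype_comap (measurableSet_singleton _).compl, restrict_compl_singleton]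
    refine lintegral_congr fun x => ?_
    have hsq : normSqF (WithLp.ofLp x.1) = ‖x.1‖ ^ 2 := by
      rw [EuclideanSpace.norm_sq_eq]
      simp [normSqF]
    have hu : udir (WithLp.ofLp x.1) =
        sphereCoord ι (homeomorphUnitSphereProd _ x).1 := by
      funext i
      simp [udir, sphereCoord, hsq, Real.sqrt_sq (norm_nonneg _), div_eq_inv_mul]
    simp only [G, H, hu, hsq, homeomorphUnitSphereProd_apply_snd_coe]
  rw [e1, e2, e3, lintegral_prod _ hHm.aemeasurable]

/-- The direction and the squared length of a Gaussian vector are independent, and the direction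
is uniform on the sphere. -/
theorem map_polar [Nonempty ι] :
    (gauss ι).map (fun ξ => (udir ξ, normSqF ξ)) =
      (unitUnif ι).prod ((gauss ι).map normSqF) := by
  set σ := (volume : Measure (EuclideanSpace ℝ ι)).toSphere with hσ
  set ν := Measure.volumeIoiPow (Module.finrank ℝ (EuclideanSpace ℝ ι) - 1)
  let d : Set.Ioi (0 : ℝ) → ℝ≥0∞ := fun r =>
    ENNReal.ofReal ((Real.sqrt (2 * π))⁻¹ ^ Fintype.card ι * Real.exp (-((r : ℝ) ^ 2) / 2))
  have h0 : σ Set.univ ≠ 0 := by
    rw [Ne, Measure.measure_univ_eq_zero]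
    exact Measure.toSphere_ne_zero _
  have ht : σ Set.univ ≠ ⊤ := measure_ne_top _ _
  have hco : Measurable (sphereCoord ι) := measurable_sphereCoord
  have hT : Measurable (fun ξ : ι → ℝ => (udir ξ, normSqF ξ)) :=
    measurable_udir.prodMk measurable_normSqF
  refine (Measure.prod_eq fun A B hA hB => ?_).symm
  have hind : ∀ (A : Set (ι → ℝ)) (B : Set ℝ), MeasurableSet A → MeasurableSet B →
      (gauss ι) ((fun ξ => (udir ξ, normSqF ξ)) ⁻¹' (A ×ˢ B)) =
        (σ.map (sphereCoord ι)) A *
          ∫⁻ r, d r * B.indicator 1 ((r : ℝ) ^ 2) ∂ν := by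
    intro A B hA hB
    rw [← lintegral_indicator_one (hT (hA.prod hB))]
    have hm : Measurable fun p : (ι → ℝ) × ℝ => A.indicator (1 : (ι → ℝ) → ℝ≥0∞) p.1 *
        B.indicator (1 : ℝ → ℝ≥0∞) p.2 :=
      ((measurable_const.indicator hA).comp measurable_fst).mul
        ((measurable_const.indicator hB).comp measurable_snd)
    have e : ∀ ξ : ι → ℝ, ((fun ξ => (udir ξ, normSqF ξ)) ⁻¹' (A ×ˢ B)).indicator
        (1 : (ι → ℝ) → ℝ≥0∞) ξ =
        A.indicator 1 (udir ξ) * B.indicator 1 (normSqF ξ) := by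
      intro ξ
      by_cases h1 : udir ξ ∈ A <;> by_cases h2 : normSqF ξ ∈ B <;> simp [h1, h2]
    simp only [e]
    rw [lintegral_polar hm, ← lintegral_indicator_one hA,
      lintegral_map (f := A.indicator 1) (measurable_one.indicator hA) hco]
    refine Eq.trans (lintegral_congr fun u => ?_)
      (lintegral_mul_const _ ((measurable_one.indicator hA).comp hco))
    rw [← lintegral_const_mul']
    · refine lintegral_congr fun r => ?_
      simp only [d]
      ring
    · by_cases h1 : sphereCoord ι u ∈ A <;> simp [h1]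
  have hone := hind Set.univ Set.univ .univ .univ
  rw [Set.univ_prod_univ, Set.preimage_univ, measure_univ, Measure.map_apply hco .univ,
    Set.preimage_univ] at hone
  have hB' := hind Set.univ B .univ hB
  rw [Set.univ_prod, Measure.map_apply hco .univ, Set.preimage_univ] at hB'
  rw [Measure.map_apply hT (hA.prod hB), hind A B hA hB, Measure.map_apply measurable_normSqF hB,
    show normSqF ⁻¹' B = (fun ξ : ι → ℝ => (udir ξ, normSqF ξ)) ⁻¹' (Prod.snd ⁻¹' B) from rfl,
    hB', unitUnif, Measure.smul_apply, smul_eq_mul]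
  rw [mul_mul_mul_comm, ← mul_assoc, ← hσ]
  calc (σ.map (sphereCoord ι)) A * _ =
        ((σ Set.univ)⁻¹ * σ Set.univ) * ((σ.map (sphereCoord ι)) A) *
          ∫⁻ r, d r * B.indicator 1 ((r : ℝ) ^ 2) ∂ν := by
        rw [ENNReal.inv_mul_cancel h0 ht, one_mul]
    _ = _ := by ring

theorem map_udir [Nonempty ι] : (gauss ι).map udir = unitUnif ι := by
  have h := map_polar (ι := ι)
  have : (gauss ι).map udir = ((gauss ι).map fun ξ => (udir ξ, normSqF ξ)).map Prod.fst := by
    rw [Measure.map_map measurable_fst (measurable_udir.prodMk measurable_normSqF)]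
    rfl
  have : IsProbabilityMeasure ((gauss ι).map (normSqF : (ι → ℝ) → ℝ)) :=
    Measure.isProbabilityMeasure_map measurable_normSqF.aemeasurable
  rw [‹(gauss ι).map udir = _›, h, ← Measure.fst, Measure.fst_prod]

end Vale.Agent.P157
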