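import Vale.Agent.P157.Pressure

/-!
Systems with a general law of configurations, approximated by systems with finitely many sampled
configurations.
-/

namespace Vale.Agent.P157

open MeasureTheory ProbabilityTheory Finset Filter Topology

variable {ι : Type} [Fintype ι] {u : ℝ → ℝ} {L : ℝ}

/-- The weight of a configuration `a` under the patterns `G`. -/
def phiW (u : ℝ → ℝ) {M : ℕ} (G : Fin M → ι → ℝ) (a : ι → ℝ) : ℝ :=
  ∏ j, u (∑ i, G j i * a i)

/-- The law of `M` patterns. -/
noncomputable def gaussM (ι : Type) [Fintype ι] (M : ℕ) : Measure (Fin M → ι → ℝ) :=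
  Measure.pi fun _ => gauss ι

instance (M : ℕ) : IsProbabilityMeasure (gaussM ι M) := by unfold gaussM; infer_instance

/-- The averaged log-partition function of a system whose configurations have law `π`. -/
noncomputable def contLog (u : ℝ → ℝ) (π : Measure (ι → ℝ)) (M : ℕ) : ℝ :=
  ∫ G, Real.log (∫ a, phiW u G a ∂π) ∂gaussM ι M

lemma phiW_bounds (hu : Weight u L) {M : ℕ} (G : Fin M → ι → ℝ) (a : ι → ℝ) :
    Real.exp (-(L * M)) ≤ phiW u G a ∧ phiW u G a ≤ Real.exp (L * M) := by
  have h1 : Real.exp (-(L * M)) = ∏ _j : Fin M, Real.exp (-L) := by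
    rw [prod_const, card_univ, Fintype.card_fin, ← Real.exp_nat_mul]; ring_nf
  have h2 : Real.exp (L * M) = ∏ _j : Fin M, Real.exp L := by
    rw [prod_const, card_univ, Fintype.card_fin, ← Real.exp_nat_mul]; ring_nf
  rw [h1, h2]
  exact ⟨prod_le_prod (fun j _ => (Real.exp_pos _).le) fun j _ => (hu.le_exp _).1,
    prod_le_prod (fun j _ => (hu.pos _).le) fun j _ => (hu.le_exp _).2⟩

lemma continuous_phiW (hu : Weight u L) (M : ℕ) :
    Continuous fun p : (Fin M → ι → ℝ) × (ι → ℝ) => phiW u p.1 p.2 :=
  continuous_finsetProd _ fun j _ => hu.cont.comp (by fun_prop)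

lemma integrable_phiW (hu : Weight u L) {M : ℕ} (G : Fin M → ι → ℝ) (π : Measure (ι → ℝ))
    [IsFiniteMeasure π] : Integrable (phiW u G) π :=
  Integrable.of_bound
    ((continuous_phiW hu M).comp (continuous_const.prodMk continuous_id)).aestronglyMeasurable
    (Real.exp (L * M)) (.of_forall fun a => by
      rw [Real.norm_eq_abs, abs_of_pos (lt_of_lt_of_le (Real.exp_pos _) (phiW_bounds hu G a).1)]
      exact (phiW_bounds hu G a).2)

lemma integral_phiW_bounds (hu : Weight u L) {M : ℕ} (G : Fin M → ι → ℝ) (π : Measure (ι → ℝ))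
    [IsProbabilityMeasure π] :
    Real.exp (-(L * M)) ≤ ∫ a, phiW u G a ∂π ∧ ∫ a, phiW u G a ∂π ≤ Real.exp (L * M) := by
  constructor
  · simpa using integral_mono (integrable_const _) (integrable_phiW hu G π)
      fun a => (phiW_bounds hu G a).1
  · simpa using integral_mono (integrable_phiW hu G π) (integrable_const _)
      fun a => (phiW_bounds hu G a).2

lemma abs_log_le_of_bounds {L' x : ℝ} (h1 : Real.exp (-L') ≤ x) (h2 : x ≤ Real.exp L') :
    |Real.log x| ≤ L' := by
  have hx : 0 < x := lt_of_lt_of_le (Real.exp_pos _) h1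
  rw [abs_le]
  exact ⟨(Real.le_log_iff_exp_le hx).2 h1, (Real.log_le_iff_le_exp hx).2 h2⟩

lemma abs_log_sub_log_le {L' x y : ℝ} (hx : Real.exp (-L') ≤ x) (hy : Real.exp (-L') ≤ y) :
    |Real.log x - Real.log y| ≤ Real.exp L' * |x - y| := by
  have key : ∀ x y : ℝ, Real.exp (-L') ≤ x → Real.exp (-L') ≤ y →
      Real.log x - Real.log y ≤ Real.exp L' * |x - y| := by
    intro x y hx hy
    have hx0 : 0 < x := lt_of_lt_of_le (Real.exp_pos _) hx
    have hy0 : 0 < y := lt_of_lt_of_le (Real.exp_pos _) hy
    rw [← Real.log_div hx0.ne' hy0.ne']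
    refine (Real.log_le_sub_one_of_pos (div_pos hx0 hy0)).trans ?_
    rw [div_sub_one hy0.ne', div_le_iff₀ hy0]
    have h1 : 1 ≤ Real.exp L' * y := by
      have := mul_le_mul_of_nonneg_left hy (Real.exp_pos L').le
      rwa [← Real.exp_add, add_neg_cancel, Real.exp_zero] at this
    have := mul_le_mul_of_nonneg_right h1 (abs_nonneg (x - y))
    have := le_abs_self (x - y)
    linarith
  rw [abs_sub_le_iff]
  exact ⟨key x y hx hy, by rw [abs_sub_comm x y]; exact key y x hy hx⟩

lemma measurable_logIntegral (hu : Weight u L) (π : Measure (ι → ℝ)) [IsFiniteMeasure π] (M : ℕ) :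
    Measurable fun G : Fin M → ι → ℝ => Real.log (∫ a, phiW u G a ∂π) :=
  Real.measurable_log.comp
    (continuous_phiW hu M).measurable.stronglyMeasurable.integral_prod_right'.measurable

lemma integrable_logIntegral (hu : Weight u L) (π : Measure (ι → ℝ)) [IsProbabilityMeasure π]
    (M : ℕ) : Integrable (fun G => Real.log (∫ a, phiW u G a ∂π)) (gaussM ι M) :=
  Integrable.of_bound (measurable_logIntegral hu π M).aestronglyMeasurable (L * M)
    (.of_forall fun G => by
      rw [Real.norm_eq_abs]
      exact abs_log_le_of_bounds (integral_phiW_bounds hu G π).1 (integral_phiW_bounds hu G π).2)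

lemma abs_contLog_le (hu : Weight u L) (π : Measure (ι → ℝ)) [IsProbabilityMeasure π] (M : ℕ) :
    |contLog u π M| ≤ L * M := by
  have := norm_integral_le_of_norm_le_const (μ := gaussM ι M) (C := L * M)
    (f := fun G => Real.log (∫ a, phiW u G a ∂π)) (.of_forall fun G => by
      rw [Real.norm_eq_abs]
      exact abs_log_le_of_bounds (integral_phiW_bounds hu G π).1 (integral_phiW_bounds hu G π).2)
  simpa [contLog] using this

/-- Comparison with a random finite system. -/
lemma abs_sampled_sub_contLog (hu : Weight u L) {S X : Type} [MeasurableSpace S] [Fintype X]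
    (P : Measure S) [IsProbabilityMeasure P] (A : S → X → ι → ℝ) (hA : Measurable A)
    {W : X → ℝ} (hW : ∀ x, 0 ≤ W x) (hW1 : ∑ x, W x = 1)
    (π : Measure (ι → ℝ)) [IsProbabilityMeasure π] (M : ℕ) {ε : ℝ}
    (h : ∀ G : Fin M → ι → ℝ,
      ∫ s, |∑ x, W x * phiW u G (A s x) - ∫ a, phiW u G a ∂π| ∂P ≤ ε) :
    |∫ s, logPart u (List.replicate M (A s)) W ∂P - contLog u π M| ≤ Real.exp (L * M) * ε := by
  let Fs : S → (Fin M → ι → ℝ) → ℝ := fun s G => Real.log (∑ x, W x * phiW u G (A s x))
  have hlp : ∀ s, logPart u (List.replicate M (A s)) W = ∫ G, Fs s G ∂gaussM ι M := fun s =>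
    logPart_eq_pi hu (A s) M hW (by rw [hW1]; norm_num)
  have hsum : ∀ (s : S) (G : Fin M → ι → ℝ), Real.exp (-(L * M)) ≤ ∑ x, W x * phiW u G (A s x) ∧
      ∑ x, W x * phiW u G (A s x) ≤ Real.exp (L * M) := by
    intro s G
    constructor
    · calc Real.exp (-(L * M)) = ∑ x, W x * Real.exp (-(L * M)) := by
            rw [← sum_mul, hW1, one_mul]
        _ ≤ _ := sum_le_sum fun x _ => mul_le_mul_of_nonneg_left (phiW_bounds hu G _).1 (hW x)
    · calc _ ≤ ∑ x, W x * Real.exp (L * M) :=
            sum_le_sum fun x _ => mul_le_mul_of_nonneg_left (phiW_bounds hu G _).2 (hW x)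
        _ = _ := by rw [← sum_mul, hW1, one_mul]
  have hmS : Measurable fun p : S × (Fin M → ι → ℝ) => ∑ x, W x * phiW u p.2 (A p.1 x) :=
    Finset.measurable_sum _ fun x _ => measurable_const.mul
      ((continuous_phiW hu M).measurable.comp
        (measurable_snd.prodMk ((measurable_pi_apply x).comp (hA.comp measurable_fst))))
  have hmF : Measurable (Function.uncurry Fs) := Real.measurable_log.comp hmS
  have hiF : Integrable (Function.uncurry Fs) (P.prod (gaussM ι M)) :=
    Integrable.of_bound hmF.aestronglyMeasurable (L * M) (.of_forall fun p => by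
      rw [Real.norm_eq_abs]
      exact abs_log_le_of_bounds (hsum p.1 p.2).1 (hsum p.1 p.2).2)
  simp only [hlp]
  have hir : Integrable (fun G => ∫ s, Fs s G ∂P) (gaussM ι M) := hiF.integral_prod_right
  rw [integral_integral_swap hiF, contLog,
    ← integral_sub hir (integrable_logIntegral hu π M)]
  refine le_trans (le_of_eq (Real.norm_eq_abs _).symm) ?_
  refine (norm_integral_le_of_norm_le_const (C := Real.exp (L * M) * ε)
    (.of_forall fun G => ?_)).trans (by simp)
  have hiG : Integrable (fun s => ∑ x, W x * phiW u G (A s x)) P :=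
    Integrable.of_bound (hmS.comp (measurable_id.prodMk measurable_const)).aestronglyMeasurable
      (Real.exp (L * M)) (.of_forall fun s => by
        rw [Real.norm_eq_abs, abs_of_pos (lt_of_lt_of_le (Real.exp_pos _) (hsum s G).1)]
        exact (hsum s G).2)
  have hiL : Integrable (fun s => Fs s G) P :=
    Integrable.of_bound (hmF.comp (measurable_id.prodMk measurable_const)).aestronglyMeasurable
      (L * M) (.of_forall fun s => by
        rw [Real.norm_eq_abs]
        exact abs_log_le_of_bounds (hsum s G).1 (hsum s G).2)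
  have e : ∫ s, Fs s G ∂P - Real.log (∫ a, phiW u G a ∂π) =
      ∫ s, (Fs s G - Real.log (∫ a, phiW u G a ∂π)) ∂P := by
    rw [integral_sub hiL (integrable_const _)]
    simp
  rw [e]
  refine (norm_integral_le_integral_norm _).trans ?_
  refine (integral_mono (hiL.sub (integrable_const _)).norm
    ((hiG.sub (integrable_const (∫ a, phiW u G a ∂π))).norm.const_mul (Real.exp (L * M)))
    fun s => ?_).trans ?_
  · simp only [Real.norm_eq_abs, Pi.sub_apply, Fs]
    exact abs_log_sub_log_le (hsum s G).1 (integral_phiW_bounds hu G π).1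
  · simp only [Real.norm_eq_abs, Pi.sub_apply, integral_const_mul]
    exact mul_le_mul_of_nonneg_left (h G) (Real.exp_pos _).le

lemma integral_abs_average_le {α : Type} [MeasurableSpace α] (π : Measure α)
    [IsProbabilityMeasure π] {f : α → ℝ} (hf : Measurable f) {B : ℝ} (hB : 0 < B)
    (hfB : ∀ a, |f a| ≤ B) {K : ℕ} (hK : 0 < K) :
    ∫ s, |(K : ℝ)⁻¹ * ∑ k, f (s k) - ∫ a, f a ∂π| ∂(Measure.pi fun _ : Fin K => π) ≤
      B / Real.sqrt K := by
  set P := Measure.pi fun _ : Fin K => π
  set Y : (Fin K → α) → ℝ := fun s => (K : ℝ)⁻¹ * ∑ k, f (s k) - ∫ a, f a ∂π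
  have hK0 : (0 : ℝ) < K := by exact_mod_cast hK
  have hmem : ∀ k : Fin K, MemLp f 2 π := fun _ =>
    MemLp.of_bound hf.aestronglyMeasurable B (.of_forall fun a => by
      rw [Real.norm_eq_abs]; exact hfB a)
  have hfi : Integrable f π := (hmem ⟨0, hK⟩).integrable (by norm_num)
  have hfik : ∀ k : Fin K, Integrable (fun s : Fin K → α => f (s k)) P := fun k =>
    (measurePreserving_eval (fun _ : Fin K => π) k).integrable_comp_of_integrable hfi
  have hm : Measurable fun s : Fin K → α => ∑ k, f (s k) :=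
    Finset.measurable_sum _ fun k _ => hf.comp (measurable_pi_apply k)
  have hmean : ∫ s, ∑ k, f (s k) ∂P = (K : ℝ) * ∫ a, f a ∂π := by
    rw [integral_finsetSum _ fun k _ => hfik k]
    have : ∀ k : Fin K, ∫ s, f (s k) ∂P = ∫ a, f a ∂π := fun k =>
      integral_comp_eval hf.aestronglyMeasurable
    simp [this]
  have hvar : ∫ s, Y s ^ 2 ∂P = (K : ℝ)⁻¹ * variance f π := by
    have hv : variance (∑ k, fun s : Fin K → α => f (s k)) P = (K : ℝ) * variance f π := by
      rw [variance_sum_pi (X := fun _ => f) hmem]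
      simp
    have hcongr : (∑ k, fun s : Fin K → α => f (s k)) = fun s => ∑ k, f (s k) := by
      funext s; simp
    rw [hcongr, variance_eq_integral hm.aemeasurable, hmean] at hv
    calc ∫ s, Y s ^ 2 ∂P = ∫ s, ((K : ℝ)⁻¹) ^ 2 *
          (∑ k, f (s k) - (K : ℝ) * ∫ a, f a ∂π) ^ 2 ∂P := by
          refine integral_congr_ae (.of_forall fun s => ?_)
          simp only [Y]
          field_simp
      _ = ((K : ℝ)⁻¹) ^ 2 * ((K : ℝ) * variance f π) := by rw [integral_const_mul, hv]
      _ = _ := by field_simp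
  have hvle : variance f π ≤ B ^ 2 := by
    refine (variance_le_expectation_sq hf.aestronglyMeasurable).trans ?_
    refine (integral_mono_of_nonneg (.of_forall fun a => sq_nonneg _) (integrable_const (B ^ 2))
      (.of_forall fun a => ?_)).trans (le_of_eq (by simp))
    exact sq_le_sq' (abs_le.1 (hfB a)).1 (abs_le.1 (hfB a)).2
  set c := B / Real.sqrt K
  have hc : 0 < c := div_pos hB (Real.sqrt_pos.2 hK0)
  have hYb : ∀ s, |Y s| ≤ 2 * B := by
    intro s
    have h1 : |(K : ℝ)⁻¹ * ∑ k, f (s k)| ≤ B := by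
      rw [abs_mul, abs_inv, abs_of_pos hK0, inv_mul_le_iff₀ hK0]
      refine (abs_sum_le_sum_abs _ _).trans ((sum_le_sum fun k _ => hfB (s k)).trans ?_)
      simp
    have h2 : |∫ a, f a ∂π| ≤ B := by
      have := norm_integral_le_of_norm_le_const (μ := π) (f := f) (C := B)
        (.of_forall fun a => by rw [Real.norm_eq_abs]; exact hfB a)
      simpa using this
    exact (abs_sub _ _).trans (by linarith)
  have hYm : Measurable Y := (measurable_const.mul hm).sub measurable_const
  have hiY : Integrable (fun s => |Y s|) P :=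
    Integrable.of_bound hYm.abs.aestronglyMeasurable (2 * B) (.of_forall fun s => by
      rw [Real.norm_eq_abs, abs_abs]; exact hYb s)
  have hiY2 : Integrable (fun s => Y s ^ 2) P :=
    Integrable.of_bound (hYm.pow_const 2).aestronglyMeasurable ((2 * B) ^ 2)
      (.of_forall fun s => by
        rw [Real.norm_eq_abs, abs_pow]
        exact pow_le_pow_left₀ (abs_nonneg _) (hYb s) 2)
  calc ∫ s, |Y s| ∂P ≤ ∫ s, (c / 2 + Y s ^ 2 / (2 * c)) ∂P := by
        refine integral_mono hiY ((integrable_const _).add (hiY2.div_const _)) fun s => ?_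
        rw [div_add_div _ _ (by norm_num) (by positivity), le_div_iff₀ (by positivity)]
        nlinarith [sq_nonneg (|Y s| - c), sq_abs (Y s)]
    _ = c / 2 + (K : ℝ)⁻¹ * variance f π / (2 * c) := by
        rw [integral_add (integrable_const _) (hiY2.div_const _), integral_const, integral_div (2 * c), hvar]
        simp
    _ ≤ c / 2 + (K : ℝ)⁻¹ * B ^ 2 / (2 * c) := by gcongr
    _ = c := by
        have hsq : Real.sqrt K * Real.sqrt K = K := Real.mul_self_sqrt hK0.le
        simp only [c]
        field_simp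
        nlinarith [hsq]

/-- Sampling one system. -/
lemma abs_sample_one (hu : Weight u L) (π : Measure (ι → ℝ)) [IsProbabilityMeasure π] (M : ℕ)
    {K : ℕ} (hK : 0 < K) :
    |∫ s, logPart u (List.replicate M (fun k => s k)) (fun _ : Fin K => (K : ℝ)⁻¹)
        ∂(Measure.pi fun _ : Fin K => π) - contLog u π M| ≤
      Real.exp (L * M) * (Real.exp (L * M) / Real.sqrt K) := by
  refine abs_sampled_sub_contLog hu _ (fun (s : Fin K → ι → ℝ) k => s k) (measurable_pi_lambda _
    fun k => measurable_pi_apply k) (W := fun _ : Fin K => (K : ℝ)⁻¹) (fun _ => by positivity)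
    (by simp; field_simp) π M fun G => ?_
  rw [show (fun s : Fin K → ι → ℝ => |∑ k, (K : ℝ)⁻¹ * phiW u G (s k) - ∫ a, phiW u G a ∂π|) =
    fun s => |(K : ℝ)⁻¹ * ∑ k, phiW u G (s k) - ∫ a, phiW u G a ∂π| by
      funext s; rw [mul_sum]]
  exact integral_abs_average_le π
    ((continuous_phiW hu M).comp (continuous_const.prodMk continuous_id)).measurable
    (Real.exp_pos _) (fun a => by
      change |phiW u G a| ≤ _
      rw [abs_of_pos (lt_of_lt_of_le (Real.exp_pos _) (phiW_bounds hu G a).1)]
      exact (phiW_bounds hu G a).2) hK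

/-- Sampling a product of two systems. -/
lemma abs_sample_two (hu : Weight u L) {α β : Type} [MeasurableSpace α] [MeasurableSpace β]
    (π₁ : Measure α) [IsProbabilityMeasure π₁] (π₂ : Measure β) [IsProbabilityMeasure π₂]
    (J : α × β → ι → ℝ) (hJ : Measurable J) (M : ℕ) {K : ℕ} (hK : 0 < K) :
    |∫ p, logPart u (List.replicate M (fun x : Fin K × Fin K => J (p.1 x.1, p.2 x.2)))
        (fun _ => (K : ℝ)⁻¹ * (K : ℝ)⁻¹)
        ∂((Measure.pi fun _ : Fin K => π₁).prod (Measure.pi fun _ : Fin K => π₂)) -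
        contLog u ((π₁.prod π₂).map J) M| ≤
      Real.exp (L * M) * (2 * (Real.exp (L * M) / Real.sqrt K)) := by
  have : IsProbabilityMeasure ((π₁.prod π₂).map J) :=
    Measure.isProbabilityMeasure_map hJ.aemeasurable
  set P₁ := Measure.pi fun _ : Fin K => π₁
  set P₂ := Measure.pi fun _ : Fin K => π₂
  refine abs_sampled_sub_contLog hu _ _ (measurable_pi_lambda _ fun x =>
    hJ.comp (((measurable_pi_apply x.1).comp measurable_fst).prodMk
      ((measurable_pi_apply x.2).comp measurable_snd))) (fun _ => by positivity)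
    (by simp; field_simp) _ M fun G => ?_
  set B := Real.exp (L * M) with hBdef
  set F : α × β → ℝ := fun p => phiW u G (J p) with hFdef
  have hFm : Measurable F :=
    ((continuous_phiW hu M).comp (continuous_const.prodMk continuous_id)).measurable.comp hJ
  have hFb : ∀ p, |F p| ≤ B := fun p => by
    rw [hFdef, abs_of_pos (lt_of_lt_of_le (Real.exp_pos _) (phiW_bounds hu G (J p)).1)]
    exact (phiW_bounds hu G (J p)).2
  set ψ : α → ℝ := fun a => ∫ b, F (a, b) ∂π₂ with hψdef
  have hψm : Measurable ψ := hFm.stronglyMeasurable.integral_prod_right'.measurable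
  have hψb : ∀ a, |ψ a| ≤ B := fun a => by
    have := norm_integral_le_of_norm_le_const (μ := π₂) (f := fun b => F (a, b)) (C := B)
      (.of_forall fun b => by rw [Real.norm_eq_abs]; exact hFb _)
    simpa using this
  have hm0 : ∫ a, phiW u G a ∂((π₁.prod π₂).map J) = ∫ a, ψ a ∂π₁ := by
    rw [integral_map (f := phiW u G) hJ.aemeasurable ((continuous_phiW hu M).comp
      (continuous_const.prodMk continuous_id)).aestronglyMeasurable]
    exact integral_prod F (Integrable.of_bound hFm.aestronglyMeasurable B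
      (.of_forall fun p => by rw [Real.norm_eq_abs]; exact hFb p))
  rw [hm0]
  set κ := (K : ℝ)⁻¹ with hκ
  have hκ0 : 0 ≤ κ := by positivity
  let T₁ : (Fin K → α) × (Fin K → β) → ℝ := fun p =>
    κ * ∑ k, |κ * ∑ l, F (p.1 k, p.2 l) - ψ (p.1 k)|
  let T₂ : (Fin K → α) × (Fin K → β) → ℝ := fun p => |κ * ∑ k, ψ (p.1 k) - ∫ a, ψ a ∂π₁|
  have hbd : ∀ (n : Fin K → ℝ), (∀ k, |n k| ≤ B) → |κ * ∑ k, n k| ≤ B := by
    intro n hn
    have hK0 : (0 : ℝ) < K := by exact_mod_cast hK
    rw [abs_mul, hκ, abs_inv, abs_of_pos hK0, inv_mul_le_iff₀ hK0]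
    refine (abs_sum_le_sum_abs _ _).trans ((sum_le_sum fun k _ => hn k).trans ?_)
    simp
  have hT₁m : Measurable T₁ := by
    refine measurable_const.mul (Finset.measurable_sum _ fun k _ => ((measurable_const.mul
      (Finset.measurable_sum _ fun l _ => hFm.comp (((measurable_pi_apply k).comp
        measurable_fst).prodMk ((measurable_pi_apply l).comp measurable_snd)))).sub
      (hψm.comp ((measurable_pi_apply k).comp measurable_fst))).abs)
  have hi₁ : Integrable T₁ (P₁.prod P₂) := by
    refine Integrable.of_bound hT₁m.aestronglyMeasurable (2 * B) (.of_forall fun p => ?_)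
    rw [Real.norm_eq_abs]
    simp only [T₁]
    have hK0 : (0 : ℝ) < K := by exact_mod_cast hK
    rw [abs_mul, hκ, abs_inv, abs_of_pos hK0, inv_mul_le_iff₀ hK0,
      abs_of_nonneg (sum_nonneg fun k _ => abs_nonneg _)]
    refine (sum_le_sum fun k _ => (abs_sub _ _).trans
      (add_le_add (hbd _ fun l => hFb _) (hψb _))).trans ?_
    simp; ring_nf; rfl
  have hT₂m : Measurable T₂ :=
    ((measurable_const.mul (Finset.measurable_sum _ fun k _ => hψm.comp
      ((measurable_pi_apply k).comp measurable_fst))).sub measurable_const).abs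
  have hi₂ : Integrable T₂ (P₁.prod P₂) := by
    refine Integrable.of_bound hT₂m.aestronglyMeasurable (2 * B) (.of_forall fun p => ?_)
    rw [Real.norm_eq_abs, abs_abs]
    refine (abs_sub _ _).trans ?_
    have h2 : |∫ a, ψ a ∂π₁| ≤ B := by
      have := norm_integral_le_of_norm_le_const (μ := π₁) (f := ψ) (C := B)
        (.of_forall fun a => by rw [Real.norm_eq_abs]; exact hψb a)
      simpa using this
    have := hbd (fun k => ψ (p.1 k)) fun k => hψb _
    linarith
  refine (integral_mono_of_nonneg (.of_forall fun p => abs_nonneg _) (hi₁.add hi₂)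
    (.of_forall fun p => ?_)).trans ?_
  · simp only [Pi.add_apply, T₁, T₂]
    have e : ∑ x : Fin K × Fin K, κ * κ * F (p.1 x.1, p.2 x.2) - ∫ a, ψ a ∂π₁ =
        κ * ∑ k, (κ * ∑ l, F (p.1 k, p.2 l) - ψ (p.1 k)) +
          (κ * ∑ k, ψ (p.1 k) - ∫ a, ψ a ∂π₁) := by
      rw [Fintype.sum_prod_type, sum_sub_distrib, mul_sub, mul_sum (a := κ) (f := fun k => κ * ∑ l, F (p.1 k, p.2 l))]
      simp only [mul_sum, mul_assoc]
      ring
    change |∑ x : Fin K × Fin K, κ * κ * F (p.1 x.1, p.2 x.2) - _| ≤ _
    rw [e]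
    refine (abs_add_le _ _).trans (add_le_add ?_ le_rfl)
    rw [abs_mul, abs_of_nonneg hκ0]
    exact mul_le_mul_of_nonneg_left (abs_sum_le_sum_abs _ _) hκ0
  · simp only [Pi.add_apply]
    rw [integral_add hi₁ hi₂, two_mul]
    refine add_le_add ?_ ?_
    · rw [integral_prod _ hi₁]
      refine (integral_mono hi₁.integral_prod_left (integrable_const (B / Real.sqrt K))
        fun s => ?_).trans (le_of_eq (by simp))
      simp only [T₁]
      have hk : ∀ k, Integrable (fun t : Fin K → β => |κ * ∑ l, F (s k, t l) - ψ (s k)|) P₂ := by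
        intro k
        refine Integrable.of_bound ((measurable_const.mul (Finset.measurable_sum _ fun l _ =>
          hFm.comp (measurable_const.prodMk (measurable_pi_apply l)))).sub
            measurable_const).abs.aestronglyMeasurable (2 * B) (.of_forall fun t => ?_)
        rw [Real.norm_eq_abs, abs_abs]
        have h1 : |κ * ∑ l, F (s k, t l)| ≤ B := hbd (fun l => F (s k, t l)) (fun l => hFb _)
        have h2 : |ψ (s k)| ≤ B := hψb (s k)
        exact (abs_sub _ _).trans (by linarith)
      rw [integral_const_mul, integral_finsetSum _ fun k _ => hk k, hκ,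
        inv_mul_le_iff₀ (by exact_mod_cast hK)]
      refine (sum_le_sum fun k _ => integral_abs_average_le π₂
        (hFm.comp (measurable_const.prodMk measurable_id)) (Real.exp_pos _)
        (fun b => hFb _) hK).trans (le_of_eq ?_)
      simp [hBdef]
    · simp only [T₂]
      rw [integral_fun_fst (fun s : Fin K → α => |κ * ∑ k, ψ (s k) - ∫ a, ψ a ∂π₁|)]
      simpa using integral_abs_average_le π₁ hψm (Real.exp_pos _) hψb hK

end Vale.Agent.P157
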