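import Vale.Agent.P157.Polar
import Vale.Agent.P157.Sample

/-!
The spherical perceptron: approximate superadditivity of the averaged log-partition function and
existence of the limit of the pressure.
-/

namespace Vale.Agent.P157

open MeasureTheory ProbabilityTheory Finset Filter Topology

variable {ι₁ ι₂ : Type} [Fintype ι₁] [Fintype ι₂]

/-- A configuration on two blocks from directions in the blocks and the share of the first. -/
noncomputable def joinBlocks (β : ℝ) (p : (ι₁ → ℝ) × (ι₂ → ℝ)) : ι₁ ⊕ ι₂ → ℝ :=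
  Sum.elim (fun i => Real.sqrt β * p.1 i) (fun i => Real.sqrt (1 - β) * p.2 i)

omit [Fintype ι₁] [Fintype ι₂] in
lemma measurable_joinBlocks :
    Measurable fun q : ℝ × ((ι₁ → ℝ) × (ι₂ → ℝ)) => joinBlocks q.1 q.2 := by
  refine measurable_pi_lambda _ fun i => ?_
  cases i with
  | inl i =>
    exact (Real.continuous_sqrt.measurable.comp measurable_fst).mul
      ((measurable_pi_apply i).comp (measurable_fst.comp measurable_snd))
  | inr i =>
    exact (Real.continuous_sqrt.measurable.comp (measurable_const.sub measurable_fst)).mul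
      ((measurable_pi_apply i).comp (measurable_snd.comp measurable_snd))

omit [Fintype ι₁] [Fintype ι₂] in
lemma measurable_joinBlocks' (β : ℝ) :
    Measurable (joinBlocks β : (ι₁ → ℝ) × (ι₂ → ℝ) → ι₁ ⊕ ι₂ → ℝ) :=
  measurable_joinBlocks.comp (measurable_const.prodMk measurable_id)

lemma udir_sum (ξ₁ : ι₁ → ℝ) (ξ₂ : ι₂ → ℝ) :
    udir (Sum.elim ξ₁ ξ₂) =
      joinBlocks (normSqF ξ₁ / (normSqF ξ₁ + normSqF ξ₂)) (udir ξ₁, udir ξ₂) := by
  have h1 := normSqF_nonneg ξ₁
  have h2 := normSqF_nonneg ξ₂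
  have hS : normSqF (Sum.elim ξ₁ ξ₂) = normSqF ξ₁ + normSqF ξ₂ := by
    simp [normSqF, Fintype.sum_sum_type]
  funext i
  cases i with
  | inl i =>
    simp only [udir, joinBlocks, Sum.elim_inl, hS]
    rcases eq_or_ne (normSqF ξ₁) 0 with h0 | h0
    · have : ξ₁ i = 0 := by
        have := (sum_eq_zero_iff_of_nonneg fun j _ => sq_nonneg (ξ₁ j)).1 h0 i (mem_univ i)
        simpa using this
      simp [this]
    · have hp : 0 < normSqF ξ₁ := h1.lt_of_ne' h0
      rw [Real.sqrt_div h1]
      have := Real.sqrt_pos.2 hp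
      have := Real.sqrt_pos.2 (show 0 < normSqF ξ₁ + normSqF ξ₂ by linarith)
      field_simp
  | inr i =>
    simp only [udir, joinBlocks, Sum.elim_inr, hS]
    rcases eq_or_ne (normSqF ξ₂) 0 with h0 | h0
    · have : ξ₂ i = 0 := by
        have := (sum_eq_zero_iff_of_nonneg fun j _ => sq_nonneg (ξ₂ j)).1 h0 i (mem_univ i)
        simpa using this
      simp [this]
    · have hp : 0 < normSqF ξ₂ := h2.lt_of_ne' h0
      have hs : 0 < normSqF ξ₁ + normSqF ξ₂ := by linarith
      rw [one_sub_div hs.ne', add_sub_cancel_left, Real.sqrt_div h2]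
      have := Real.sqrt_pos.2 hp
      have := Real.sqrt_pos.2 hs
      field_simp

/-- The joint law of the squared lengths of the two blocks. -/
noncomputable def lensLaw (ι₁ ι₂ : Type) [Fintype ι₁] [Fintype ι₂] : Measure (ℝ × ℝ) :=
  ((gauss ι₁).map normSqF).prod ((gauss ι₂).map normSqF)

instance : IsProbabilityMeasure ((gauss ι₁).map normSqF) :=
  Measure.isProbabilityMeasure_map measurable_normSqF.aemeasurable

instance : IsProbabilityMeasure (lensLaw ι₁ ι₂) := by unfold lensLaw; infer_instance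

/-- The share of the first block. -/
noncomputable def share (t : ℝ × ℝ) : ℝ := t.1 / (t.1 + t.2)

lemma measurable_share : Measurable share :=
  measurable_fst.div (measurable_fst.add measurable_snd)

lemma share_mem_ae : ∀ᵐ t ∂lensLaw ι₁ ι₂, 0 ≤ share t ∧ share t ≤ 1 := by
  have hmeas : MeasurableSet {t : ℝ × ℝ | 0 ≤ share t ∧ share t ≤ 1} :=
    (measurableSet_le measurable_const measurable_share).inter
      (measurableSet_le measurable_share measurable_const)
  unfold lensLaw
  rw [Measure.map_prod_map _ _ measurable_normSqF measurable_normSqF,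
    ae_map_iff (measurable_normSqF.prodMap measurable_normSqF).aemeasurable hmeas]
  refine Eventually.of_forall fun p => ?_
  have h1 := normSqF_nonneg p.1
  have h2 := normSqF_nonneg p.2
  exact ⟨div_nonneg h1 (add_nonneg h1 h2), div_le_one_of_le₀ (le_add_of_nonneg_right h2)
    (add_nonneg h1 h2)⟩

/-- A uniform point of the sphere as a random share and independent uniform directions. -/
lemma integral_unitUnif_sum [Nonempty ι₁] [Nonempty ι₂] {Φ : (ι₁ ⊕ ι₂ → ℝ) → ℝ}
    (hΦ : Measurable Φ) {B : ℝ} (hB : ∀ a, |Φ a| ≤ B) :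
    ∫ a, Φ a ∂unitUnif (ι₁ ⊕ ι₂) =
      ∫ t, ∫ p, Φ (joinBlocks (share t) p) ∂(unitUnif ι₁).prod (unitUnif ι₂)
        ∂lensLaw ι₁ ι₂ := by
  set π₁ := unitUnif ι₁
  set π₂ := unitUnif ι₂
  set ν₁ := (gauss ι₁).map normSqF
  set ν₂ := (gauss ι₂).map normSqF
  let Q : ((ι₁ → ℝ) × ℝ) × ((ι₂ → ℝ) × ℝ) → ℝ := fun q =>
    Φ (joinBlocks (share (q.1.2, q.2.2)) (q.1.1, q.2.1))
  have hQm : Measurable Q := hΦ.comp (measurable_joinBlocks.comp
    ((measurable_share.comp ((measurable_snd.comp measurable_fst).prodMk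
      (measurable_snd.comp measurable_snd))).prodMk
      ((measurable_fst.comp measurable_fst).prodMk (measurable_fst.comp measurable_snd))))
  have hQb : ∀ q, |Q q| ≤ B := fun q => hB _
  have hmp := measurePreserving_sumPiEquivProdPi (fun _ : ι₁ ⊕ ι₂ => gaussianReal 0 1)
  have step1 : ∫ a, Φ a ∂unitUnif (ι₁ ⊕ ι₂) = ∫ q, Q q ∂(π₁.prod ν₁).prod (π₂.prod ν₂) := by
    rw [← map_udir, integral_map measurable_udir.aemeasurable hΦ.aestronglyMeasurable,
      ← map_polar, ← map_polar, Measure.map_prod_map _ _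
        (measurable_udir.prodMk measurable_normSqF) (measurable_udir.prodMk measurable_normSqF),
      integral_map ((measurable_udir.prodMk measurable_normSqF).prodMap
        (measurable_udir.prodMk measurable_normSqF)).aemeasurable hQm.aestronglyMeasurable]
    refine Eq.trans ?_ (hmp.integral_comp' _)
    refine integral_congr_ae (.of_forall fun ξ => ?_)
    simp only [Q, share, Prod.map]
    rw [← udir_sum]
    congr 2
    funext i
    cases i <;> rfl
  rw [step1]
  let P : (ℝ × ℝ) × ((ι₁ → ℝ) × (ι₂ → ℝ)) → ℝ := fun q => Φ (joinBlocks (share q.1) q.2)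
  have hre : MeasurePreserving
      (fun q : ((ι₁ → ℝ) × ℝ) × ((ι₂ → ℝ) × ℝ) => ((q.1.2, q.2.2), (q.1.1, q.2.1)))
      ((π₁.prod ν₁).prod (π₂.prod ν₂)) ((ν₁.prod ν₂).prod (π₁.prod π₂)) := by
    have hm : Measurable
        (fun q : ((ι₁ → ℝ) × ℝ) × ((ι₂ → ℝ) × ℝ) => ((q.1.2, q.2.2), (q.1.1, q.2.1))) :=
      ((measurable_snd.comp measurable_fst).prodMk (measurable_snd.comp measurable_snd)).prodMk
        ((measurable_fst.comp measurable_fst).prodMk (measurable_fst.comp measurable_snd))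
    refine ⟨hm, ?_⟩
    refine (Measure.prod_eq_generateFrom generateFrom_prod generateFrom_prod isPiSystem_prod
      isPiSystem_prod
      ((ν₁.toFiniteSpanningSetsIn).prod (ν₂.toFiniteSpanningSetsIn))
      ((π₁.toFiniteSpanningSetsIn).prod (π₂.toFiniteSpanningSetsIn)) ?_).symm
    rintro _ ⟨A, hA, B', hB', rfl⟩ _ ⟨C, hC, D, hD, rfl⟩
    have hA' : MeasurableSet A := hA
    have hB'' : MeasurableSet B' := hB'
    have hC' : MeasurableSet C := hC
    have hD' : MeasurableSet D := hD
    rw [Measure.map_apply hm ((hA'.prod hB'').prod (hC'.prod hD'))]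
    have e : (fun q : ((ι₁ → ℝ) × ℝ) × ((ι₂ → ℝ) × ℝ) => ((q.1.2, q.2.2), (q.1.1, q.2.1))) ⁻¹'
        ((A ×ˢ B') ×ˢ (C ×ˢ D)) = (C ×ˢ A) ×ˢ (D ×ˢ B') := by
      ext q
      simp only [Set.mem_preimage, Set.mem_prod]
      tauto
    rw [e, Measure.prod_prod, Measure.prod_prod, Measure.prod_prod, Measure.prod_prod,
      Measure.prod_prod]
    ring
  have hPm : Measurable P := hΦ.comp (measurable_joinBlocks.comp
    ((measurable_share.comp measurable_fst).prodMk measurable_snd))
  have hiP : Integrable P ((ν₁.prod ν₂).prod (π₁.prod π₂)) :=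
    Integrable.of_bound hPm.aestronglyMeasurable B (.of_forall fun q => by
      rw [Real.norm_eq_abs]; exact hB _)
  calc ∫ q, Q q ∂(π₁.prod ν₁).prod (π₂.prod ν₂)
      = ∫ q, P q ∂(ν₁.prod ν₂).prod (π₁.prod π₂) := by
        rw [← hre.map_eq, integral_map hre.measurable.aemeasurable]
        rw [hre.map_eq]
        exact hPm.aestronglyMeasurable
    _ = _ := by rw [integral_prod _ hiP]; rfl

variable {u : ℝ → ℝ} {L : ℝ}

/-- The weight of a finite system is a measurable function of its configurations. -/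
lemma measurable_logPart_replicate (hu : Weight u L) {S X ι : Type} [MeasurableSpace S] [Fintype X]
    [Fintype ι] (A : S → X → ι → ℝ) {V : X → ℝ} (M : ℕ) (hA : Measurable A) (hV : ∀ x, 0 ≤ V x)
    (hS : 0 < ∑ x, V x) : Measurable fun p => logPart u (List.replicate M (A p)) V := by
  simp only [logPart_eq_pi hu _ M hV hS]
  have h : Measurable fun q : S × (Fin M → ι → ℝ) =>
      Real.log (∑ x, V x * ∏ j, u (field (A q.1) (q.2 j) x)) := by
    refine Real.measurable_log.comp (Finset.measurable_sum _ fun x _ => measurable_const.mul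
      (Finset.measurable_prod _ fun j _ => hu.cont.measurable.comp ?_))
    unfold field
    refine Finset.measurable_sum _ fun i _ => Measurable.mul ?_ ?_
    · exact (measurable_pi_apply i).comp ((measurable_pi_apply j).comp measurable_snd)
    · exact (measurable_pi_apply i).comp
        ((measurable_pi_apply x).comp (hA.comp measurable_fst))
  exact h.stronglyMeasurable.integral_prod_right'.measurable

lemma phaseVar_join {β : ℝ} (hβ0 : 0 ≤ β) (hβ1 : β ≤ 1) {X₁ X₂ : Type} (a₁ : X₁ → ι₁ → ℝ)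
    (a₂ : X₂ → ι₂ → ℝ) {k : ℕ} (σ : Fin k → X₁ × X₂) (r : Fin k → ℝ) :
    phaseVar (fun x => joinBlocks β (a₁ x.1, a₂ x.2)) σ r =
      β * phaseVar (blockCoef a₁ a₂ true) σ r +
        (1 - β) * phaseVar (blockCoef a₁ a₂ false) σ r := by
  simp only [phaseVar, joinBlocks, blockCoef, Fintype.sum_sum_type, Sum.elim_inl, Sum.elim_inr,
    mul_zero, sum_const_zero, ne_eq, OfNat.ofNat_ne_zero, not_false_eq_true, zero_pow, add_zero,
    zero_add, mul_sum]
  congr 1 <;> refine sum_congr rfl fun i _ => ?_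
  · rw [show ∑ l, r l * (Real.sqrt β * a₁ (σ l).1 i) =
        Real.sqrt β * ∑ l, r l * a₁ (σ l).1 i by
      rw [mul_sum]; exact sum_congr rfl fun l _ => by ring]
    rw [mul_pow, Real.sq_sqrt hβ0]
  · rw [show ∑ l, r l * (Real.sqrt (1 - β) * a₂ (σ l).2 i) =
        Real.sqrt (1 - β) * ∑ l, r l * a₂ (σ l).2 i by
      rw [mul_sum]; exact sum_congr rfl fun l _ => by ring]
    rw [mul_pow, Real.sq_sqrt (by linarith)]

/-- Interpolation for two finite blocks at a given share. -/
lemma join_pointwise {ρ : Measure ℝ} [IsFiniteMeasure ρ] {c : ℝ} (hc : ρ.real Set.univ < c)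
    (hu : Weight (fun z => c - cosTransform ρ z) L) {K : ℕ} {W : Fin K → ℝ}
    (hW0 : ∀ k, 0 ≤ W k) (hW1 : ∑ k, W k = 1) (a₁ : Fin K → ι₁ → ℝ) (a₂ : Fin K → ι₂ → ℝ)
    {β : ℝ} (hβ0 : 0 ≤ β) (hβ1 : β ≤ 1) (m₁ m₂ n : ℕ) {s : ℝ} (hs : 0 < s) :
    logPart (fun z => c - cosTransform ρ z) (List.replicate m₁ a₁) W +
        logPart (fun z => c - cosTransform ρ z) (List.replicate m₂ a₂) W -
        (L * (((n : ℝ) * β - m₁) ^ 2 + ((n : ℝ) * (1 - β) - m₂) ^ 2 + 2 * n * β * (1 - β)) /
          (2 * s) + L * s) ≤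
      logPart (fun z => c - cosTransform ρ z)
        (List.replicate n (fun x : Fin K × Fin K => joinBlocks β (a₁ x.1, a₂ x.2)))
        (fun x => W x.1 * W x.2) := by
  have hjen : ∀ V : Fin K × Fin K → ℝ, (∀ x, 0 ≤ V x) → 0 < ∑ x, V x →
      β * logPart (fun z => c - cosTransform ρ z) [blockCoef a₁ a₂ true] V +
        (1 - β) * logPart (fun z => c - cosTransform ρ z) [blockCoef a₁ a₂ false] V ≤
          logPart (fun z => c - cosTransform ρ z)
            [fun x : Fin K × Fin K => joinBlocks β (a₁ x.1, a₂ x.2)] V := fun V hV hS => by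
    simp only [logPart]
    exact integral_log_le hc hβ0 (by linarith) (by ring) _ _ _
      (fun k σ r => phaseVar_join hβ0 hβ1 a₁ a₂ σ r) V hV hS
  have h := interpolate hu hβ0 (by linarith : 0 ≤ 1 - β) (by ring) a₁ a₂ _ hjen hW0
    (by rw [hW1]; norm_num) hW0 (by rw [hW1]; norm_num) m₁ m₂ hs n []
  simp only [List.map_nil, List.append_nil, List.count_nil, Nat.cast_zero, zero_add] at h
  linarith

/-- Interpolation between two blocks at a given share, for sampled configurations. -/
lemma contLog_join_ge {ρ : Measure ℝ} [IsFiniteMeasure ρ] {c : ℝ} (hc : ρ.real Set.univ < c)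
    (hu : Weight (fun z => c - cosTransform ρ z) L)
    (π₁ : Measure (ι₁ → ℝ)) [IsProbabilityMeasure π₁] (π₂ : Measure (ι₂ → ℝ))
    [IsProbabilityMeasure π₂] {β : ℝ} (hβ0 : 0 ≤ β) (hβ1 : β ≤ 1) (m₁ m₂ n : ℕ) {s : ℝ}
    (hs : 0 < s) :
    contLog (fun z => c - cosTransform ρ z) π₁ m₁ + contLog (fun z => c - cosTransform ρ z) π₂ m₂ -
        L * (((n : ℝ) * β - m₁) ^ 2 + ((n : ℝ) * (1 - β) - m₂) ^ 2 + 2 * n * β * (1 - β)) /
          (2 * s) - L * s ≤
      contLog (fun z => c - cosTransform ρ z) ((π₁.prod π₂).map (joinBlocks β)) n := by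
  set w := fun z => c - cosTransform ρ z with hw
  set E := L * (((n : ℝ) * β - m₁) ^ 2 + ((n : ℝ) * (1 - β) - m₂) ^ 2 + 2 * n * β * (1 - β)) /
      (2 * s) + L * s
  have hstep : ∀ K : ℕ, 0 < K → contLog w π₁ m₁ + contLog w π₂ m₂ - E -
      (Real.exp (L * m₁) * Real.exp (L * m₁) + Real.exp (L * m₂) * Real.exp (L * m₂) +
        2 * (Real.exp (L * n) * Real.exp (L * n))) / Real.sqrt K ≤
      contLog w ((π₁.prod π₂).map (joinBlocks β)) n := by
    intro K hK
    have hK0 : (0 : ℝ) < K := by exact_mod_cast hK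
    set P₁ := Measure.pi fun _ : Fin K => π₁
    set P₂ := Measure.pi fun _ : Fin K => π₂
    set W : Fin K → ℝ := fun _ => (K : ℝ)⁻¹ with hW
    have hW0 : ∀ k, 0 ≤ W k := fun _ => by positivity
    have hW1 : ∑ k, W k = 1 := by simp [hW]; field_simp
    let lp₁ : (Fin K → ι₁ → ℝ) → ℝ := fun p => logPart w (List.replicate m₁ (fun k => p k)) W
    let lp₂ : (Fin K → ι₂ → ℝ) → ℝ := fun p => logPart w (List.replicate m₂ (fun k => p k)) W
    let lp : (Fin K → ι₁ → ℝ) × (Fin K → ι₂ → ℝ) → ℝ := fun p => logPart w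
      (List.replicate n (fun x : Fin K × Fin K => joinBlocks β (p.1 x.1, p.2 x.2)))
      (fun _ => (K : ℝ)⁻¹ * (K : ℝ)⁻¹)
    have hpt : ∀ p, lp₁ p.1 + lp₂ p.2 - E ≤ lp p := fun p =>
      join_pointwise hc hu hW0 hW1 (fun k => p.1 k) (fun k => p.2 k) hβ0 hβ1 m₁ m₂ n hs
    have b₁ : ∀ p, |lp₁ p| ≤ L * m₁ := fun p => by
      simpa [lp₁, hW1] using abs_logPart_sub hu (List.replicate m₁ (fun k => p k)) hW0
        (by rw [hW1]; norm_num)
    have b₂ : ∀ p, |lp₂ p| ≤ L * m₂ := fun p => by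
      simpa [lp₂, hW1] using abs_logPart_sub hu (List.replicate m₂ (fun k => p k)) hW0
        (by rw [hW1]; norm_num)
    have b : ∀ p, |lp p| ≤ L * n := fun p => by
      have hS : ∑ _x : Fin K × Fin K, (K : ℝ)⁻¹ * (K : ℝ)⁻¹ = 1 := by simp; field_simp
      simpa [lp, hS] using abs_logPart_sub hu
        (List.replicate n (fun x : Fin K × Fin K => joinBlocks β (p.1 x.1, p.2 x.2)))
        (W := fun _ => (K : ℝ)⁻¹ * (K : ℝ)⁻¹) (fun _ => by positivity) (by rw [hS]; norm_num)
    have i₁ : Integrable lp₁ P₁ := Integrable.of_bound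
      (measurable_logPart_replicate hu (fun p : Fin K → ι₁ → ℝ => fun k => p k) m₁ measurable_id hW0
        (by rw [hW1]; norm_num)).aestronglyMeasurable _
      (.of_forall fun p => (Real.norm_eq_abs _).trans_le (b₁ p))
    have i₂ : Integrable lp₂ P₂ := Integrable.of_bound
      (measurable_logPart_replicate hu (fun p : Fin K → ι₂ → ℝ => fun k => p k) m₂ measurable_id hW0
        (by rw [hW1]; norm_num)).aestronglyMeasurable _
      (.of_forall fun p => (Real.norm_eq_abs _).trans_le (b₂ p))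
    have hmA : Measurable fun (p : (Fin K → ι₁ → ℝ) × (Fin K → ι₂ → ℝ))
        (x : Fin K × Fin K) => joinBlocks β (p.1 x.1, p.2 x.2) :=
      measurable_pi_lambda _ fun x => (measurable_joinBlocks' β).comp
        (((measurable_pi_apply x.1).comp measurable_fst).prodMk
          ((measurable_pi_apply x.2).comp measurable_snd))
    have i : Integrable lp (P₁.prod P₂) := Integrable.of_bound
      (measurable_logPart_replicate hu _ (V := fun _ => (K : ℝ)⁻¹ * (K : ℝ)⁻¹) n hmA (fun _ => by positivity)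
        (by simp; positivity)).aestronglyMeasurable _
      (.of_forall fun p => (Real.norm_eq_abs _).trans_le (b p))
    have hint := integral_mono (((i₁.comp_fst P₂).add (i₂.comp_snd P₁)).sub
      (integrable_const E)) i hpt
    simp only [Pi.sub_apply, Pi.add_apply] at hint
    rw [integral_sub ((i₁.comp_fst P₂).fun_add (i₂.comp_snd P₁)) (integrable_const E),
      integral_add (i₁.comp_fst P₂) (i₂.comp_snd P₁), integral_fun_fst lp₁,
      integral_fun_snd lp₂] at hint
    simp only [probReal_univ, one_smul, integral_const] at hint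
    have e₁ : |∫ p, lp₁ p ∂P₁ - contLog w π₁ m₁| ≤ _ := abs_sample_one hu π₁ m₁ hK
    have e₂ : |∫ p, lp₂ p ∂P₂ - contLog w π₂ m₂| ≤ _ := abs_sample_one hu π₂ m₂ hK
    have e : |∫ p, lp p ∂P₁.prod P₂ - contLog w ((π₁.prod π₂).map (joinBlocks β)) n| ≤ _ :=
      abs_sample_two hu π₁ π₂ (joinBlocks β) (measurable_joinBlocks' β) n hK
    rw [abs_le] at e₁ e₂ e
    have hsplit : (Real.exp (L * m₁) * Real.exp (L * m₁) +
        Real.exp (L * m₂) * Real.exp (L * m₂) +
        2 * (Real.exp (L * n) * Real.exp (L * n))) / Real.sqrt K =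
        Real.exp (L * m₁) * (Real.exp (L * m₁) / Real.sqrt K) +
        Real.exp (L * m₂) * (Real.exp (L * m₂) / Real.sqrt K) +
        Real.exp (L * n) * (2 * (Real.exp (L * n) / Real.sqrt K)) := by ring
    rw [hsplit]
    linarith [e₁.1, e₂.1, e.2]
  have hlim : Tendsto (fun K : ℕ => contLog w π₁ m₁ + contLog w π₂ m₂ - E -
      (Real.exp (L * m₁) * Real.exp (L * m₁) + Real.exp (L * m₂) * Real.exp (L * m₂) +
        2 * (Real.exp (L * n) * Real.exp (L * n))) / Real.sqrt K) atTop
      (𝓝 (contLog w π₁ m₁ + contLog w π₂ m₂ - E - 0)) :=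
    tendsto_const_nhds.sub
      ((Real.tendsto_sqrt_atTop.comp tendsto_natCast_atTop_atTop).const_div_atTop _)
  have := le_of_tendsto hlim ((eventually_gt_atTop 0).mono fun K hK => hstep K hK)
  simp only [E, sub_zero, sub_add_eq_sub_sub] at this
  linarith

end Vale.Agent.P157
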