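import Vale.Agent.P157.Annealed

/-!
When the first Gaussian moment of the weight does not vanish, the test function built on the sum
of the patterns separates the averaged logarithm from its annealed value.
-/

namespace Vale.Agent.P157

open MeasureTheory ProbabilityTheory Finset

variable {ι : Type} [Fintype ι] {w : ℝ → ℝ} {B : ℝ}

/-- The squared length of the sum of the patterns. -/
def sumSq {M : ℕ} (G : Fin M → ι → ℝ) : ℝ := ∑ i, (∑ j, G j i) ^ 2

lemma sumSq_nonneg {M : ℕ} (G : Fin M → ι → ℝ) : 0 ≤ sumSq G := sum_nonneg fun _ _ => sq_nonneg _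

lemma integral_sumSq {M : ℕ} :
    Integrable (sumSq : (Fin M → ι → ℝ) → ℝ) (gaussM ι M) ∧
      ∫ G, sumSq G ∂gaussM ι M = M * Fintype.card ι := by
  classical
  have hmem : ∀ (j : Fin M) (i : ι), MemLp (fun G : Fin M → ι → ℝ => G j i) 2 (gaussM ι M) :=
    fun j i => ((memLp_id_gaussianReal' (μ := 0) (v := 1) 2 (by norm_num)).comp_measurePreserving
      (measurePreserving_eval (fun _ : ι => gaussianReal 0 1) i)).comp_measurePreserving
      (measurePreserving_eval (fun _ : Fin M => gauss ι) j)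
  have hS : ∀ i, MemLp (fun G : Fin M → ι → ℝ => ∑ j, G j i) 2 (gaussM ι M) :=
    fun i => memLp_finsetSum _ fun j _ => hmem j i
  refine ⟨integrable_finsetSum _ fun i _ => (hS i).integrable_sq, ?_⟩
  have key : ∀ i, ∫ G, (∑ j, G j i) ^ 2 ∂gaussM ι M = (M : ℝ) := by
    intro i
    have h := map_gaussM_eq (M := M) (Λ := Unit) (fun _ _ i' => if i' = i then (1 : ℝ) else 0)
      (fun _ (_ : Unit) => Real.sqrt M) (fun s => by
        simp [mul_pow, mul_comm])
    have e1 := integral_map (μ := gaussM ι M)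
      (φ := fun G (_ : Unit) => ∑ j, ∑ i', G j i' * if i' = i then (1 : ℝ) else 0)
      (f := fun q : Unit → ℝ => q () ^ 2) (Measurable.aemeasurable (by fun_prop))
      ((measurable_pi_apply ()).pow_const 2).aestronglyMeasurable
    rw [h, integral_map (f := fun q : Unit → ℝ => q () ^ 2) (Measurable.aemeasurable (by fun_prop))
      ((measurable_pi_apply ()).pow_const 2).aestronglyMeasurable] at e1
    simp only [mul_ite, mul_one, mul_zero, sum_ite_eq', mem_univ, if_true, Fintype.sum_unique] at e1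
    rw [← e1]
    simp only [mul_pow, Real.sq_sqrt (Nat.cast_nonneg M)]
    rw [integral_mul_const]
    unfold gauss
    rw [integral_comp_eval (μ := fun _ : Unit => gaussianReal 0 1) (i := default)
      (f := fun x : ℝ => x ^ 2) (by fun_prop)]
    have h2 := variance_id_gaussianReal (μ := 0) (v := 1)
    rw [variance_eq_integral measurable_id.aemeasurable] at h2
    simp only [id, integral_id_gaussianReal, sub_zero, NNReal.coe_one] at h2
    rw [h2, one_mul]
  unfold sumSq
  rw [integral_finsetSum _ fun i _ => (hS i).integrable_sq]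
  simp [key, mul_comm]

/-- The law of the fields along a unit vector together with the sum of the patterns. -/
lemma integral_field_sum {a : ι → ℝ} (ha : ∑ i, a i ^ 2 = 1) (hw : Measurable w) {M : ℕ}
    (κ : ℝ) :
    ∫ G, phiW w G a * Real.exp (-κ * sumSq G) ∂gaussM ι M =
      (∫ z : Fin M → ℝ, (∏ j, w (z j)) * Real.exp (-κ * (∑ j, z j) ^ 2) ∂gauss (Fin M)) *
        ∫ ξ, Real.exp (-κ * M * (∑ i, ξ i ^ 2 - (∑ i, ξ i * a i) ^ 2)) ∂gauss ι := by
  classical
  let P : (Fin M ⊕ ι) → Fin M → ι → ℝ := Sum.elim (fun l j i => if j = l then a i else 0)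
    (fun l _ i => if i = l then 1 else 0)
  let Q : (Fin M ⊕ ι) → (Fin M ⊕ ι) → ℝ := Sum.elim
    (fun l => Sum.elim (fun j => if j = l then 1 else 0) fun _ => 0)
    (fun l => Sum.elim (fun _ => a l)
      fun i => Real.sqrt M * ((if i = l then 1 else 0) - a i * a l))
  have hlaw := map_gaussM_eq P Q (fun s => by
    simp only [P, Q, Fintype.sum_sum_type, Sum.elim_inl, Sum.elim_inr, mul_ite, mul_one, mul_zero,
      sum_ite_eq, mem_univ, if_true, sum_const_zero, zero_add]
    set p := ∑ l, s (Sum.inr l) * a l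
    have e : ∀ i, ∑ l, s (Sum.inr l) * (Real.sqrt M * ((if i = l then 1 else 0) - a i * a l)) =
        Real.sqrt M * (s (Sum.inr i) - a i * p) := by
      intro i
      simp only [mul_sub, sum_sub_distrib, mul_ite, mul_one, mul_zero, sum_ite_eq, mem_univ,
        if_true, p, mul_sum]
      rw [mul_comm]
      exact congrArg₂ (· - ·) rfl (sum_congr rfl fun l _ => by ring)
    simp only [e, mul_pow, Real.sq_sqrt (Nat.cast_nonneg M)]
    have e1 : ∀ j, ∑ i, (s (Sum.inl j) * a i + s (Sum.inr i)) ^ 2 =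
        s (Sum.inl j) ^ 2 + 2 * s (Sum.inl j) * p + ∑ i, s (Sum.inr i) ^ 2 := by
      intro j
      rw [show s (Sum.inl j) ^ 2 = s (Sum.inl j) ^ 2 * ∑ i, a i ^ 2 by rw [ha, mul_one]]
      simp only [p, mul_sum, ← sum_add_distrib]
      exact sum_congr rfl fun i _ => by ring
    have e2 : ∑ i, (s (Sum.inr i) - a i * p) ^ 2 = ∑ i, s (Sum.inr i) ^ 2 - p ^ 2 := by
      have e3 : ∀ i, (s (Sum.inr i) - a i * p) ^ 2 =
          s (Sum.inr i) ^ 2 - 2 * p * (s (Sum.inr i) * a i) + p ^ 2 * a i ^ 2 := fun i => by ring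
      simp only [e3, sum_add_distrib, sum_sub_distrib, ← mul_sum, ha]
      simp only [p]
      ring
    rw [← mul_sum, e2]
    simp only [e1]
    simp only [add_sq, sum_add_distrib, sum_const, card_univ, Fintype.card_fin, nsmul_eq_mul]
    simp only [← sum_mul, ← mul_sum]
    ring)
  let F : (Fin M ⊕ ι → ℝ) → ℝ := fun q =>
    (∏ j, w (q (Sum.inl j))) * Real.exp (-κ * ∑ i, q (Sum.inr i) ^ 2)
  have hF : Measurable F := (Finset.measurable_prod _ fun j _ => hw.comp (measurable_pi_apply _)).mul
    ((measurable_const.mul (Finset.measurable_sum _ fun i _ =>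
      (measurable_pi_apply (Sum.inr i)).pow_const 2)).exp)
  have e1 := integral_map (μ := gaussM ι M) (φ := fun G l => ∑ j, ∑ i, G j i * P l j i) (f := F)
    (Measurable.aemeasurable (by fun_prop)) hF.aestronglyMeasurable
  rw [hlaw, integral_map (Measurable.aemeasurable (by fun_prop)) hF.aestronglyMeasurable] at e1
  have l1 : ∀ G : Fin M → ι → ℝ,
      F (fun l => ∑ j, ∑ i, G j i * P l j i) = phiW w G a * Real.exp (-κ * sumSq G) := by
    intro G
    simp [F, P, phiW, sumSq, mul_ite]
  let A : (Fin M → ℝ) → ℝ := fun z => (∏ j, w (z j)) * Real.exp (-κ * (∑ j, z j) ^ 2)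
  let C : (ι → ℝ) → ℝ := fun ξ =>
    Real.exp (-κ * M * (∑ i, ξ i ^ 2 - (∑ i, ξ i * a i) ^ 2))
  have r1 : ∀ g : Fin M ⊕ ι → ℝ, F (fun l => ∑ k, g k * Q l k) =
      A (fun j => g (Sum.inl j)) * C (fun i => g (Sum.inr i)) := by
    intro g
    set u := ∑ j, g (Sum.inl j)
    set p := ∑ i, g (Sum.inr i) * a i with hp
    have hr : ∀ l, ∑ k, g k * Q (Sum.inr l) k =
        u * a l + Real.sqrt M * (g (Sum.inr l) - p * a l) := by
      intro l
      simp only [Q, Fintype.sum_sum_type, Sum.elim_inl, Sum.elim_inr, u, p, sum_mul]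
      congr 1
      simp only [mul_sub, sum_sub_distrib, mul_ite, mul_one, mul_zero, sum_ite_eq', mem_univ,
        if_true, mul_sum]
      rw [mul_comm]
      exact congrArg₂ (· - ·) rfl (sum_congr rfl fun i _ => by ring)
    have hl : ∀ l, ∑ k, g k * Q (Sum.inl l) k = g (Sum.inl l) := by
      intro l
      simp [Q, Fintype.sum_sum_type]
    have hsq : ∑ l, (u * a l + Real.sqrt M * (g (Sum.inr l) - p * a l)) ^ 2 =
        u ^ 2 + M * (∑ i, g (Sum.inr i) ^ 2 - p ^ 2) := by
      have e : ∀ l, (u * a l + Real.sqrt M * (g (Sum.inr l) - p * a l)) ^ 2 =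
          (u - Real.sqrt M * p) ^ 2 * a l ^ 2 +
            2 * (u - Real.sqrt M * p) * Real.sqrt M * (g (Sum.inr l) * a l) +
            Real.sqrt M ^ 2 * g (Sum.inr l) ^ 2 := fun l => by ring
      simp only [e, sum_add_distrib, ← mul_sum, ha, ← hp]
      linear_combination (∑ i, g (Sum.inr i) ^ 2 - p ^ 2) * Real.sq_sqrt (Nat.cast_nonneg' (α := ℝ) M)
    simp only [F, A, C, hr, hl, hsq]
    rw [mul_assoc (∏ j, _), ← Real.exp_add]
    congr 2
    ring
  simp only [l1, r1] at e1
  rw [← e1]
  unfold gauss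
  rw [← integral_prod_mul A C,
    ← (measurePreserving_sumPiEquivProdPi
      (fun _ : Fin M ⊕ ι => gaussianReal 0 1)).integral_comp']
  rfl

lemma exp_neg_le_quadratic {y : ℝ} (hy : 0 ≤ y) : Real.exp (-y) ≤ 1 - y + y ^ 2 / 2 := by
  have h := Real.quadratic_le_exp_of_nonneg hy
  rw [Real.exp_neg, inv_le_iff_one_le_mul₀ (Real.exp_pos y)]
  have h2 : 0 ≤ 1 - y + y ^ 2 / 2 := by nlinarith [sq_nonneg (y - 1)]
  refine le_trans ?_ (mul_le_mul_of_nonneg_left h h2)
  nlinarith [sq_nonneg (y ^ 2)]

/-- The part of a Gaussian vector orthogonal to a unit vector. -/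
lemma ortho_factor_le {a : ι → ℝ} (ha : ∑ i, a i ^ 2 = 1) {k : ℝ} (hk0 : 0 ≤ k)
    (hk : 2 * k ≤ 1 / 4) :
    ∫ ξ, Real.exp (-k * (∑ i, ξ i ^ 2 - (∑ i, ξ i * a i) ^ 2)) ∂gauss ι ≤
      (1 + ∫ z, Real.exp (z ^ 2 / 4) ∂gaussianReal 0 1) *
        Real.exp (Fintype.card ι * (-k + (∫ x, x ^ 4 ∂gaussianReal 0 1) * k ^ 2)) := by
  set μ₄ := ∫ x, x ^ 4 ∂gaussianReal 0 1
  set Cg := ∫ z, Real.exp (z ^ 2 / 4) ∂gaussianReal 0 1
  set D := (Fintype.card ι : ℝ) * (-k + μ₄ * k ^ 2)
  have hi4 : Integrable (fun x : ℝ => x ^ 4) (gaussianReal 0 1) := by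
    refine ((memLp_id_gaussianReal (μ := 0) (v := 1) 4).integrable_norm_pow (p := 4)
      (by norm_num)).congr (.of_forall fun x => ?_)
    simp only [id, Real.norm_eq_abs]
    rw [show |x| ^ 4 = (|x| ^ 2) ^ 2 by ring, sq_abs]; ring
  have hi2 : Integrable (fun x : ℝ => x ^ 2) (gaussianReal 0 1) :=
    (memLp_id_gaussianReal' (μ := 0) (v := 1) 2 (by norm_num)).integrable_sq
  have h2 : ∫ x, x ^ 2 ∂gaussianReal 0 1 = 1 := by
    have h2 := variance_id_gaussianReal (μ := 0) (v := 1)
    rw [variance_eq_integral measurable_id.aemeasurable] at h2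
    simpa [integral_id_gaussianReal] using h2
  have hone : ∫ x, Real.exp (-(2 * k) * x ^ 2) ∂gaussianReal 0 1 ≤
      Real.exp (2 * (-k + μ₄ * k ^ 2)) := by
    refine le_trans (integral_mono (g := fun x => 1 - 2 * k * x ^ 2 + 2 * k ^ 2 * x ^ 4)
      (Integrable.of_bound (by fun_prop) 1 (.of_forall fun x => ?_))
      (((integrable_const 1).sub (hi2.const_mul _)).add (hi4.const_mul _)) fun x => ?_) ?_
    · rw [Real.norm_eq_abs, abs_of_pos (Real.exp_pos _), Real.exp_le_one_iff]
      nlinarith [sq_nonneg x]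
    · have := exp_neg_le_quadratic (show 0 ≤ 2 * k * x ^ 2 by positivity)
      refine le_trans (le_of_eq ?_) (this.trans (le_of_eq ?_))
      · ring_nf
      · ring
    · have hs : Integrable (fun x : ℝ => 1 - 2 * k * x ^ 2) (gaussianReal 0 1) :=
        (integrable_const 1).sub (hi2.const_mul _)
      rw [integral_add hs (hi4.const_mul _), integral_sub (integrable_const 1) (hi2.const_mul _),
        integral_const_mul, integral_const_mul, h2]
      simp only [integral_const, probReal_univ, one_smul, mul_one]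
      refine le_trans (le_of_eq ?_) (Real.add_one_le_exp _)
      simp only [μ₄]
      ring
  let X : (ι → ℝ) → ℝ := fun ξ => Real.exp (-(2 * k) * ∑ i, ξ i ^ 2)
  let Y : (ι → ℝ) → ℝ := fun ξ => Real.exp (2 * k * (∑ i, ξ i * a i) ^ 2)
  have hX : ∫ ξ, X ξ ∂gauss ι ≤ Real.exp (2 * D) := by
    simp only [X, mul_sum, Real.exp_sum]
    unfold gauss
    rw [integral_fintype_prod_eq_prod (fun _ (x : ℝ) => Real.exp (-(2 * k) * x ^ 2)), prod_const,
      card_univ]
    refine (pow_le_pow_left₀ (integral_nonneg fun x => (Real.exp_pos _).le) hone _).trans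
      (le_of_eq ?_)
    rw [← Real.exp_nat_mul]
    simp only [D]
    ring_nf
  have hXi : Integrable X (gauss ι) := Integrable.of_bound (by fun_prop) 1 (.of_forall fun ξ => by
    have := sum_nonneg fun i (_ : i ∈ univ) => sq_nonneg (ξ i)
    rw [Real.norm_eq_abs, abs_of_pos (Real.exp_pos _), Real.exp_le_one_iff]
    nlinarith)
  have hlaw := map_gauss_eq (Λ := Unit) (fun _ i => a i) (fun _ (_ : Unit) => (1 : ℝ))
    (fun s => by simp only [Fintype.sum_unique, mul_pow, ← mul_sum, ha]; simp)
  have hEi : Integrable (fun z : ℝ => Real.exp (2 * k * z ^ 2)) (gaussianReal 0 1) :=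
    integrable_exp_sq_gaussian (by linarith)
  have hYi : Integrable Y (gauss ι) := by
    have h1 : Integrable (fun q : Unit → ℝ => Real.exp (2 * k * q () ^ 2))
        ((gauss Unit).map fun g (_ : Unit) => ∑ k, g k * 1) := by
      rw [integrable_map_measure (Measurable.aestronglyMeasurable (by fun_prop))
        (Measurable.aemeasurable (by fun_prop))]
      refine (MeasurePreserving.integrable_comp_of_integrable
        (measurePreserving_eval (fun _ : Unit => gaussianReal 0 1) ()) hEi).congr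
          (.of_forall fun g => ?_)
      simp
    rw [← hlaw, integrable_map_measure (Measurable.aestronglyMeasurable (by fun_prop))
      (Measurable.aemeasurable (by fun_prop))] at h1
    exact h1
  have hY : ∫ ξ, Y ξ ∂gauss ι ≤ Cg := by
    simp only [Y]
    rw [integral_field ha (F := fun z => Real.exp (2 * k * z ^ 2)) (by fun_prop)]
    refine integral_mono hEi ((integrable_exp_sq_gaussian (t := 1 / 4) (by norm_num)).congr
      (.of_forall fun z => by ring_nf)) fun z => Real.exp_le_exp.2 ?_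
    nlinarith [mul_le_mul_of_nonneg_right hk (sq_nonneg z)]
  set r := Real.exp (-D)
  have hr : 0 < r := Real.exp_pos _
  refine (integral_mono_of_nonneg (g := fun ξ => r * X ξ / 2 + Y ξ / (2 * r))
    (.of_forall fun ξ => (Real.exp_pos _).le) (((hXi.const_mul r).div_const 2).add
      (hYi.div_const _)) (.of_forall fun ξ => ?_)).trans ?_
  · set p := Real.exp (-k * ∑ i, ξ i ^ 2)
    set q := Real.exp (k * (∑ i, ξ i * a i) ^ 2)
    have e1 : X ξ = p ^ 2 := by
      simp only [X, p, sq (Real.exp _), ← Real.exp_add]; ring_nf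
    have e2 : Y ξ = q ^ 2 := by
      simp only [Y, q, sq (Real.exp _), ← Real.exp_add]; ring_nf
    have e3 : Real.exp (-k * (∑ i, ξ i ^ 2 - (∑ i, ξ i * a i) ^ 2)) = p * q := by
      simp only [p, q, ← Real.exp_add]; ring_nf
    simp only
    rw [e1, e2, e3, ← sub_nonneg]
    have e : r * p ^ 2 / 2 + q ^ 2 / (2 * r) - p * q = (r * p - q) ^ 2 / (2 * r) := by
      field_simp; ring
    rw [e]; positivity
  · rw [integral_add ((hXi.const_mul r).div_const 2) (hYi.div_const _), integral_div,
      integral_div, integral_const_mul]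
    have hCg : 0 ≤ Cg := integral_nonneg fun z => (Real.exp_pos _).le
    have t1 : r * (∫ ξ, X ξ ∂gauss ι) / 2 ≤ Real.exp D / 2 := by
      refine div_le_div_of_nonneg_right ((mul_le_mul_of_nonneg_left hX hr.le).trans
        (le_of_eq ?_)) (by norm_num)
      simp only [r, ← Real.exp_add]; ring_nf
    have t2 : (∫ ξ, Y ξ ∂gauss ι) / (2 * r) ≤ Cg * Real.exp D / 2 := by
      refine (div_le_div_of_nonneg_right hY (by positivity)).trans (le_of_eq ?_)
      simp only [r, Real.exp_neg]
      field_simp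
    nlinarith [Real.exp_pos D]

/-- The test function bound. -/
theorem BWeight.contLog_le_sumSq (hw : BWeight w B) (ν : Measure (ι → ℝ))
    [IsProbabilityMeasure ν] (hν : ∀ᵐ a ∂ν, ∑ i, a i ^ 2 = 1) (M : ℕ) {κ t : ℝ} (hκ : 0 ≤ κ)
    (hk : 2 * (κ * M) ≤ 1 / 4) (hs : |2 * κ * t| ≤ 1) :
    contLog w ν M - M * Real.log (∫ z, w z ∂gaussianReal 0 1) ≤
      Real.log (1 + ∫ z, Real.exp (z ^ 2 / 4) ∂gaussianReal 0 1) + κ * t ^ 2 +
        M * ((-(2 * κ * t) * (∫ z, z * w z ∂gaussianReal 0 1) +
          (2 * κ * t) ^ 2 * ∫ z, z ^ 2 * Real.exp |z| * w z ∂gaussianReal 0 1) /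
            (∫ z, w z ∂gaussianReal 0 1)) +
        Fintype.card ι * (∫ x, x ^ 4 ∂gaussianReal 0 1) * (κ * M) ^ 2 := by
  set m₀ := ∫ z, w z ∂gaussianReal 0 1
  set m₁ := ∫ z, z * w z ∂gaussianReal 0 1
  set J := ∫ z, z ^ 2 * Real.exp |z| * w z ∂gaussianReal 0 1
  set Cg := ∫ z, Real.exp (z ^ 2 / 4) ∂gaussianReal 0 1
  set μ₄ := ∫ x, x ^ 4 ∂gaussianReal 0 1
  set s := 2 * κ * t with hsdef
  have hm0 : 0 < m₀ := hw.integral_pos
  have hCg : 0 ≤ Cg := integral_nonneg fun z => (Real.exp_pos _).le
  have hie : Integrable (fun z => Real.exp (-s * z) * w z) (gaussianReal 0 1) :=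
    (integrable_exp_mul_gaussianReal (-s)).mul_bdd hw.meas.aestronglyMeasurable
      (.of_forall hw.norm_le)
  have hiw : Integrable w (gaussianReal 0 1) :=
    Integrable.of_bound hw.meas.aestronglyMeasurable _ (.of_forall hw.norm_le)
  have hiz : Integrable (fun z => z * w z) (gaussianReal 0 1) :=
    ((memLp_id_gaussianReal 1).integrable (by norm_num)).mul_bdd
      hw.meas.aestronglyMeasurable (.of_forall hw.norm_le)
  have hiJ : Integrable (fun z => z ^ 2 * Real.exp |z| * w z) (gaussianReal 0 1) := by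
    refine Integrable.mul_bdd ?_ hw.meas.aestronglyMeasurable (.of_forall hw.norm_le)
    refine Integrable.mono' (((integrable_exp_mul_gaussianReal (2 : ℝ)).add
      (integrable_exp_mul_gaussianReal (-2 : ℝ))).const_mul 2) (by fun_prop)
      (.of_forall fun z => ?_)
    rw [Real.norm_eq_abs, abs_of_nonneg (by positivity), Pi.add_apply]
    have h1 : z ^ 2 ≤ 2 * Real.exp |z| := by
      have := Real.quadratic_le_exp_of_nonneg (abs_nonneg z)
      rw [sq_abs] at this
      nlinarith [abs_nonneg z]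
    calc z ^ 2 * Real.exp |z| ≤ 2 * Real.exp |z| * Real.exp |z| :=
          mul_le_mul_of_nonneg_right h1 (Real.exp_pos _).le
      _ = 2 * Real.exp (2 * |z|) := by rw [mul_assoc, ← Real.exp_add]; ring_nf
      _ ≤ _ := by
          rcases abs_cases z with ⟨h, -⟩ | ⟨h, -⟩ <;> rw [h] <;>
            [have := Real.exp_pos (-2 * z); have := Real.exp_pos (2 * z)] <;>
            nlinarith [show Real.exp (2 * -z) = Real.exp (-2 * z) by ring_nf]
  have hone : ∫ z, Real.exp (-s * z) * w z ∂gaussianReal 0 1 ≤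
      m₀ * Real.exp ((-s * m₁ + s ^ 2 * J) / m₀) := by
    refine (integral_mono (g := fun z => w z + -s * (z * w z) +
      s ^ 2 * (z ^ 2 * Real.exp |z| * w z)) hie
      ((hiw.add (hiz.const_mul _)).add (hiJ.const_mul _)) fun z => ?_).trans ?_
    · have h := exp_second_order (-s * z)
      have h' : Real.exp |-s * z| ≤ Real.exp |z| := by
        rw [Real.exp_le_exp, abs_mul, abs_neg]
        exact mul_le_of_le_one_left (abs_nonneg z) hs
      have := mul_le_mul_of_nonneg_right (h.trans (add_le_add le_rfl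
        (mul_le_mul_of_nonneg_left h' (sq_nonneg _)))) (hw.pos z).le
      refine this.trans (le_of_eq ?_)
      ring
    · rw [integral_add (hiw.fun_add (hiz.const_mul _)) (hiJ.const_mul _),
        integral_add hiw (hiz.const_mul _), integral_const_mul, integral_const_mul]
      have := mul_le_mul_of_nonneg_left
        (Real.add_one_le_exp ((-s * m₁ + s ^ 2 * J) / m₀)) hm0.le
      refine le_trans (le_of_eq ?_) this
      simp only [m₀, m₁, J] at hm0 ⊢
      field_simp
      ring
  set E := κ * t ^ 2 + M * ((-s * m₁ + s ^ 2 * J) / m₀) +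
    Fintype.card ι * (-(κ * M) + μ₄ * (κ * M) ^ 2)
  have hfix : ∀ a : ι → ℝ, ∑ i, a i ^ 2 = 1 →
      ∫ G, phiW w G a * Real.exp (-κ * sumSq G) ∂gaussM ι M ≤
        (1 + Cg) * (m₀ ^ M * Real.exp E) := by
    intro a ha
    rw [integral_field_sum ha hw.meas κ]
    have h2 := ortho_factor_le (a := a) ha (k := κ * M) (by positivity) hk
    rw [show -(κ * (M : ℝ)) = -κ * M by ring] at h2
    have h1 : ∫ z : Fin M → ℝ, (∏ j, w (z j)) * Real.exp (-κ * (∑ j, z j) ^ 2) ∂gauss (Fin M) ≤
        Real.exp (κ * t ^ 2) * (m₀ ^ M * Real.exp (M * ((-s * m₁ + s ^ 2 * J) / m₀))) := by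
      refine (integral_mono_of_nonneg (g := fun z : Fin M → ℝ =>
        Real.exp (κ * t ^ 2) * ∏ j, (Real.exp (-s * z j) * w (z j)))
        (.of_forall fun z => mul_nonneg (prod_nonneg fun j _ => (hw.pos _).le)
          (Real.exp_pos _).le) ?_ (.of_forall fun z => ?_)).trans ?_
      · exact (Integrable.fintype_prod fun _ => hie).const_mul _
      · simp only
        rw [prod_mul_distrib, ← Real.exp_sum, ← mul_assoc, ← Real.exp_add, mul_comm (∏ j, w (z j))]
        refine mul_le_mul_of_nonneg_right (Real.exp_le_exp.2 ?_)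
          (prod_nonneg fun j _ => (hw.pos _).le)
        rw [← mul_sum, hsdef]
        nlinarith [mul_nonneg hκ (sq_nonneg (∑ j, z j - (-1) * (-t)))]
      · rw [integral_const_mul]
        unfold gauss
        rw [integral_fintype_prod_eq_prod (fun _ (x : ℝ) => Real.exp (-s * x) * w x), prod_const,
          card_univ, Fintype.card_fin]
        refine mul_le_mul_of_nonneg_left ?_ (Real.exp_pos _).le
        rw [Real.exp_nat_mul, ← mul_pow]
        exact pow_le_pow_left₀ (integral_nonneg fun x => mul_nonneg (Real.exp_pos _).le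
          (hw.pos x).le) hone M
    refine (mul_le_mul h1 h2 (integral_nonneg fun ξ => (Real.exp_pos _).le)
      (by positivity)).trans (le_of_eq ?_)
    simp only [E, Cg, μ₄, Real.exp_add, neg_mul]
    ring
  have hmj : Measurable fun p : (Fin M → ι → ℝ) × (ι → ℝ) =>
      phiW w p.1 p.2 * Real.exp (-κ * sumSq p.1) :=
    (hw.measurable_prod M).mul ((measurable_const.mul (Finset.measurable_sum _ fun i _ =>
      ((Finset.measurable_sum _ fun j _ => (measurable_pi_apply i).comp
        (measurable_pi_apply j)).pow_const 2).comp measurable_fst)).exp)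
  have hb : ∀ G : Fin M → ι → ℝ, Real.exp (-κ * sumSq G) ≤ 1 := fun G => by
    rw [Real.exp_le_one_iff, neg_mul, neg_nonpos]
    exact mul_nonneg hκ (sumSq_nonneg G)
  have hij : Integrable (fun p : (Fin M → ι → ℝ) × (ι → ℝ) =>
      phiW w p.1 p.2 * Real.exp (-κ * sumSq p.1)) ((gaussM ι M).prod ν) :=
    Integrable.of_bound hmj.aestronglyMeasurable (Real.exp (B * M) * 1) (.of_forall fun p => by
      rw [Real.norm_eq_abs, abs_of_pos (mul_pos (hw.prod_pos _ _) (Real.exp_pos _))]
      exact mul_le_mul (hw.prod_bounds _ _).2 (hb _) (Real.exp_pos _).le (Real.exp_pos _).le)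
  obtain ⟨hSi, hS⟩ := integral_sumSq (ι := ι) (M := M)
  have h := hw.contLog_le_test ν M (h := fun G => -κ * sumSq G) (hSi.const_mul _)
    (fun G => by nlinarith [sumSq_nonneg G])
    (c := Real.log (1 + Cg) + (M * Real.log m₀ + E)) (by
      rw [Real.exp_add, Real.exp_log (by linarith), Real.exp_add, Real.exp_nat_mul,
        Real.exp_log hm0]
      simp only [partFn, ← integral_mul_const]
      rw [integral_integral_swap hij]
      refine (integral_mono_ae hij.integral_prod_right (integrable_const _)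
        (hν.mono fun a ha => hfix a ha)).trans (le_of_eq (by simp)))
  rw [integral_const_mul, hS] at h
  simp only [E] at h
  linarith

end Vale.Agent.P157
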